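import Vale.Agent.P226.Defs

/-! # P226: basic facts on `hh w t = E (t + w U)^+` -/

namespace Vale.Agent.P226

open MeasureTheory ProbabilityTheory Real Set Filter Topology


/-- standard normal density. -/
noncomputable def phi (x : ℝ) : ℝ := (√(2 * π))⁻¹ * Real.exp (-x ^ 2 / 2)

/-- standard normal distribution function. -/
noncomputable def Phi (x : ℝ) : ℝ := ∫ u in Iic x, phi u

theorem phi_eq_pdf : phi = gaussianPDFReal 0 1 := by
  funext x
  simp [phi, gaussianPDFReal]

theorem phi_pos (x : ℝ) : 0 < phi x := by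
  unfold phi
  positivity

theorem phi_nonneg (x : ℝ) : 0 ≤ phi x := (phi_pos x).le

@[simp]
theorem phi_neg (x : ℝ) : phi (-x) = phi x := by simp [phi]

theorem phi_zero : phi 0 = t2 := by simp [phi, t2]

@[fun_prop]
theorem continuous_phi : Continuous phi := by
  unfold phi
  fun_prop

theorem hasDerivAt_phi (x : ℝ) : HasDerivAt phi (-x * phi x) x := by
  unfold phi
  have h := (((hasDerivAt_pow 2 x).neg.div_const 2).exp).const_mul (√(2 * π))⁻¹
  exact h.congr_deriv (by simp; ring)

theorem phi_le (x : ℝ) : phi x ≤ t2 := by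
  rw [← phi_zero]
  unfold phi
  refine mul_le_mul_of_nonneg_left (Real.exp_le_exp.2 ?_) (by positivity)
  nlinarith [sq_nonneg x]

theorem integrable_phi : Integrable phi := by
  rw [phi_eq_pdf]; exact integrable_gaussianPDFReal 0 1

theorem integral_phi : ∫ x, phi x = 1 := by
  rw [phi_eq_pdf]; exact integral_gaussianPDFReal_eq_one 0 one_ne_zero

theorem Phi_sub (a b : ℝ) : Phi b - Phi a = ∫ u in a..b, phi u :=
  intervalIntegral.integral_Iic_sub_Iic integrable_phi.integrableOn integrable_phi.integrableOn

theorem hasDerivAt_Phi (x : ℝ) : HasDerivAt Phi (phi x) x := by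
  have h : HasDerivAt (fun b => Phi 0 + ∫ u in (0:ℝ)..b, phi u) (phi x) x :=
    (continuous_phi.integral_hasStrictDerivAt 0 x).hasDerivAt.const_add _
  refine h.congr_of_eventuallyEq (Eventually.of_forall fun b => ?_)
  simp [← Phi_sub]

@[fun_prop]
theorem continuous_Phi : Continuous Phi :=
  continuous_iff_continuousAt.2 fun x => (hasDerivAt_Phi x).continuousAt

theorem Phi_nonneg (x : ℝ) : 0 ≤ Phi x :=
  setIntegral_nonneg measurableSet_Iic fun _ _ => phi_nonneg _

theorem Phi_le_one (x : ℝ) : Phi x ≤ 1 := by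
  rw [← integral_phi]
  exact setIntegral_le_integral integrable_phi (Eventually.of_forall phi_nonneg)

theorem Phi_mono : Monotone Phi := by
  intro a b hab
  have := Phi_sub a b
  have : 0 ≤ ∫ u in a..b, phi u :=
    intervalIntegral.integral_nonneg hab fun u _ => phi_nonneg u
  linarith [Phi_sub a b]

theorem Phi_neg_eq (x : ℝ) : Phi (-x) = ∫ u in Ioi x, phi u := by
  have h := integral_comp_neg_Iic (-x) phi
  simp only [phi_neg, neg_neg] at h
  exact h

theorem Phi_neg (x : ℝ) : Phi (-x) = 1 - Phi x := by
  have h := intervalIntegral.integral_Iic_add_Ioi (b := x) integrable_phi.integrableOn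
    integrable_phi.integrableOn
  rw [integral_phi, ← Phi_neg_eq] at h
  unfold Phi at h ⊢
  linarith

theorem Phi_zero : Phi 0 = 1 / 2 := by
  have := Phi_neg 0
  simp at this
  linarith

theorem tendsto_Phi_atTop : Tendsto Phi atTop (𝓝 1) := by
  have h := MeasureTheory.intervalIntegral_tendsto_integral_Ioi (μ := volume) (0 : ℝ)
    integrable_phi.integrableOn tendsto_id
  have h2 : ∫ u in Ioi (0:ℝ), phi u = 1 / 2 := by rw [← Phi_neg_eq]; simp [Phi_zero]
  rw [h2] at h
  have h3 := h.const_add (1 / 2 : ℝ)
  norm_num at h3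
  refine h3.congr fun b => ?_
  simp [← Phi_sub, Phi_zero]

theorem tendsto_phi_atTop : Tendsto phi atTop (𝓝 0) := by
  unfold phi
  rw [← mul_zero ((√(2 * π))⁻¹)]
  refine Tendsto.const_mul _ (Real.tendsto_exp_atBot.comp ?_)
  refine Tendsto.atBot_div_const two_pos ?_
  exact tendsto_neg_atTop_atBot.comp (tendsto_pow_atTop two_ne_zero)

/-! ## integrability -/

theorem integrable_id_γ : Integrable (fun u : ℝ => u) (gaussianReal 0 1) :=
  (memLp_id_gaussianReal (μ := 0) (v := 1) 1).integrable (by simp)

theorem integrable_pos_aff (w t : ℝ) : Integrable (fun u => max (t + w * u) 0) (gaussianReal 0 1) :=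
  ((integrable_const t).add (integrable_id_γ.const_mul w)).pos_part

theorem integral_aff (w t : ℝ) : ∫ u, (t + w * u) ∂(gaussianReal 0 1) = t := by
  rw [integral_add (integrable_const t) (integrable_id_γ.const_mul w), integral_const_mul,
    integral_id_gaussianReal]
  simp

theorem integral_γ_eq (f : ℝ → ℝ) : ∫ u, f u ∂(gaussianReal 0 1) = ∫ u, phi u * f u := by
  rw [integral_gaussianReal_eq_integral_smul one_ne_zero, phi_eq_pdf]
  simp

theorem hh_nonneg (w t : ℝ) : 0 ≤ hh w t := integral_nonneg fun _ => le_max_right _ _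

theorem hh_mono (w : ℝ) : Monotone (hh w) := fun s t hst =>
  integral_mono (integrable_pos_aff w s) (integrable_pos_aff w t) fun u => by
    dsimp only
    gcongr

theorem hh_lip (w s t : ℝ) : |hh w s - hh w t| ≤ |s - t| := by
  unfold hh
  rw [← integral_sub (integrable_pos_aff w s) (integrable_pos_aff w t)]
  have := norm_integral_le_of_norm_le_const (μ := (gaussianReal 0 1)) (C := |s - t|)
    (f := fun u => max (s + w * u) 0 - max (t + w * u) 0) (Eventually.of_forall fun u => by
      rw [Real.norm_eq_abs]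
      have := abs_max_sub_max_le_abs (s + w * u) (t + w * u) 0
      simpa using this)
  simpa using this

theorem hh_convex (w : ℝ) : ConvexOn ℝ univ (hh w) := by
  refine ⟨convex_univ, fun s _ t _ a b ha hb hab => ?_⟩
  unfold hh
  simp only [smul_eq_mul]
  rw [← integral_const_mul, ← integral_const_mul,
    ← integral_add ((integrable_pos_aff w s).const_mul a) ((integrable_pos_aff w t).const_mul b)]
  refine integral_mono (integrable_pos_aff w _)
    (((integrable_pos_aff w s).const_mul a).add ((integrable_pos_aff w t).const_mul b)) fun u => ?_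
  dsimp only [Pi.add_apply]
  refine max_le ?_ (by positivity)
  have e : a * s + b * t + w * u = a * (s + w * u) + b * (t + w * u) := by
    linear_combination (-(w * u)) * hab
  rw [e]
  gcongr <;> exact le_max_left _ _

theorem hh_zero (t : ℝ) : hh 0 t = max t 0 := by simp [hh]

theorem pos_le_hh (w t : ℝ) : max t 0 ≤ hh w t := by
  refine max_le ?_ (hh_nonneg w t)
  conv_lhs => rw [← integral_aff w t]
  exact integral_mono ((integrable_const t).add (integrable_id_γ.const_mul w))
    (integrable_pos_aff w t) fun u => le_max_left _ _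

theorem hh_sub_neg (w t : ℝ) : hh w t - hh w (-t) = t := by
  have hneg : hh w (-t) = ∫ u, max (-(t + w * u)) 0 ∂(gaussianReal 0 1) := by
    have hmap : ((gaussianReal 0 1)).map (fun u => -u) = (gaussianReal 0 1) := by simp [gaussianReal_map_neg]
    calc hh w (-t) = ∫ u, max (-t + w * u) 0 ∂(((gaussianReal 0 1)).map (fun u => -u)) := by rw [hmap]; rfl
      _ = ∫ u, max (-t + w * (-u)) 0 ∂(gaussianReal 0 1) := by
          rw [integral_map measurable_neg.aemeasurable (by fun_prop)]
      _ = _ := by congr 1; funext u; ring_nf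
  have hi : Integrable (fun u => max (-(t + w * u)) 0) (gaussianReal 0 1) :=
    ((integrable_const t).add (integrable_id_γ.const_mul w)).neg.pos_part
  rw [hneg, hh, ← integral_sub (integrable_pos_aff w t) hi]
  conv_rhs => rw [← integral_aff w t]
  congr 1
  funext u
  exact posPart_sub_negPart' (t + w * u)
where
  posPart_sub_negPart' (a : ℝ) : max a 0 - max (-a) 0 = a := by
    rcases le_total 0 a with h | h <;> simp [h]

theorem hh_neg_w (w t : ℝ) : hh (-w) t = hh w t := by
  have hmap : ((gaussianReal 0 1)).map (fun u => -u) = (gaussianReal 0 1) := by simp [gaussianReal_map_neg]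
  calc hh (-w) t = ∫ u, max (t + -w * u) 0 ∂(((gaussianReal 0 1)).map (fun u => -u)) := by rw [hmap]; rfl
    _ = _ := by
      rw [integral_map measurable_neg.aemeasurable (by fun_prop)]
      simp [hh]

theorem hh_abs_w (w t : ℝ) : hh |w| t = hh w t := by
  rcases le_total 0 w with h | h <;> simp [h, abs_of_nonneg, abs_of_nonpos, hh_neg_w]

theorem hh_homog {a : ℝ} (ha : 0 ≤ a) (w t : ℝ) : hh (a * w) (a * t) = a * hh w t := by
  unfold hh
  rw [← integral_const_mul]
  congr 1
  funext u
  rw [mul_max_of_nonneg _ _ ha, mul_zero]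
  ring_nf

theorem hh_lip_w (v w t : ℝ) : |hh v t - hh w t| ≤ |v - w| * ∫ u, |u| ∂(gaussianReal 0 1) := by
  unfold hh
  rw [← integral_sub (integrable_pos_aff v t) (integrable_pos_aff w t), ← integral_const_mul]
  refine abs_integral_le_integral_abs.trans (integral_mono
    ((integrable_pos_aff v t).sub (integrable_pos_aff w t)).abs
    (integrable_id_γ.abs.const_mul _) fun u => ?_)
  dsimp only
  refine (abs_max_sub_max_le_abs _ _ _).trans (le_of_eq ?_)
  rw [← abs_mul]
  congr 1
  ring

theorem continuous_hh : Continuous fun p : ℝ × ℝ => hh p.1 p.2 := by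
  refine continuous_iff_continuousAt.2 fun p => ?_
  rw [ContinuousAt, tendsto_iff_dist_tendsto_zero]
  refine squeeze_zero (fun q => dist_nonneg)
    (g := fun q : ℝ × ℝ => |q.1 - p.1| * (∫ u, |u| ∂(gaussianReal 0 1)) + |q.2 - p.2|) (fun q => ?_) ?_
  · rw [Real.dist_eq]
    calc |hh q.1 q.2 - hh p.1 p.2|
        ≤ |hh q.1 q.2 - hh p.1 q.2| + |hh p.1 q.2 - hh p.1 p.2| := abs_sub_le _ _ _
      _ ≤ _ := add_le_add (hh_lip_w _ _ _) (hh_lip _ _ _)
  · exact Continuous.tendsto' (by fun_prop) _ _ (by simp)

@[fun_prop]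
theorem continuous_hh_comp {X : Type*} [TopologicalSpace X] {f g : X → ℝ} (hf : Continuous f)
    (hg : Continuous g) : Continuous fun x => hh (f x) (g x) :=
  continuous_hh.comp (hf.prodMk hg)

@[fun_prop]
theorem measurable_hh_comp {X : Type*} [MeasurableSpace X] {f g : X → ℝ} (hf : Measurable f)
    (hg : Measurable g) : Measurable fun x => hh (f x) (g x) :=
  continuous_hh.measurable.comp (hf.prodMk hg)

theorem hh_le (w t : ℝ) : hh w t ≤ max t 0 + |w| * ∫ u, |u| ∂(gaussianReal 0 1) := by
  have h := (abs_le.1 (hh_lip_w w 0 t)).2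
  rw [hh_zero, sub_zero] at h
  linarith

theorem abs_hh_le (w t : ℝ) : |hh w t| ≤ |t| + |w| * ∫ u, |u| ∂(gaussianReal 0 1) := by
  rw [abs_of_nonneg (hh_nonneg w t)]
  exact (hh_le w t).trans (add_le_add (max_le (le_abs_self t) (abs_nonneg t)) le_rfl)

theorem integrable_hh_comp {X : Type*} {mX : MeasurableSpace X} {μ : Measure X}
    [IsFiniteMeasure μ] {f : X → ℝ} (w : ℝ) (hf : Integrable f μ) :
    Integrable (fun x => hh w (f x)) μ := by
  refine Integrable.mono' (hf.abs.add (integrable_const (|w| * ∫ u, |u| ∂(gaussianReal 0 1))))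
    ((continuous_hh_comp continuous_const continuous_id).comp_aestronglyMeasurable hf.1) ?_
  exact Eventually.of_forall fun x => by
    simpa [Real.norm_eq_abs] using abs_hh_le w (f x)

/-! ## closed form and derivatives -/

theorem integral_id_phi_Ioi (a : ℝ) :
    IntegrableOn (fun u => u * phi u) (Ioi a) ∧ ∫ u in Ioi a, u * phi u = phi a := by
  have hi : Integrable (fun u => u * phi u) := by
    have h := integrable_id_γ
    rw [gaussianReal_of_var_ne_zero _ one_ne_zero,
      integrable_withDensity_iff (measurable_gaussianPDF _ _)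
        (ae_of_all _ fun _ => gaussianPDF_lt_top)] at h
    simpa [phi_eq_pdf] using h
  refine ⟨hi.integrableOn, ?_⟩
  rw [integral_Ioi_of_hasDerivAt_of_tendsto' (f := fun u => -phi u) (m := 0)
    (fun u _ => (hasDerivAt_phi u).neg.congr_deriv (by ring)) hi.integrableOn
    (by simpa using tendsto_phi_atTop.neg)]
  simp

theorem hh_eq {w : ℝ} (hw : 0 < w) (t : ℝ) : hh w t = t * Phi (t / w) + w * phi (t / w) := by
  unfold hh
  rw [integral_γ_eq]
  have hset : (fun u => phi u * max (t + w * u) 0)
      = (Ioi (-(t / w))).indicator (fun u => t * phi u + w * (u * phi u)) := by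
    funext u
    by_cases hu : u ∈ Ioi (-(t / w))
    · rw [indicator_of_mem hu, max_eq_left]
      · ring
      · have := mul_le_mul_of_nonneg_left (le_of_lt hu) hw.le
        rw [mul_neg, mul_div_cancel₀ _ hw.ne'] at this
        linarith
    · rw [indicator_of_notMem hu, max_eq_right, mul_zero]
      have := mul_le_mul_of_nonneg_left (not_lt.1 hu) hw.le
      rw [mul_neg, mul_div_cancel₀ _ hw.ne'] at this
      linarith
  rw [hset, integral_indicator measurableSet_Ioi,
    integral_add (integrable_phi.integrableOn.const_mul t)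
      ((integral_id_phi_Ioi _).1.const_mul w),
    integral_const_mul, integral_const_mul, (integral_id_phi_Ioi _).2, phi_neg, ← Phi_neg_eq,
    neg_neg]

theorem hasDerivAt_hh {w : ℝ} (hw : 0 < w) (t : ℝ) : HasDerivAt (hh w) (Phi (t / w)) t := by
  have e : hh w = fun t => t * Phi (t / w) + w * phi (t / w) := funext (hh_eq hw)
  rw [e]
  have h1 : HasDerivAt (fun s => s / w) (1 / w) t := (hasDerivAt_id t).div_const w
  have h := ((hasDerivAt_id t).mul ((hasDerivAt_Phi (t / w)).comp t h1)).add
    (((hasDerivAt_phi (t / w)).comp t h1).const_mul w)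
  refine h.congr_deriv ?_
  simp only [id_eq, Function.comp_apply]
  field_simp
  ring

theorem hasDerivAt_hh_w {w : ℝ} (hw : 0 < w) (t : ℝ) :
    HasDerivAt (fun v => hh v t) (phi (t / w)) w := by
  have h1 : HasDerivAt (fun v => t / v) (-t / w ^ 2) w := by
    have := (hasDerivAt_inv hw.ne').const_mul t
    simpa [div_eq_mul_inv] using this
  have h := (((hasDerivAt_Phi (t / w)).comp w h1).const_mul t).add
    ((hasDerivAt_id w).mul ((hasDerivAt_phi (t / w)).comp w h1))
  refine (h.congr_deriv ?_).congr_of_eventuallyEq ?_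
  · simp only [id_eq, Function.comp_apply]
    field_simp
    ring
  · filter_upwards [Ioi_mem_nhds hw] with v hv
    simp only [id_eq, Function.comp_apply, Pi.add_apply, Pi.mul_apply]
    exact hh_eq hv t

theorem intervalIntegrable_phi_div (t a b : ℝ) :
    IntervalIntegrable (fun s => phi (t / s)) volume a b := by
  refine (intervalIntegrable_const (c := t2)).mono_fun
    (continuous_phi.measurable.comp (measurable_const.div measurable_id)).aestronglyMeasurable
    (Eventually.of_forall fun s => ?_)
  simp only [Real.norm_eq_abs]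
  rw [abs_of_nonneg (phi_nonneg _), abs_of_nonneg (by rw [← phi_zero]; exact phi_nonneg 0)]
  exact phi_le _

/-- `h_w(t) - h_0(t) = ∫_0^w φ(t/s) ds`. -/
theorem hh_sub_zero {w : ℝ} (hw : 0 ≤ w) (t : ℝ) :
    hh w t - max t 0 = ∫ s in (0:ℝ)..w, phi (t / s) := by
  rw [intervalIntegral.integral_eq_sub_of_hasDerivAt_of_le hw
    (f := fun v => hh v t) (continuous_hh_comp continuous_id continuous_const).continuousOn
    (fun s hs => hasDerivAt_hh_w hs.1 t) (intervalIntegrable_phi_div t 0 w), hh_zero]

theorem hh_mono_w {v w : ℝ} (hv : 0 ≤ v) (hvw : v ≤ w) (t : ℝ) : hh v t ≤ hh w t := by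
  have h1 := hh_sub_zero hv t
  have h2 := hh_sub_zero (hv.trans hvw) t
  have h3 := intervalIntegral.integral_add_adjacent_intervals
    (intervalIntegrable_phi_div t 0 v) (intervalIntegrable_phi_div t v w)
  have h4 : 0 ≤ ∫ s in v..w, phi (t / s) :=
    intervalIntegral.integral_nonneg hvw fun s _ => phi_nonneg _
  linarith

theorem hh_at_zero {w : ℝ} (hw : 0 ≤ w) : hh w 0 = w * t2 := by
  have h := hh_sub_zero hw 0
  simpa [phi_zero] using h

end Vale.Agent.P226
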