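import Vale.Agent.P226.Psi3
import Vale.Agent.P226.Core.Witness
import Vale.Agent.P226.Core.Reduction

/-! # P226 module A: dual witnesses and reduction -/

namespace Vale.Agent.P226

open MeasureTheory ProbabilityTheory

theorem witness3 : Witness3 := Core.witness3_of moments

theorem witness2 : Witness2 := Core.witness2_of moments

theorem witnessM : WitnessM := Core.witnessM_of moments

/-- The bound on admissible configurations gives the propeller inequality for every family of
pairwise almost everywhere disjoint measurable cells. -/
theorem reduction (h : EmaxBound) (d k : ℕ) (A : Fin k → Set (EuclideanSpace ℝ (Fin d)))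
    (hm : ∀ i, MeasurableSet (A i))
    (hd : Pairwise fun i j => AEDisjoint (stdGaussian (EuclideanSpace ℝ (Fin d))) (A i) (A j)) :
    ∑ i, ‖∫ x in A i, x ∂(stdGaussian (EuclideanSpace ℝ (Fin d)))‖ ^ 2 ≤ 9 / (8 * Real.pi) :=
  Core.reduction h d k A hm hd

end Vale.Agent.P226
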