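import Vale.Agent.P226.Psi3

/-! # P226 module D: upper bounds for the junction witness terms `PsiM` -/

namespace Vale.Agent.P226

open MeasureTheory ProbabilityTheory Real Set Filter Topology
open scoped ENNReal


/-! ## properties of the slice kernel -/

theorem KK_mono {w : ℝ} (hw : 0 ≤ w) : Monotone (KK w) := by
  intro A B hAB
  have h := setIntegral_mono_on (radial hw A).1 (radial hw B).1 measurableSet_Ioi fun x hx =>
    mul_le_mul_of_nonneg_left (hh_mono w (mul_le_mul_of_nonneg_left hAB (le_of_lt hx)))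
      (by positivity : (0:ℝ) ≤ x ^ 2 * exp (-x ^ 2 / 2))
  rw [(radial hw A).2, (radial hw B).2] at h
  linarith

theorem KK_convex {w : ℝ} (hw : 0 ≤ w) : ConvexOn ℝ univ (KK w) := by
  refine ⟨convex_univ, fun A _ B _ a b ha hb hab => ?_⟩
  simp only [smul_eq_mul]
  have h := setIntegral_mono_on (radial hw (a * A + b * B)).1
    (((radial hw A).1.const_mul a).add ((radial hw B).1.const_mul b)) measurableSet_Ioi
    fun x _ => by
      have hc := (hh_convex w).2 (mem_univ (x * A)) (mem_univ (x * B)) ha hb hab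
      simp only [smul_eq_mul] at hc
      rw [show a * (x * A) + b * (x * B) = x * (a * A + b * B) by ring] at hc
      have := mul_le_mul_of_nonneg_left hc (by positivity : (0:ℝ) ≤ x ^ 2 * exp (-x ^ 2 / 2))
      simp only [Pi.add_apply]
      linarith
  rw [(radial hw _).2, Pi.add_def,
    integral_add ((radial hw A).1.const_mul a) ((radial hw B).1.const_mul b),
    integral_const_mul, integral_const_mul, (radial hw A).2, (radial hw B).2] at h
  linarith

theorem two_point {f : ℝ → ℝ} (hf : ConvexOn ℝ univ f) {p P L : ℝ} (hp : |p| ≤ P) :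
    f (p + L) + f (-p + L) ≤ f (P + L) + f (-P + L) := by
  obtain ⟨h1, h2⟩ := abs_le.1 hp
  rcases eq_or_lt_of_le ((abs_nonneg p).trans hp) with hP | hP
  · have : p = 0 := by linarith
    subst hP this
    rfl
  · set t := (P + p) / (2 * P) with ht
    have ht0 : 0 ≤ t := div_nonneg (by linarith) (by linarith)
    have ht1 : t ≤ 1 := (div_le_one (by linarith)).2 (by linarith)
    have e1 : t * (P + L) + (1 - t) * (-P + L) = p + L := by rw [ht]; field_simp; ring
    have e2 : (1 - t) * (P + L) + t * (-P + L) = -p + L := by linear_combination -e1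
    have c1 := hf.2 (mem_univ (P + L)) (mem_univ (-P + L)) ht0 (sub_nonneg.2 ht1) (by ring)
    have c2 := hf.2 (mem_univ (P + L)) (mem_univ (-P + L)) (sub_nonneg.2 ht1) ht0 (by ring)
    simp only [smul_eq_mul, e1] at c1
    simp only [smul_eq_mul, e2] at c2
    linarith

theorem gK_convex {w : ℝ} (hw : 0 ≤ w) : ConvexOn ℝ univ (gK w) :=
  Monotone.convexOn_univ_of_deriv (fun A => (hasDerivAt_gK w A).differentiableAt) (by
    rw [funext fun A => (hasDerivAt_gK w A).deriv]
    exact KK_mono hw)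

/-- the symmetrised kernel. -/
noncomputable def KT (w e A : ℝ) : ℝ := (KK w (A + e) + KK w (A - e)) / 2

theorem KT_mono {w : ℝ} (hw : 0 ≤ w) (e : ℝ) : Monotone (KT w e) := by
  intro A B h
  have h1 := KK_mono hw (show A + e ≤ B + e by linarith)
  have h2 := KK_mono hw (show A - e ≤ B - e by linarith)
  unfold KT
  linarith

theorem KT_convex {w : ℝ} (hw : 0 ≤ w) (e : ℝ) : ConvexOn ℝ univ (KT w e) := by
  refine ⟨convex_univ, fun A _ B _ a b ha hb hab => ?_⟩
  have h1 := (KK_convex hw).2 (mem_univ (A + e)) (mem_univ (B + e)) ha hb hab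
  have h2 := (KK_convex hw).2 (mem_univ (A - e)) (mem_univ (B - e)) ha hb hab
  simp only [smul_eq_mul] at h1 h2 ⊢
  rw [show a * (A + e) + b * (B + e) = a * A + b * B + e by linear_combination e * hab] at h1
  rw [show a * (A - e) + b * (B - e) = a * A + b * B - e by linear_combination (-e) * hab] at h2
  unfold KT
  linarith

@[fun_prop]
theorem continuous_KT (w e : ℝ) : Continuous (KT w e) := by
  have h := continuous_KK w
  unfold KT
  fun_prop

/-- pairing the signs of a perturbation. -/
theorem KK_pair {w : ℝ} (hw : 0 ≤ w) {A B e e0 : ℝ} (hAB : A ≤ B) (he : |e| ≤ e0) :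
    (KK w (A + e) + KK w (A - e)) / 2 ≤ KT w e0 B := by
  have h1 := two_point (KK_convex hw) (p := e) (P := e0) (L := A) he
  have h2 := KT_mono hw e0 hAB
  unfold KT at h2 ⊢
  rw [add_comm A e, sub_eq_neg_add A e]
  rw [add_comm A e0, sub_eq_neg_add A e0] at h2
  linarith

theorem KT_sub_nonneg {w : ℝ} (hw : 0 ≤ w) (e A : ℝ) : 0 ≤ KT w e A - KK w A := by
  have h := (KK_convex hw).2 (mem_univ (A + e)) (mem_univ (A - e))
    (by norm_num : (0:ℝ) ≤ 1 / 2) (by norm_num : (0:ℝ) ≤ 1 / 2) (by norm_num)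
  simp only [smul_eq_mul] at h
  rw [show 1 / 2 * (A + e) + 1 / 2 * (A - e) = A by ring] at h
  unfold KT
  linarith

theorem second_diff_bounds {w : ℝ} (hw : 0 ≤ w) (e A : ℝ) :
    0 ≤ (gK w (A + e) + gK w (A - e)) / 2 - gK w A ∧
      (gK w (A + e) + gK w (A - e)) / 2 - gK w A ≤ e ^ 2 / 2 := by
  have key : ∀ A, gK w A * 2 ≤ gK w (A + e) + gK w (A - e) := by
    intro A
    have h := (gK_convex hw).2 (mem_univ (A + e)) (mem_univ (A - e))
      (by norm_num : (0:ℝ) ≤ 1 / 2) (by norm_num : (0:ℝ) ≤ 1 / 2) (by norm_num)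
    simp only [smul_eq_mul] at h
    rw [show 1 / 2 * (A + e) + 1 / 2 * (A - e) = A by ring] at h
    linarith
  have hneg : ∀ A, gK w (-A) = A ^ 2 / 2 - gK w A := by intro A; simp [gK, qq]; ring
  refine ⟨by linarith [key A], ?_⟩
  have h := key (-A)
  rw [show -A + e = -(A - e) by ring, show -A - e = -(A + e) by ring, hneg, hneg, hneg] at h
  linarith

/-- the cost of symmetrisation along a line with derivative at least `d`. -/
theorem integral_KT_le {w : ℝ} (hw : 0 ≤ w) (e : ℝ) {B B' : ℝ → ℝ} {d : ℝ} (hd : 0 < d)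
    (hB : ∀ x, HasDerivAt B (B' x) x) (hBc : Continuous B') (hB' : ∀ x ∈ Icc (-1:ℝ) 1, d ≤ B' x) :
    ∫ x in (-1:ℝ)..1, KT w e (B x)
      ≤ (∫ x in (-1:ℝ)..1, KK w (B x)) + e ^ 2 / (2 * d) := by
  have hBcont : Continuous B := continuous_iff_continuousAt.2 fun x => (hB x).continuousAt
  have c1 : Continuous fun x => KT w e (B x) := (continuous_KT w e).comp hBcont
  have c2 : Continuous fun x => KK w (B x) := (continuous_KK w).comp hBcont
  set H : ℝ → ℝ := fun A => (gK w (A + e) + gK w (A - e)) / 2 - gK w A with hH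
  have hder : ∀ x, HasDerivAt (fun x => H (B x))
      ((KT w e (B x) - KK w (B x)) * B' x) x := by
    intro x
    have d1 := (hasDerivAt_gK w (B x + e)).comp x ((hB x).add_const e)
    have d2 := (hasDerivAt_gK w (B x - e)).comp x ((hB x).sub_const e)
    have d3 := (hasDerivAt_gK w (B x)).comp x (hB x)
    refine (((d1.add d2).div_const 2).sub d3).congr_deriv ?_
    unfold KT
    ring
  have hftc := intervalIntegral.integral_eq_sub_of_hasDerivAt (a := (-1:ℝ)) (b := 1)
    (fun x _ => hder x) (((c1.sub c2).mul hBc).intervalIntegrable _ _)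
  have hle : d * ∫ x in (-1:ℝ)..1, (KT w e (B x) - KK w (B x))
      ≤ ∫ x in (-1:ℝ)..1, (KT w e (B x) - KK w (B x)) * B' x := by
    rw [← intervalIntegral.integral_const_mul]
    refine intervalIntegral.integral_mono_on (by norm_num)
      ((continuous_const.mul (c1.sub c2)).intervalIntegrable _ _)
      (((c1.sub c2).mul hBc).intervalIntegrable _ _) fun x hx => ?_
    rw [mul_comm d]
    exact mul_le_mul_of_nonneg_left (hB' x hx) (KT_sub_nonneg hw _ _)
  have hb1 := second_diff_bounds hw e (B 1)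
  have hb0 := second_diff_bounds hw e (B (-1))
  rw [hftc, intervalIntegral.integral_sub (c1.intervalIntegrable _ _)
    (c2.intervalIntegrable _ _)] at hle
  simp only [hH] at hle
  rw [← sub_le_iff_le_add', le_div_iff₀ (by positivity)]
  nlinarith

/-- interpolation with the nodes `0`, `1/2`, `1`. -/
theorem hat_le {f : ℝ → ℝ} (hf : ConvexOn ℝ univ f) {q : ℝ} (h0 : 0 ≤ q) (h1 : q ≤ 1) :
    f q ≤ (|1 - 2 * q| + (1 - 2 * q)) / 2 * f 0 + (1 - |1 - 2 * q|) * f (1 / 2)
      + (|1 - 2 * q| - (1 - 2 * q)) / 2 * f 1 := by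
  rcases le_total q (1 / 2) with h | h
  · rw [abs_of_nonneg (by linarith)]
    have := hf.2 (mem_univ (0:ℝ)) (mem_univ (1 / 2 : ℝ)) (by linarith : 0 ≤ 1 - 2 * q)
      (by linarith : 0 ≤ 2 * q) (by ring)
    simp only [smul_eq_mul] at this
    rw [show (1 - 2 * q) * 0 + 2 * q * (1 / 2) = q by ring] at this
    linarith
  · rw [abs_of_nonpos (by linarith)]
    have := hf.2 (mem_univ (1 / 2 : ℝ)) (mem_univ (1:ℝ)) (by linarith : 0 ≤ 2 - 2 * q)
      (by linarith : 0 ≤ 2 * q - 1) (by ring)
    simp only [smul_eq_mul] at this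
    rw [show (2 - 2 * q) * (1 / 2) + (2 * q - 1) * 1 = q by ring] at this
    linarith

theorem integral_abs_cos_two : ∫ θ in (-π)..π, |cos (2 * θ)| = 4 := by
  have hc : ∀ a b, IntervalIntegrable (fun u => |cos u|) volume a b := fun a b =>
    (Real.continuous_cos.abs).intervalIntegrable a b
  have hper : Function.Periodic (fun u => |cos u|) π := fun u => by simp [Real.cos_add_pi]
  have hone : ∀ t, ∫ u in t..t + π, |cos u| = 2 := by
    intro t
    rw [hper.intervalIntegral_add_eq t (-(π / 2)), show -(π / 2) + π = π / 2 by ring]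
    have : EqOn (fun u => |cos u|) cos (uIcc (-(π / 2)) (π / 2)) := by
      intro u hu
      rw [uIcc_of_le (by linarith [Real.pi_pos])] at hu
      exact abs_of_nonneg (Real.cos_nonneg_of_mem_Icc hu)
    rw [intervalIntegral.integral_congr this, integral_cos]
    simp
    norm_num
  rw [intervalIntegral.integral_comp_mul_left (fun u => |cos u|) two_ne_zero,
    ← intervalIntegral.integral_add_adjacent_intervals (hc (2 * -π) 0) (hc 0 (2 * π)),
    ← intervalIntegral.integral_add_adjacent_intervals (hc (2 * -π) (-π)) (hc (-π) 0),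
    ← intervalIntegral.integral_add_adjacent_intervals (hc 0 π) (hc π (2 * π))]
  have i1 := hone (2 * -π)
  have i2 := hone (-π)
  have i3 := hone 0
  have i4 := hone π
  rw [show 2 * -π + π = -π by ring] at i1
  rw [neg_add_cancel] at i2
  rw [zero_add] at i3
  rw [show π + π = 2 * π by ring] at i4
  rw [i1, i2, i3, i4, smul_eq_mul]
  norm_num

theorem hat_average {f : ℝ → ℝ} (hf : ConvexOn ℝ univ f) (hc : Continuous f) :
    ∫ θ in (-π)..π, f (sin θ ^ 2)
      ≤ 2 * π * (1 / π * f 0 + (1 - 2 / π) * f (1 / 2) + 1 / π * f 1) := by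
  have e : ∀ θ : ℝ, 1 - 2 * sin θ ^ 2 = cos (2 * θ) := fun θ => by
    rw [Real.cos_two_mul, Real.cos_sq']; ring
  have hca : Continuous fun θ : ℝ => |cos (2 * θ)| := by fun_prop
  have hcc : Continuous fun θ : ℝ => cos (2 * θ) := by fun_prop
  calc ∫ θ in (-π)..π, f (sin θ ^ 2)
      ≤ ∫ θ in (-π)..π, ((|cos (2 * θ)| * ((f 0 + f 1) / 2 - f (1 / 2))
          + cos (2 * θ) * ((f 0 - f 1) / 2)) + f (1 / 2)) := by
        refine intervalIntegral.integral_mono_on (by linarith [Real.pi_pos])
          (Continuous.intervalIntegrable (by fun_prop) _ _)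
          (Continuous.intervalIntegrable (by fun_prop) _ _) fun θ _ => ?_
        have := hat_le hf (sq_nonneg (sin θ)) (Real.sin_sq_le_one θ)
        rw [e θ] at this
        linarith
    _ = _ := by
        rw [intervalIntegral.integral_add (Continuous.intervalIntegrable (by fun_prop) _ _)
          intervalIntegrable_const, intervalIntegral.integral_add
          (Continuous.intervalIntegrable (by fun_prop) _ _)
          (Continuous.intervalIntegrable (by fun_prop) _ _),
          intervalIntegral.integral_mul_const, intervalIntegral.integral_mul_const,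
          integral_abs_cos_two, intervalIntegral.integral_comp_mul_left cos two_ne_zero,
          integral_cos, intervalIntegral.integral_const]
        simp [Real.sin_two_pi]
        field_simp
        ring

/-! ## rotated frames -/

/-- rotation of the coordinates `0` and `2`. -/
noncomputable def rot02 (α β : ℝ) (u : Fin 3 → ℝ) : Fin 3 → ℝ :=
  ![β * u 0 - α * u 2, u 1, α * u 0 + β * u 2]

theorem lintegral_rot02 {α β : ℝ} (hαβ : α ^ 2 + β ^ 2 = 1) (hβ : 0 ≤ β)
    {g : (Fin 3 → ℝ) → ℝ≥0∞} (hg : Measurable g) :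
    ∫⁻ y, g y ∂(gaussPi 3) = ∫⁻ y, g (rot02 α β y) ∂(gaussPi 3) := by
  have hrot : Measurable (rot02 α β) := by
    refine measurable_pi_lambda _ fun i => ?_
    fin_cases i <;> simp [rot02] <;> fun_prop
  have hv : Measurable fun q : ℝ × ℝ × ℝ => (![q.1, q.2.1, q.2.2] : Fin 3 → ℝ) := by
    refine measurable_pi_lambda _ fun i => ?_
    fin_cases i <;> simp <;> fun_prop
  have hswap : ∀ f : (Fin 3 → ℝ) → ℝ≥0∞, Measurable f →
      ∫⁻ y, f y ∂(gaussPi 3) = ∫⁻ b, ∫⁻ p, f ![p.1, b, p.2] ∂(((gaussianReal 0 1)).prod (gaussianReal 0 1)) ∂(gaussianReal 0 1) := by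
    intro f hf
    have hfv : Measurable fun q : ℝ × ℝ × ℝ => f ![q.1, q.2.1, q.2.2] := hf.comp hv
    rw [lintegral_gaussPi_three hf, lintegral_prod _ hfv.aemeasurable]
    have : ∀ a, ∫⁻ bc : ℝ × ℝ, f ![a, bc.1, bc.2] ∂(((gaussianReal 0 1)).prod (gaussianReal 0 1))
        = ∫⁻ b, ∫⁻ c, f ![a, b, c] ∂(gaussianReal 0 1) ∂(gaussianReal 0 1) := fun a =>
      lintegral_prod _ (hfv.comp (f := fun p : ℝ × ℝ => (a, p)) (by fun_prop)).aemeasurable
    simp only [this]
    rw [lintegral_lintegral_swap]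
    · refine lintegral_congr fun b => ?_
      exact (lintegral_prod (fun p : ℝ × ℝ => f ![p.1, b, p.2]) (hfv.comp
        (f := fun p : ℝ × ℝ => (p.1, b, p.2)) (by fun_prop)).aemeasurable).symm
    · exact (Measurable.lintegral_prod_right' (f := fun r : (ℝ × ℝ) × ℝ => f ![r.1.1, r.1.2, r.2])
        (hfv.comp (f := fun r : (ℝ × ℝ) × ℝ => (r.1.1, r.1.2, r.2)) (by fun_prop))).aemeasurable
  have hcos : cos (-arcsin α) = β := by
    rw [Real.cos_neg, Real.cos_arcsin, show 1 - α ^ 2 = β ^ 2 by linarith, Real.sqrt_sq hβ]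
  have hsin : sin (-arcsin α) = -α := by
    rw [Real.sin_neg, Real.sin_arcsin] <;> nlinarith [sq_nonneg β]
  have hmap := IsGaussian.map_rotation_eq_self (μ := (gaussianReal 0 1))
    (by simp [integral_id_gaussianReal]) (-arcsin α)
  rw [hswap g hg, hswap (fun y => g (rot02 α β y)) (hg.comp hrot)]
  refine lintegral_congr fun b => ?_
  have hgb : Measurable fun p : ℝ × ℝ => g ![p.1, b, p.2] :=
    hg.comp (hv.comp (f := fun p : ℝ × ℝ => (p.1, b, p.2)) (by fun_prop))
  conv_lhs => rw [← hmap]
  rw [lintegral_map hgb (ContinuousLinearMap.measurable _)]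
  refine lintegral_congr fun p => ?_
  simp only [ContinuousLinearMap.rotation_apply, hcos, hsin, smul_eq_mul,
    rot02, Matrix.cons_val_zero, Matrix.cons_val_one, Matrix.cons_val]
  congr 2
  · ring
  · congr 1
    funext i
    fin_cases i
    simp

theorem rad_rot02 {α β : ℝ} (hαβ : α ^ 2 + β ^ 2 = 1) (u : Fin 3 → ℝ) :
    rad (rot02 α β u) = rad u := by
  unfold rad
  congr 1
  simp [rot02, Fin.sum_univ_three]
  linear_combination (u 0 ^ 2 + u 2 ^ 2) * hαβ

/-- the height of the tilted axis on the sphere. -/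
noncomputable def tilt (α β x θ : ℝ) : ℝ := α * x + β * (√(1 - x ^ 2) * sin θ)

/-- the slice of `PsiM` in the tilted frame. -/
noncomputable def GG (c δ w α β p : ℝ) : ℝ :=
  ∫ x in (-1:ℝ)..1, ∫ θ in (-π)..π, KK w (p * x - c + δ * tilt α β x θ ^ 2)

theorem PsiM_frame (c δ : ℝ) {α β p w r a : ℝ} (hαβ : α ^ 2 + β ^ 2 = 1) (hβ : 0 ≤ β)
    (hw : 0 ≤ w) (hr : r = p * β) (ha : a = p * α) :
    PsiM c δ r a w = m3 / (4 * π) * GG c δ w α β p := by
  have hA0 : Measurable fun y : Fin 3 → ℝ => r * y 0 + a * y 2 - WM c δ y := by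
    have := (continuous_rad (n := 3)).measurable
    unfold WM; fun_prop
  have hrot : Measurable (rot02 α β) := by
    refine measurable_pi_lambda _ fun i => ?_
    fin_cases i <;> simp [rot02] <;> fun_prop
  set A : (Fin 3 → ℝ) → ℝ :=
    fun u => p * u 0 - (c * rad u - δ * (α * u 0 + β * u 2) ^ 2 / rad u) with hA
  have key : (fun u => r * rot02 α β u 0 + a * rot02 α β u 2 - WM c δ (rot02 α β u)) = A := by
    funext u
    simp only [hA, WM, rad_rot02 hαβ]
    simp [rot02, hr, ha]
    linear_combination (p * u 0) * hαβ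
  have hAm : Measurable A := by
    rw [← key]
    exact hA0.comp hrot
  have h1 : PsiM c δ r a w = ∫ u, hh w (A u) ∂(gaussPi 3) := by
    unfold PsiM
    rw [integral_eq_lintegral_of_nonneg_ae (ae_of_all _ fun y => hh_nonneg _ _)
        (measurable_hh_comp measurable_const hA0).aestronglyMeasurable,
      integral_eq_lintegral_of_nonneg_ae (ae_of_all _ fun y => hh_nonneg _ _)
        (measurable_hh_comp measurable_const hAm).aestronglyMeasurable,
      lintegral_rot02 hαβ hβ (measurable_hh_comp measurable_const hA0).ennreal_ofReal, ← key]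
  rw [h1, slice_hh hw hAm, GG]
  · congr 1
    refine intervalIntegral.integral_congr fun x hx => ?_
    rw [uIcc_of_le (by norm_num)] at hx
    refine intervalIntegral.integral_congr fun θ _ => ?_
    simp only [hA, rad_sph hx]
    simp only [sph, tilt, Matrix.cons_val_zero, Matrix.cons_val]
    congr 1
    ring
  · intro ρ x θ hρ hx
    simp only [hA, Pi.smul_apply, smul_eq_mul, rad_smul hρ.le, rad_sph hx]
    field_simp
  · have c0 := (continuous_apply (0 : Fin 3)).comp continuous_sph
    have c2 := (continuous_apply (2 : Fin 3)).comp continuous_sph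
    exact (continuous_const.mul c0).sub ((continuous_const.mul (continuous_rad.comp
      continuous_sph)).sub ((continuous_const.mul (((continuous_const.mul c0).add
        (continuous_const.mul c2)).pow 2)).div (continuous_rad.comp continuous_sph)
        fun q => by linarith [one_le_rad_sph q.1 q.2]))

theorem continuous_inner {J : ℝ → ℝ → ℝ} (hJ : Continuous fun q : ℝ × ℝ => J q.1 q.2) :
    Continuous fun x => ∫ θ in (-π)..π, J x θ :=
  intervalIntegral.continuous_parametric_intervalIntegral_of_continuous' (f := J) hJ _ _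

/-- increasing the tilted slope only increases the slice. -/
theorem GG_mono {w : ℝ} (hw : 0 ≤ w) (c δ α β : ℝ) {p P : ℝ} (hp : |p| ≤ P) :
    GG c δ w α β p ≤ GG c δ w α β P := by
  set L : ℝ → ℝ → ℝ := fun x θ => -c + δ * tilt α β x θ ^ 2 with hL
  have hLn : ∀ x θ, L (-x) (-θ) = L x θ := fun x θ => by
    simp only [hL, tilt, neg_sq, Real.sin_neg]; ring
  have hLc : Continuous fun q : ℝ × ℝ => L q.1 q.2 := by simp only [hL, tilt]; fun_prop
  set J : ℝ → ℝ → ℝ → ℝ := fun s x θ => KK w (s * x + L x θ) with hJ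
  have hG : ∀ s, GG c δ w α β s = ∫ x in (-1:ℝ)..1, ∫ θ in (-π)..π, J s x θ := by
    intro s
    simp only [GG, hJ, hL]
    refine intervalIntegral.integral_congr fun x _ => ?_
    refine intervalIntegral.integral_congr fun θ _ => ?_
    ring_nf
  have hJc : ∀ s, Continuous fun q : ℝ × ℝ => J s q.1 q.2 := fun s =>
    (continuous_KK w).comp ((continuous_const.mul continuous_fst).add hLc)
  have hsym : ∀ s, GG c δ w α β s = ∫ x in (-1:ℝ)..1, ∫ θ in (-π)..π, J (-s) x θ := by
    intro s
    have h1 := intervalIntegral.integral_comp_neg (a := (-1:ℝ)) (b := 1)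
      (fun x => ∫ θ in (-π)..π, J s x θ)
    rw [neg_neg] at h1
    rw [hG s, ← h1]
    refine intervalIntegral.integral_congr fun x _ => ?_
    have h2 := intervalIntegral.integral_comp_neg (a := -π) (b := π) (fun θ => J s (-x) θ)
    rw [neg_neg] at h2
    rw [← h2]
    refine intervalIntegral.integral_congr fun θ _ => ?_
    simp only [hJ, hLn]
    ring_nf
  have htwo : ∀ s, 2 * GG c δ w α β s
      = ∫ x in (-1:ℝ)..1, ∫ θ in (-π)..π, (J s x θ + J (-s) x θ) := by
    intro s
    rw [two_mul]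
    nth_rw 2 [hsym s]
    rw [hG s, ← intervalIntegral.integral_add ((continuous_inner (hJc s)).intervalIntegrable _ _)
      ((continuous_inner (hJc (-s))).intervalIntegrable _ _)]
    refine intervalIntegral.integral_congr fun x _ => ?_
    exact (intervalIntegral.integral_add
      (((hJc s).comp (continuous_const.prodMk continuous_id)).intervalIntegrable _ _)
      (((hJc (-s)).comp (continuous_const.prodMk continuous_id)).intervalIntegrable _ _)).symm
  have hle : 2 * GG c δ w α β p ≤ 2 * GG c δ w α β P := by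
    rw [htwo, htwo]
    refine intervalIntegral.integral_mono_on (by norm_num)
      ((continuous_inner ((hJc p).add (hJc (-p)))).intervalIntegrable _ _)
      ((continuous_inner ((hJc P).add (hJc (-P)))).intervalIntegrable _ _) fun x _ => ?_
    refine intervalIntegral.integral_mono_on (by linarith [Real.pi_pos])
      ((((hJc p).add (hJc (-p))).comp (continuous_const.prodMk continuous_id)).intervalIntegrable
        _ _)
      ((((hJc P).add (hJc (-P))).comp (continuous_const.prodMk continuous_id)).intervalIntegrable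
        _ _) fun θ _ => ?_
    simp only [hJ, neg_mul]
    have hx : |p * x| ≤ |P * x| := by
      rw [abs_mul, abs_mul, abs_of_nonneg ((abs_nonneg p).trans hp)]
      exact mul_le_mul_of_nonneg_right hp (abs_nonneg x)
    have := two_point (KK_convex hw) (L := L x θ) hx
    rcases abs_choice (P * x) with h | h <;> rw [h] at this
    · exact this
    · rw [neg_neg] at this
      linarith
  linarith

/-! ## the bound for the three large cells -/

/-- the majorant along the node `q`. -/
noncomputable def line (c δ P k2 q x : ℝ) : ℝ :=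
  P * x - c + δ * (k2 * x ^ 2 + (1 - x ^ 2) * q)

theorem line_zero_le {w : ℝ} (hw : 0 ≤ w) {c δ P k2 : ℝ} (hδ : 0 ≤ δ) (hk : 0 ≤ k2)
    (hP : 0 < P) :
    ∫ x in (-1:ℝ)..1, KK w (line c δ P k2 0 x) ≤ 2 * piece w P (c - δ * k2) (-1) 1 := by
  have hK := continuous_KK w
  rw [← integral_KK_affine hP.ne']
  refine intervalIntegral.integral_mono_on (by norm_num)
    ((hK.comp (by unfold line; fun_prop)).intervalIntegrable _ _)
    ((hK.comp (by fun_prop)).intervalIntegrable _ _) fun x hx => KK_mono hw ?_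
  have : x ^ 2 ≤ 1 := by nlinarith [hx.1, hx.2]
  unfold line
  nlinarith [mul_nonneg (mul_nonneg hδ hk) (sub_nonneg.2 this)]

theorem node_piece_le {w : ℝ} (hw : 0 ≤ w) {c δ P k2 q l h x0 : ℝ} (hδ : 0 ≤ δ) (hk : 0 ≤ k2)
    (hq : 0 ≤ q) (hlh : l ≤ h) (hs : P - 2 * q * δ * x0 + δ * k2 * (l + h) ≠ 0) :
    ∫ x in l..h, KK w (line c δ P k2 q x) ≤ 2 * nodePiece c δ P k2 w q l h x0 := by
  have hK := continuous_KK w
  rw [nodePiece, ← integral_KK_affine hs]
  refine intervalIntegral.integral_mono_on hlh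
    ((hK.comp (by unfold line; fun_prop)).intervalIntegrable _ _)
    ((hK.comp (by fun_prop)).intervalIntegrable _ _) fun x hx => KK_mono hw ?_
  have h1 : 0 ≤ (x - l) * (h - x) := mul_nonneg (by linarith [hx.1]) (by linarith [hx.2])
  unfold line
  nlinarith [mul_nonneg (mul_nonneg hδ hk) h1, mul_nonneg (mul_nonneg hδ hq) (sq_nonneg (x - x0))]

theorem node_le {w : ℝ} (hw : 0 ≤ w) {c δ P k2 q : ℝ} (hδ : 0 ≤ δ) (hk : 0 ≤ k2) (hk1 : k2 ≤ 1)
    (hq : 0 ≤ q) (hq1 : q ≤ 1) (hP : 2 * δ < P) :
    ∫ x in (-1:ℝ)..1, KK w (line c δ P k2 q x) ≤ 2 * nodeA c δ P k2 w q := by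
  have hc : Continuous fun x => KK w (line c δ P k2 q x) :=
    (continuous_KK w).comp (by unfold line; fun_prop)
  rw [← intervalIntegral.integral_add_adjacent_intervals (hc.intervalIntegrable (-1) (7 / 10))
      (hc.intervalIntegrable (7 / 10) 1),
    ← intervalIntegral.integral_add_adjacent_intervals (hc.intervalIntegrable (-1) (1 / 2))
      (hc.intervalIntegrable (1 / 2) (7 / 10)),
    ← intervalIntegral.integral_add_adjacent_intervals (hc.intervalIntegrable (-1) (3 / 10))
      (hc.intervalIntegrable (3 / 10) (1 / 2))]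
  have m1 : δ * k2 ≤ δ := mul_le_of_le_one_right hδ hk1
  have m2 : q * δ ≤ δ := mul_le_of_le_one_left hδ hq1
  have m3' : 0 ≤ δ * k2 := mul_nonneg hδ hk
  have m4 : 0 ≤ q * δ := mul_nonneg hq hδ
  have p1 := node_piece_le (w := w) hw (c := c) (P := P) (l := -1) (h := 3 / 10) (x0 := 3 / 20)
    hδ hk hq (by norm_num) (ne_of_gt (by linarith))
  have p2 := node_piece_le (w := w) hw (c := c) (P := P) (l := 3 / 10) (h := 1 / 2) (x0 := 2 / 5)
    hδ hk hq (by norm_num) (ne_of_gt (by linarith))
  have p3 := node_piece_le (w := w) hw (c := c) (P := P) (l := 1 / 2) (h := 7 / 10) (x0 := 3 / 5)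
    hδ hk hq (by norm_num) (ne_of_gt (by linarith))
  have p4 := node_piece_le (w := w) hw (c := c) (P := P) (l := 7 / 10) (h := 1) (x0 := 17 / 20)
    hδ hk hq (by norm_num) (ne_of_gt (by linarith))
  unfold nodeA
  linarith

theorem big_slice_le {w : ℝ} (hw : 0 ≤ w) {c δ α β P k2 e0 : ℝ} (hδ : 0 ≤ δ)
    (hα : α ^ 2 ≤ k2) (hβ : 0 ≤ β) (hβ1 : β ≤ 1) (he0 : δ * |α| ≤ e0) {x : ℝ}
    (hx : x ∈ Icc (-1:ℝ) 1) :
    ∫ θ in (-π)..π, KK w (P * x - c + δ * tilt α β x θ ^ 2)
      ≤ 2 * π * (1 / π * KT w e0 (line c δ P k2 0 x)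
        + (1 - 2 / π) * KT w e0 (line c δ P k2 (1 / 2) x)
        + 1 / π * KT w e0 (line c δ P k2 1 x)) := by
  have hs : 0 ≤ 1 - x ^ 2 := by nlinarith [hx.1, hx.2]
  have hK := continuous_KK w
  set g : ℝ → ℝ := fun θ => KK w (P * x - c + δ * tilt α β x θ ^ 2) with hg
  have hgc : Continuous g := hK.comp (by unfold tilt; fun_prop)
  have hgn : Continuous fun θ => g (-θ) := hgc.comp (by fun_prop)
  have hpair : ∫ θ in (-π)..π, g θ = ∫ θ in (-π)..π, (g θ + g (-θ)) / 2 := by
    rw [intervalIntegral.integral_div, intervalIntegral.integral_add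
      (hgc.intervalIntegrable _ _) (hgn.intervalIntegrable _ _),
      intervalIntegral.integral_comp_neg, neg_neg]
    ring
  have hlc : ∀ x, Continuous fun q => line c δ P k2 q x := fun x => by unfold line; fun_prop
  have hfc : Continuous fun q => KT w e0 (line c δ P k2 q x) :=
    (continuous_KT w e0).comp (hlc x)
  have hfconv : ConvexOn ℝ univ fun q => KT w e0 (line c δ P k2 q x) := by
    refine ⟨convex_univ, fun s _ t _ a b ha hb hab => ?_⟩
    have := (KT_convex hw e0).2 (mem_univ (line c δ P k2 s x)) (mem_univ (line c δ P k2 t x))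
      ha hb hab
    simp only [smul_eq_mul] at this ⊢
    refine le_trans (le_of_eq (congrArg (KT w e0) ?_)) this
    unfold line
    linear_combination (-(P * x - c + δ * (k2 * x ^ 2))) * hab
  refine le_trans (le_of_eq hpair) (le_trans ?_ (hat_average hfconv hfc))
  refine intervalIntegral.integral_mono_on (by linarith [Real.pi_pos])
    (((hgc.add hgn).div_const 2).intervalIntegrable _ _)
    ((hfc.comp (by fun_prop)).intervalIntegrable _ _) fun θ _ => ?_
  set e := 2 * δ * α * β * x * (√(1 - x ^ 2) * sin θ) with he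
  set A := P * x - c + δ * (α ^ 2 * x ^ 2 + β ^ 2 * ((1 - x ^ 2) * sin θ ^ 2)) with hA
  have e1 : P * x - c + δ * tilt α β x θ ^ 2 = A + e := by
    simp only [hA, he, tilt]
    linear_combination (δ * β ^ 2 * sin θ ^ 2) * Real.sq_sqrt hs
  have e2 : P * x - c + δ * tilt α β x (-θ) ^ 2 = A - e := by
    simp only [hA, he, tilt, Real.sin_neg]
    linear_combination (δ * β ^ 2 * sin θ ^ 2) * Real.sq_sqrt hs
  simp only [hg, e1, e2]
  refine KK_pair hw ?_ ?_
  · simp only [hA, line]
    have hb : β ^ 2 ≤ 1 := by nlinarith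
    have : α ^ 2 * x ^ 2 + β ^ 2 * ((1 - x ^ 2) * sin θ ^ 2)
        ≤ k2 * x ^ 2 + (1 - x ^ 2) * sin θ ^ 2 :=
      add_le_add (mul_le_mul_of_nonneg_right hα (sq_nonneg x))
        (mul_le_of_le_one_left (mul_nonneg hs (sq_nonneg _)) hb)
    nlinarith [mul_le_mul_of_nonneg_left this hδ]
  · refine le_trans ?_ he0
    have hxs : |2 * x * √(1 - x ^ 2)| ≤ 1 := by
      rw [abs_le]
      constructor <;>
        nlinarith [Real.sq_sqrt hs, sq_nonneg (x - √(1 - x ^ 2)), sq_nonneg (x + √(1 - x ^ 2))]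
    have heq : |e| = δ * |α| * (β * |2 * x * √(1 - x ^ 2)| * |sin θ|) := by
      rw [show e = δ * α * (β * (2 * x * √(1 - x ^ 2)) * sin θ) by rw [he]; ring,
        abs_mul, abs_mul, abs_mul, abs_mul, abs_of_nonneg hδ, abs_of_nonneg hβ]
    rw [heq]
    refine mul_le_of_le_one_right (by positivity) ?_
    exact mul_le_one₀ (mul_le_one₀ hβ1 (abs_nonneg _) hxs) (abs_nonneg _) (Real.abs_sin_le_one θ)

theorem psiMBig : PsiMBig := by
  intro c δ r a w hδ _ hr ha hw
  have hr0 : 0 < r := by linarith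
  set p := √(r ^ 2 + a ^ 2) with hp
  have hp0 : 0 < p := Real.sqrt_pos.2 (by positivity)
  have hp2 : p ^ 2 = r ^ 2 + a ^ 2 := Real.sq_sqrt (by positivity)
  set α := a / p with hα
  set β := r / p with hβ
  have hαβ : α ^ 2 + β ^ 2 = 1 := by
    rw [hα, hβ, div_pow, div_pow, ← add_div, add_comm, ← hp2, div_self (by positivity)]
  have hβ0 : 0 ≤ β := by positivity
  have hβ1 : β ≤ 1 := by nlinarith [sq_nonneg α, sq_nonneg (β - 1)]
  set P := r + a ^ 2 / (2 * r) with hP
  set k2 := a ^ 2 / r ^ 2 with hk2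
  have hk0 : 0 ≤ k2 := by positivity
  have hk1 : k2 ≤ 1 := (div_le_one (by positivity)).2 ha
  have hPr : r ≤ P := by rw [hP]; linarith [show (0:ℝ) ≤ a ^ 2 / (2 * r) by positivity]
  have hpP : |p| ≤ P := by
    rw [abs_of_pos hp0, hp, Real.sqrt_le_iff]
    refine ⟨by linarith, ?_⟩
    rw [hP]
    have : (r + a ^ 2 / (2 * r)) ^ 2 = r ^ 2 + a ^ 2 + (a ^ 2 / (2 * r)) ^ 2 := by field_simp; ring
    nlinarith [sq_nonneg (a ^ 2 / (2 * r))]
  have hα2 : α ^ 2 ≤ k2 := by
    rw [hα, div_pow, hk2, hp2]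
    gcongr
    nlinarith [sq_nonneg a]
  set e0 := δ * (|a| / r) with he0
  have he : δ * |α| ≤ e0 := by
    rw [hα, abs_div, abs_of_pos hp0, he0]
    gcongr
    nlinarith [sq_nonneg a]
  have he2 : e0 ^ 2 = δ ^ 2 * k2 := by rw [he0, mul_pow, div_pow, sq_abs, hk2]
  rw [PsiM_frame c δ hαβ hβ0 hw (p := p) (by rw [hβ]; field_simp) (by rw [hα]; field_simp)]
  have hmono := GG_mono hw c δ α β hpP
  have hJc : Continuous fun q : ℝ × ℝ => KK w (P * q.1 - c + δ * tilt α β q.1 q.2 ^ 2) :=
    (continuous_KK w).comp (by unfold tilt; fun_prop)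
  have hl : ∀ q, Continuous fun x => line c δ P k2 q x := fun q => by unfold line; fun_prop
  have hKTc : ∀ q, Continuous fun x => KT w e0 (line c δ P k2 q x) := fun q =>
    (continuous_KT w e0).comp (hl q)
  have hslice : GG c δ w α β P ≤ 2 * π * (1 / π * (∫ x in (-1:ℝ)..1, KT w e0 (line c δ P k2 0 x))
      + (1 - 2 / π) * (∫ x in (-1:ℝ)..1, KT w e0 (line c δ P k2 (1 / 2) x))
      + 1 / π * (∫ x in (-1:ℝ)..1, KT w e0 (line c δ P k2 1 x))) := by
    have c01 : Continuous fun x => 1 / π * KT w e0 (line c δ P k2 0 x)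
        + (1 - 2 / π) * KT w e0 (line c δ P k2 (1 / 2) x) :=
      ((hKTc 0).const_mul _).add ((hKTc (1 / 2)).const_mul _)
    have call : Continuous fun x => 2 * π * (1 / π * KT w e0 (line c δ P k2 0 x)
        + (1 - 2 / π) * KT w e0 (line c δ P k2 (1 / 2) x)
        + 1 / π * KT w e0 (line c δ P k2 1 x)) :=
      (c01.add ((hKTc 1).const_mul _)).const_mul _
    refine le_trans (intervalIntegral.integral_mono_on (by norm_num)
      ((continuous_inner hJc).intervalIntegrable _ _) (call.intervalIntegrable _ _)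
      fun x hx => big_slice_le hw hδ hα2 hβ0 hβ1 he hx) (le_of_eq ?_)
    rw [intervalIntegral.integral_const_mul, intervalIntegral.integral_add
      (c01.intervalIntegrable _ _) (((hKTc 1).const_mul _).intervalIntegrable _ _),
      intervalIntegral.integral_add (((hKTc 0).const_mul _).intervalIntegrable _ _)
      (((hKTc (1 / 2)).const_mul _).intervalIntegrable _ _),
      intervalIntegral.integral_const_mul, intervalIntegral.integral_const_mul,
      intervalIntegral.integral_const_mul]
  have hsym : ∀ q, 0 ≤ q → q ≤ 1 → ∫ x in (-1:ℝ)..1, KT w e0 (line c δ P k2 q x)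
      ≤ (∫ x in (-1:ℝ)..1, KK w (line c δ P k2 q x)) + e0 ^ 2 / (2 * (r - 2 * δ)) := by
    intro q hq hq1
    refine integral_KT_le hw e0 (B' := fun x => P + δ * ((k2 - q) * (2 * x))) (by linarith)
      (fun x => ?_) (by fun_prop) (fun x hx => ?_)
    · have h := (((hasDerivAt_id x).const_mul P).sub_const c).add
        ((((hasDerivAt_pow 2 x).const_mul k2).add
          (((hasDerivAt_pow 2 x).const_sub 1).mul_const q)).const_mul δ)
      refine h.congr_deriv ?_
      simp only [Nat.cast_ofNat, Nat.add_one_sub_one, pow_one, mul_one]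
      ring
    · have hb : |(k2 - q) * (2 * x)| ≤ 2 := by
        have h1 : |k2 - q| ≤ 1 := abs_le.2 ⟨by linarith, by linarith⟩
        have h2 : |2 * x| ≤ 2 := abs_le.2 ⟨by linarith [hx.1], by linarith [hx.2]⟩
        rw [abs_mul]
        calc |k2 - q| * |2 * x| ≤ 1 * 2 := mul_le_mul h1 h2 (abs_nonneg _) one_pos.le
          _ = 2 := one_mul 2
      nlinarith [mul_le_mul_of_nonneg_left (neg_le_of_abs_le hb) hδ]
  have n0 := (hsym 0 le_rfl zero_le_one).trans
    (add_le_add (line_zero_le hw hδ hk0 (by linarith)) le_rfl)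
  have n1 := (hsym (1 / 2) (by norm_num) (by norm_num)).trans
    (add_le_add (node_le hw hδ hk0 hk1 (by norm_num) (by norm_num) (by linarith)) le_rfl)
  have n2 := (hsym 1 zero_le_one le_rfl).trans
    (add_le_add (node_le hw hδ hk0 hk1 zero_le_one le_rfl (by linarith)) le_rfl)
  have w0 : (0:ℝ) ≤ 1 / π := by positivity
  have w1 : (0:ℝ) ≤ 1 - 2 / π := by
    rw [sub_nonneg, div_le_one Real.pi_pos]; exact Real.two_le_pi
  have hfin : GG c δ w α β p ≤ 4 * π * bigA c δ r (a ^ 2) w := by
    refine hmono.trans (hslice.trans ?_)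
    have hbig : bigA c δ r (a ^ 2) w = 1 / π * piece w P (c - δ * k2) (-1) 1
        + (1 - 2 / π) * nodeA c δ P k2 w (1 / 2) + 1 / π * nodeA c δ P k2 w 1
        + e0 ^ 2 / (4 * (r - 2 * δ)) := by
      rw [he2]; rfl
    rw [hbig, show 4 * π = 2 * π * 2 by ring, mul_assoc (2 * π)]
    refine mul_le_mul_of_nonneg_left ?_ (by positivity)
    have hd : e0 ^ 2 / (2 * (r - 2 * δ)) = 2 * (e0 ^ 2 / (4 * (r - 2 * δ))) := by
      have : r - 2 * δ ≠ 0 := by linarith
      field_simp
      ring
    have q0 := mul_le_mul_of_nonneg_left n0 w0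
    have q1 := mul_le_mul_of_nonneg_left n1 w1
    have q2 := mul_le_mul_of_nonneg_left n2 w0
    rw [hd] at q0 q1 q2
    linear_combination q0 + q1 + q2
  calc m3 / (4 * π) * GG c δ w α β p
      ≤ m3 / (4 * π) * (4 * π * bigA c δ r (a ^ 2) w) :=
        mul_le_mul_of_nonneg_left hfin (div_nonneg (Real.sqrt_nonneg _) (by positivity))
    _ = m3 * bigA c δ r (a ^ 2) w := by field_simp

/-! ## the fourth cell and the small cells -/

theorem PsiM_axis {w : ℝ} (hw : 0 ≤ w) (c δ σ : ℝ) :
    PsiM c δ 0 σ w = m3 / 2 * ∫ x in (-1:ℝ)..1, KK w (σ * x - c + δ * x ^ 2) := by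
  rw [PsiM_frame c δ (α := 1) (β := 0) (p := σ) (by norm_num) le_rfl hw (by ring) (by ring), GG]
  have : EqOn (fun x => ∫ θ in (-π)..π, KK w (σ * x - c + δ * tilt 1 0 x θ ^ 2))
      (fun x => 2 * π * KK w (σ * x - c + δ * x ^ 2)) (uIcc (-1:ℝ) 1) := by
    intro x _
    simp only [tilt, zero_mul, add_zero, one_mul, intervalIntegral.integral_const, smul_eq_mul]
    ring
  rw [intervalIntegral.integral_congr this, intervalIntegral.integral_const_mul]
  generalize ∫ x in (-1:ℝ)..1, KK w (σ * x - c + δ * x ^ 2) = I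
  field_simp
  ring

theorem psiMFour : PsiMFour := by
  intro c δ σ T hδ hc hσ hT hT1 hP
  rw [PsiM_axis le_rfl]
  set f : ℝ → ℝ := fun x => KK 0 (σ * x - c + δ * x ^ 2) with hf
  have hfc : Continuous f := (continuous_KK 0).comp (by fun_prop)
  rw [← intervalIntegral.integral_add_adjacent_intervals (hfc.intervalIntegrable (-1) T)
      (hfc.intervalIntegrable T 1),
    ← intervalIntegral.integral_add_adjacent_intervals (hfc.intervalIntegrable (-1) 0)
      (hfc.intervalIntegrable 0 T)]
  have b1 : ∫ x in (-1:ℝ)..0, f x ≤ ∫ x in (-1:ℝ)..0, (0:ℝ) := by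
    refine intervalIntegral.integral_mono_on (by norm_num) (hfc.intervalIntegrable _ _)
      intervalIntegrable_const fun x hx => ?_
    simp only [hf, KK_zero_w]
    have : x ^ 2 ≤ 1 := by nlinarith [hx.1, hx.2]
    refine max_le ?_ le_rfl
    nlinarith [mul_nonpos_of_nonneg_of_nonpos hσ hx.2, mul_le_mul_of_nonneg_left this hδ]
  have b2 : ∫ x in (0:ℝ)..T, f x ≤ ∫ x in (0:ℝ)..T, (σ * T - c + δ * T ^ 2) := by
    refine intervalIntegral.integral_mono_on hT (hfc.intervalIntegrable _ _)
      intervalIntegrable_const fun x hx => ?_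
    simp only [hf, KK_zero_w]
    refine max_le ?_ hP
    have := hx.1
    have := hx.2
    gcongr
  have b3 : ∫ x in T..1, f x = (σ / 2 - c + δ / 3) - (σ * T ^ 2 / 2 - c * T + δ * T ^ 3 / 3) := by
    have he : EqOn f (fun x => σ * x - c + δ * x ^ 2) (uIcc T 1) := by
      intro x hx
      rw [uIcc_of_le hT1] at hx
      simp only [hf, KK_zero_w]
      refine max_eq_left (hP.trans ?_)
      have := hx.1
      gcongr
    rw [intervalIntegral.integral_congr he, intervalIntegral.integral_eq_sub_of_hasDerivAt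
      (f := fun x => σ * x ^ 2 / 2 - c * x + δ * x ^ 3 / 3) (fun x _ => ?_)
      (Continuous.intervalIntegrable (by fun_prop) _ _)]
    · ring
    · have h := ((((hasDerivAt_pow 2 x).const_mul σ).div_const 2).sub
        ((hasDerivAt_id x).const_mul c)).add (((hasDerivAt_pow 3 x).const_mul δ).div_const 3)
      refine h.congr_deriv ?_
      simp only [Nat.cast_ofNat, Nat.add_one_sub_one, pow_one, mul_one]
      ring
  simp only [intervalIntegral.integral_const, smul_eq_mul, mul_zero, sub_zero] at b1 b2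
  have := mul_le_mul_of_nonneg_left (add_le_add (add_le_add b1 b2) b3.le)
    (div_nonneg (Real.sqrt_nonneg _) two_pos.le : 0 ≤ m3 / 2)
  linarith

theorem integral_abs_one_sub : ∫ x in (-1:ℝ)..1, |1 - 2 * x ^ 2| = 4 * √2 / 3 - 2 / 3 := by
  set s := √2 / 2 with hsdef
  have hs2 : s ^ 2 = 1 / 2 := by
    rw [hsdef, div_pow, Real.sq_sqrt (by norm_num)]; norm_num
  have hs0 : 0 ≤ s := by positivity
  have hs1 : s ≤ 1 := by nlinarith
  have hc : ∀ a b, IntervalIntegrable (fun x : ℝ => |1 - 2 * x ^ 2|) volume a b := fun a b =>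
    Continuous.intervalIntegrable (by fun_prop) a b
  have hF : ∀ a b : ℝ, ∫ x in a..b, (1 - 2 * x ^ 2)
      = (b - 2 * b ^ 3 / 3) - (a - 2 * a ^ 3 / 3) := by
    intro a b
    refine intervalIntegral.integral_eq_sub_of_hasDerivAt
      (f := fun x => x - 2 * x ^ 3 / 3) (fun x _ => ?_)
      (Continuous.intervalIntegrable (by fun_prop) _ _)
    refine ((hasDerivAt_id x).sub (((hasDerivAt_pow 3 x).const_mul 2).div_const 3)).congr_deriv ?_
    simp only [Nat.cast_ofNat, Nat.add_one_sub_one]
    ring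
  rw [← intervalIntegral.integral_add_adjacent_intervals (hc (-1) s) (hc s 1),
    ← intervalIntegral.integral_add_adjacent_intervals (hc (-1) (-s)) (hc (-s) s)]
  have e1 : EqOn (fun x : ℝ => |1 - 2 * x ^ 2|) (fun x => -(1 - 2 * x ^ 2)) (uIcc (-1) (-s)) := by
    intro x hx
    rw [uIcc_of_le (by linarith)] at hx
    exact abs_of_nonpos (by nlinarith [hx.1, hx.2])
  have e2 : EqOn (fun x : ℝ => |1 - 2 * x ^ 2|) (fun x => 1 - 2 * x ^ 2) (uIcc (-s) s) := by
    intro x hx
    rw [uIcc_of_le (by linarith)] at hx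
    exact abs_of_nonneg (by nlinarith [hx.1, hx.2])
  have e3 : EqOn (fun x : ℝ => |1 - 2 * x ^ 2|) (fun x => -(1 - 2 * x ^ 2)) (uIcc s 1) := by
    intro x hx
    rw [uIcc_of_le hs1] at hx
    exact abs_of_nonpos (by nlinarith [hx.1, hx.2])
  rw [intervalIntegral.integral_congr e1, intervalIntegral.integral_congr e2,
    intervalIntegral.integral_congr e3, intervalIntegral.integral_neg,
    intervalIntegral.integral_neg, hF, hF, hF]
  linear_combination (-8 * s / 3) * hs2 + (8 / 3 : ℝ) * hsdef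

theorem psiMSmall : PsiMSmall := by
  intro c δ w hδ hc hcd hw
  rw [PsiM_axis hw]
  set f : ℝ → ℝ := fun q => KK w (-c + δ * q) with hf
  have hfconv : ConvexOn ℝ univ f := by
    refine ⟨convex_univ, fun s _ t _ a b ha hb hab => ?_⟩
    have := (KK_convex hw).2 (mem_univ (-c + δ * s)) (mem_univ (-c + δ * t)) ha hb hab
    simp only [smul_eq_mul, hf] at this ⊢
    refine le_trans (le_of_eq (congrArg (KK w) ?_)) this
    linear_combination c * hab
  have hfc : Continuous f := (continuous_KK w).comp (by fun_prop)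
  have h0 : f 0 = k0 c w := by rw [← KK_neg_k0 (by linarith)]; simp [hf]
  have hh' : f (1 / 2) = k0 (c - δ / 2) w := by
    rw [← KK_neg_k0 (by linarith)]; simp only [hf]; congr 1; ring
  have h1 : f 1 = k0 (c - δ) w := by
    rw [← KK_neg_k0 hcd]; simp only [hf]; congr 1; ring
  have hle : ∫ x in (-1:ℝ)..1, KK w (0 * x - c + δ * x ^ 2)
      ≤ ∫ x in (-1:ℝ)..1, (|1 - 2 * x ^ 2| * ((f 0 + f 1) / 2 - f (1 / 2))
          + (1 - 2 * x ^ 2) * ((f 0 - f 1) / 2) + f (1 / 2)) := by
    refine intervalIntegral.integral_mono_on (by norm_num)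
      (((continuous_KK w).comp (by fun_prop)).intervalIntegrable _ _)
      (Continuous.intervalIntegrable (by fun_prop) _ _) fun x hx => ?_
    have := hat_le hfconv (sq_nonneg x) (by nlinarith [hx.1, hx.2])
    simp only [hf, zero_mul, zero_sub] at this ⊢
    linarith
  rw [intervalIntegral.integral_add (Continuous.intervalIntegrable (by fun_prop) _ _)
      intervalIntegrable_const,
    intervalIntegral.integral_add (Continuous.intervalIntegrable (by fun_prop) _ _)
      (Continuous.intervalIntegrable (by fun_prop) _ _),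
    intervalIntegral.integral_mul_const, intervalIntegral.integral_mul_const,
    integral_abs_one_sub, intervalIntegral.integral_const,
    intervalIntegral.integral_sub intervalIntegrable_const
      (Continuous.intervalIntegrable (by fun_prop) _ _),
    intervalIntegral.integral_const_mul, integral_pow, intervalIntegral.integral_const] at hle
  norm_num [h0, hh', h1] at hle
  have := mul_le_mul_of_nonneg_left hle
    (div_nonneg (Real.sqrt_nonneg _) two_pos.le : 0 ≤ m3 / 2)
  simp only [zero_mul, zero_sub] at this ⊢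
  linarith

end Vale.Agent.P226
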