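import Vale.Agent.P226.Interface
import Vale.Agent.P226.Base

/-! # P226, module C: the planar witness integral `Psi2`

In polar coordinates `Psi2 / t2 = P0 + ∫_0^w K(s) ds` with `K(s) = (1/π) ∫_0^π s²/(A² + s²)`,
`A = r cos θ - c`.  The inner integral is computed by writing `1/(A² + s²)` through
`1/(z - r cos θ)`, `z = c + i s`.
-/

namespace Vale.Agent.P226

open MeasureTheory ProbabilityTheory Real Set Filter Topology

/-! ### The angular integral -/

theorem hasDerivAt_logTerm {q : ℂ} (hq : ‖q‖ < 1) (κ : ℂ) (hκ : κ.re = 0) (θ : ℝ) :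
    HasDerivAt (fun x : ℝ => Complex.log (1 - q * Complex.exp (κ * x)))
      (-(q * (κ * Complex.exp (κ * θ))) / (1 - q * Complex.exp (κ * θ))) θ := by
  have hmem : (1 - q * Complex.exp (κ * θ)) ∈ Complex.slitPlane := by
    refine Or.inl ?_
    have h1 : ‖q * Complex.exp (κ * θ)‖ < 1 := by
      rw [norm_mul, Complex.norm_exp]
      simp [hκ, hq]
    have := Complex.re_le_norm (q * Complex.exp (κ * θ))
    simp only [Complex.sub_re, Complex.one_re]
    linarith
  have h2 : HasDerivAt (fun x : ℝ => κ * (x : ℂ)) κ θ := by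
    simpa using ((hasDerivAt_id θ).ofReal_comp).const_mul κ
  exact (((h2.cexp).const_mul q).const_sub 1).clog_real hmem |>.congr_deriv (by ring)

theorem integral_poisson {q : ℂ} (hq : ‖q‖ < 1) :
    ∫ θ in (0:ℝ)..π,
      (1 + q * Complex.exp (Complex.I * θ) / (1 - q * Complex.exp (Complex.I * θ))
        + q * Complex.exp (-Complex.I * θ) / (1 - q * Complex.exp (-Complex.I * θ))) = (π : ℂ) := by
  have hd : ∀ (κ : ℂ), κ.re = 0 → ∀ θ : ℝ, 1 - q * Complex.exp (κ * θ) ≠ 0 := by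
    intro κ hκ θ h0
    have h1 : ‖q * Complex.exp (κ * θ)‖ < 1 := by
      rw [norm_mul, Complex.norm_exp]
      simp [hκ, hq]
    rw [← sub_eq_zero.1 h0] at h1
    simp at h1
  have hI : Complex.I.re = 0 := Complex.I_re
  have hI' : (-Complex.I).re = 0 := by simp
  set F : ℝ → ℂ := fun x => (x : ℂ) + Complex.I * Complex.log (1 - q * Complex.exp (Complex.I * x))
    - Complex.I * Complex.log (1 - q * Complex.exp (-Complex.I * x)) with hF
  have hder : ∀ θ : ℝ, HasDerivAt F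
      (1 + q * Complex.exp (Complex.I * θ) / (1 - q * Complex.exp (Complex.I * θ))
        + q * Complex.exp (-Complex.I * θ) / (1 - q * Complex.exp (-Complex.I * θ))) θ := by
    intro θ
    refine ((((hasDerivAt_id θ).ofReal_comp).add
      ((hasDerivAt_logTerm hq Complex.I hI θ).const_mul Complex.I)).sub
      ((hasDerivAt_logTerm hq (-Complex.I) hI' θ).const_mul Complex.I)).congr_deriv ?_
    have hII : Complex.I * Complex.I = -1 := Complex.I_mul_I
    simp only [Complex.ofReal_one]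
    linear_combination (-(q * Complex.exp (Complex.I * θ)) / (1 - q * Complex.exp (Complex.I * θ))
      - q * Complex.exp (-Complex.I * θ) / (1 - q * Complex.exp (-Complex.I * θ))) * hII
  have hc : Continuous fun θ : ℝ =>
      1 + q * Complex.exp (Complex.I * θ) / (1 - q * Complex.exp (Complex.I * θ))
        + q * Complex.exp (-Complex.I * θ) / (1 - q * Complex.exp (-Complex.I * θ)) := by
    refine (continuous_const.add ?_).add ?_
    · exact (by fun_prop : Continuous fun θ : ℝ => q * Complex.exp (Complex.I * θ)).div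
        (by fun_prop) (hd _ hI)
    · exact (by fun_prop : Continuous fun θ : ℝ => q * Complex.exp (-Complex.I * θ)).div
        (by fun_prop) (hd _ hI')
  rw [intervalIntegral.integral_eq_sub_of_hasDerivAt (fun θ _ => hder θ)
    (hc.intervalIntegrable 0 π)]
  have e1 : Complex.exp (Complex.I * (π : ℂ)) = -1 := by
    rw [mul_comm]; exact Complex.exp_pi_mul_I
  have e2 : Complex.exp (-Complex.I * (π : ℂ)) = -1 := by
    rw [neg_mul, Complex.exp_neg, e1]; norm_num
  rw [neg_mul] at e2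
  simp [hF, e1, e2]

/-- `u` and `v` with `(u + i v)^2 = (c + i s)^2 - r^2`. -/
theorem sqrt_params {c r s : ℝ} (hc : 0 < c) (hs : 0 < s) :
    ∃ u v p : ℝ, 0 < u ∧ 0 < v ∧ u * v = c * s ∧ u ^ 2 - v ^ 2 = c ^ 2 - r ^ 2 - s ^ 2 ∧
      p = u ^ 2 + v ^ 2 ∧ p = √((r ^ 2 - c ^ 2 + s ^ 2) ^ 2 + 4 * c ^ 2 * s ^ 2) ∧
      v = √((p + (r ^ 2 - c ^ 2 + s ^ 2)) / 2) := by
  set S := r ^ 2 - c ^ 2 + s ^ 2 with hS
  set p := √(S ^ 2 + 4 * c ^ 2 * s ^ 2) with hp
  have hp2 : p ^ 2 = S ^ 2 + 4 * c ^ 2 * s ^ 2 := Real.sq_sqrt (by positivity)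
  have hcs : 0 < c * s := mul_pos hc hs
  have habs : |S| < p := by
    rw [← Real.sqrt_sq_eq_abs]
    exact Real.sqrt_lt_sqrt (sq_nonneg _) (by nlinarith [mul_pos hcs hcs])
  rw [abs_lt] at habs
  have h1 : 0 < (p - S) / 2 := by linarith
  have h2 : 0 < (p + S) / 2 := by linarith
  refine ⟨√((p - S) / 2), √((p + S) / 2), p, Real.sqrt_pos.2 h1, Real.sqrt_pos.2 h2, ?_, ?_, ?_,
    rfl, rfl⟩
  · rw [← Real.sqrt_mul h1.le, Real.sqrt_eq_iff_mul_self_eq (by positivity) hcs.le]
    linear_combination (1 / 4 : ℝ) * hp2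
  · rw [Real.sq_sqrt h1.le, Real.sq_sqrt h2.le, hS]
    ring
  · rw [Real.sq_sqrt h1.le, Real.sq_sqrt h2.le]
    ring

theorem angular_integral {c r s : ℝ} (hc : 0 < c) (hs : 0 < s) :
    ∫ θ in (0:ℝ)..π, 1 / ((r * cos θ - c) ^ 2 + s ^ 2) =
      π * √((√((r ^ 2 - c ^ 2 + s ^ 2) ^ 2 + 4 * c ^ 2 * s ^ 2) + (r ^ 2 - c ^ 2 + s ^ 2)) / 2) /
        (s * √((r ^ 2 - c ^ 2 + s ^ 2) ^ 2 + 4 * c ^ 2 * s ^ 2)) := by
  obtain ⟨u, v, p, hu, hv, huv, hdiff, hp, hp', hv'⟩ := sqrt_params (r := r) hc hs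
  rw [← hp', ← hv']
  set z : ℂ := ⟨c, s⟩ with hz
  set W : ℂ := ⟨u, v⟩ with hW
  have hWW : W * W = z * z - (r : ℂ) * r := by
    apply Complex.ext <;> simp [hz, hW] <;> linarith
  have hD : z + W ≠ 0 := fun h => by
    have := congrArg Complex.re h
    simp [hz, hW] at this
    linarith
  have hW0 : W ≠ 0 := fun h => by
    have := congrArg Complex.re h
    simp [hW] at this
    linarith
  set q : ℂ := (r : ℂ) / (z + W) with hq
  have hqn : ‖q‖ < 1 := by
    rw [hq, norm_div, div_lt_one (norm_pos_iff.2 hD)]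
    have hmul : ‖z - W‖ * ‖z + W‖ = r ^ 2 := by
      rw [← norm_mul, show (z - W) * (z + W) = (r : ℂ) * r by linear_combination -hWW, norm_mul,
        Complex.norm_real, Real.norm_eq_abs, ← sq, sq_abs]
    have hlt : ‖z - W‖ < ‖z + W‖ := by
      rw [Complex.norm_def, Complex.norm_def]
      refine Real.sqrt_lt_sqrt (Complex.normSq_nonneg _) ?_
      simp [Complex.normSq_apply, hz, hW]
      nlinarith [mul_pos hc hu, mul_pos hs hv]
    have : r ^ 2 < ‖z + W‖ ^ 2 := by
      rw [← hmul, sq]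
      exact mul_lt_mul_of_pos_right hlt (norm_pos_iff.2 hD)
    rw [Complex.norm_real, Real.norm_eq_abs]
    exact lt_of_pow_lt_pow_left₀ 2 (norm_nonneg _) (by rwa [sq_abs])
  have hne : ∀ θ : ℝ, z - (r : ℂ) * (cos θ : ℝ) ≠ 0 := fun θ h => by
    have := congrArg Complex.im h
    simp [hz] at this
    linarith
  have hpt : ∀ θ : ℝ,
      (1 + q * Complex.exp (Complex.I * θ) / (1 - q * Complex.exp (Complex.I * θ))
        + q * Complex.exp (-Complex.I * θ) / (1 - q * Complex.exp (-Complex.I * θ)))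
      = W * (1 / (z - (r : ℂ) * (cos θ : ℝ))) := by
    intro θ
    set ζ := Complex.exp (Complex.I * θ) with hζ
    set ζ' := Complex.exp (-Complex.I * θ) with hζ'
    have h1 : ζ * ζ' = 1 := by rw [hζ, hζ', ← Complex.exp_add]; simp
    have h2 : ζ + ζ' = 2 * ((cos θ : ℝ) : ℂ) := by
      rw [hζ, hζ', Complex.ofReal_cos, Complex.cos, mul_comm Complex.I, neg_mul, mul_comm Complex.I]
      ring_nf
    have hn : ∀ w : ℂ, ‖w‖ = 1 → 1 - q * w ≠ 0 := fun w hw h0 => by
      have : ‖q * w‖ < 1 := by rw [norm_mul, hw, mul_one]; exact hqn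
      rw [← sub_eq_zero.1 h0] at this
      simp at this
    have hn1 : 1 - q * ζ ≠ 0 := hn ζ (by rw [hζ, Complex.norm_exp]; simp)
    have hn2 : 1 - q * ζ' ≠ 0 := hn ζ' (by rw [hζ', Complex.norm_exp]; simp)
    have hqD : q * (z + W) = (r : ℂ) := div_mul_cancel₀ _ hD
    have hprod : (1 - q * ζ) * (1 - q * ζ') = 1 - q * (2 * ((cos θ : ℝ) : ℂ)) + q * q := by
      linear_combination (q * q) * h1 - q * h2
    have hnum : (1 + q * ζ / (1 - q * ζ) + q * ζ' / (1 - q * ζ')) * ((1 - q * ζ) * (1 - q * ζ'))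
        = 1 - q * q := by
      field_simp
      linear_combination (-(q * q)) * h1
    have hkey : W * ((1 - q * ζ) * (1 - q * ζ')) =
        (1 - q * q) * (z - (r : ℂ) * (cos θ : ℝ)) := by
      refine mul_left_cancel₀ (pow_ne_zero 2 hD) ?_
      rw [hprod]
      linear_combination ((z + W) * (-2 * W * ((cos θ : ℝ) : ℂ)) + W * (q * (z + W) + r)
          + (z - (r : ℂ) * (cos θ : ℝ)) * (q * (z + W) + r)) * hqD
        + ((z + W) - (r : ℂ) * (cos θ : ℝ)) * hWW
    rw [mul_one_div, eq_div_iff (hne θ)]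
    refine mul_right_cancel₀ (mul_ne_zero hn1 hn2) ?_
    rw [mul_right_comm, hnum, hkey]
  have hint := integral_poisson hqn
  simp only [hpt] at hint
  rw [intervalIntegral.integral_const_mul] at hint
  have hcont : Continuous fun θ : ℝ => 1 / (z - (r : ℂ) * (cos θ : ℝ)) :=
    continuous_const.div (by fun_prop) hne
  have him : ∫ θ in (0:ℝ)..π, Complex.imCLM (1 / (z - (r : ℂ) * (cos θ : ℝ)))
      = Complex.imCLM ((π : ℂ) / W) := by
    rw [Complex.imCLM.intervalIntegral_comp_comm (hcont.intervalIntegrable 0 π)]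
    congr 1
    rw [eq_div_iff hW0, mul_comm, hint]
  have e1 : ∀ θ : ℝ, Complex.imCLM (1 / (z - (r : ℂ) * (cos θ : ℝ)))
      = -s * (1 / ((r * cos θ - c) ^ 2 + s ^ 2)) := by
    intro θ
    simp [Complex.normSq_apply, hz, -Complex.ofReal_cos]
    ring_nf
  have e2 : Complex.imCLM ((π : ℂ) / W) = -(π * v) / p := by
    simp [Complex.div_im, Complex.normSq_apply, hW, hp]
    ring_nf
  simp only [e1, e2] at him
  rw [intervalIntegral.integral_const_mul] at him
  have hp0 : 0 < p := by rw [hp]; positivity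
  rw [eq_div_iff (mul_pos hs hp0).ne']
  have := congrArg (fun x => -x * p) him
  simp only [neg_mul, neg_div, neg_neg] at this
  rw [div_mul_cancel₀ _ hp0.ne'] at this
  linarith

/-! ### Reduction to the angular integral -/

/-- the angular kernel. -/
noncomputable def ker2 (c r θ s : ℝ) : ℝ := s ^ 2 / ((r * cos θ - c) ^ 2 + s ^ 2)

theorem ker2_nonneg (c r θ s : ℝ) : 0 ≤ ker2 c r θ s := by
  unfold ker2; positivity

theorem ker2_le_one (c r θ s : ℝ) : ker2 c r θ s ≤ 1 :=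
  div_le_one_of_le₀ (by nlinarith [sq_nonneg (r * cos θ - c)]) (by positivity)

theorem integral_rho_exp {a : ℝ} (ha : 0 < a) :
    ∫ ρ in Ioi (0:ℝ), ρ * Real.exp (-a * ρ ^ 2) = 1 / (2 * a) := by
  have h := integral_Ioi_of_hasDerivAt_of_tendsto' (a := 0) (m := 0)
    (f := fun ρ => -(1 / (2 * a)) * Real.exp (-a * ρ ^ 2)) (f' := fun ρ => ρ * Real.exp (-a * ρ ^ 2))
    (fun ρ _ => ?_) (integrable_mul_exp_neg_mul_sq ha).integrableOn ?_
  · rw [h]
    simp
  · exact ((((hasDerivAt_pow 2 ρ).const_mul (-a)).exp).const_mul (-(1 / (2 * a)))).congr_deriv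
      (by simp; field_simp)
  · rw [← mul_zero (-(1 / (2 * a)))]
    refine Tendsto.const_mul _ (Real.tendsto_exp_atBot.comp ?_)
    exact Tendsto.const_mul_atTop_of_neg (neg_lt_zero.2 ha) (tendsto_pow_atTop two_ne_zero)

theorem integral_sq_exp :
    IntegrableOn (fun ρ : ℝ => ρ ^ 2 * Real.exp (-(1 / 2) * ρ ^ 2)) (Ioi 0) ∧
      ∫ ρ in Ioi (0:ℝ), ρ ^ 2 * Real.exp (-(1 / 2) * ρ ^ 2) = √(π / 2) := by
  have hi : IntegrableOn (fun ρ : ℝ => ρ ^ 2 * Real.exp (-(1 / 2) * ρ ^ 2)) (Ioi 0) := by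
    refine ((integrable_rpow_mul_exp_neg_mul_sq (b := 1 / 2) (s := 2) (by norm_num)
      (by norm_num)).congr (Eventually.of_forall fun ρ => ?_)).integrableOn
    simp
  refine ⟨hi, ?_⟩
  have he : IntegrableOn (fun ρ : ℝ => Real.exp (-(1 / 2) * ρ ^ 2)) (Ioi 0) :=
    (integrable_exp_neg_mul_sq (by norm_num)).integrableOn
  have hdiff : IntegrableOn
      (fun ρ : ℝ => Real.exp (-(1 / 2) * ρ ^ 2) - ρ ^ 2 * Real.exp (-(1 / 2) * ρ ^ 2)) (Ioi 0) :=
    he.sub hi
  have h := integral_Ioi_of_hasDerivAt_of_tendsto' (a := 0) (m := 0)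
    (f := fun ρ : ℝ => ρ * Real.exp (-(1 / 2) * ρ ^ 2))
    (f' := fun ρ => Real.exp (-(1 / 2) * ρ ^ 2) - ρ ^ 2 * Real.exp (-(1 / 2) * ρ ^ 2))
    (fun ρ _ => ?_) hdiff ?_
  · rw [integral_sub he hi, integral_gaussian_Ioi] at h
    simp only [zero_mul, sub_zero] at h
    have e : π / (1 / 2) = 2 * 2 * (π / 2) := by ring
    rw [e, Real.sqrt_mul (by norm_num), Real.sqrt_mul_self (by norm_num)] at h
    linarith
  · exact ((hasDerivAt_id ρ).mul (((hasDerivAt_pow 2 ρ).const_mul (-(1 / 2))).exp)).congr_deriv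
      (by simp; ring)
  · have h2 := tendsto_rpow_abs_mul_exp_neg_mul_sq_cocompact (a := 1 / 2) (by norm_num) 1
    refine (h2.mono_left atTop_le_cocompact).congr' ?_
    filter_upwards [eventually_ge_atTop 0] with ρ hρ
    simp [abs_of_nonneg hρ]

/-- the radial integral. -/
theorem integral_radial {w : ℝ} (hw : 0 ≤ w) (A : ℝ) :
    ∫ ρ in Ioi (0:ℝ), ρ * Real.exp (-(1 / 2) * ρ ^ 2) * hh w (ρ * A) =
      t2 * (π * max A 0 + ∫ s in (0:ℝ)..w, s ^ 2 / (A ^ 2 + s ^ 2)) := by
  have h1 := (integrable_mul_exp_neg_mul_sq (b := 1 / 2) (by norm_num)).integrableOn (s := Ioi 0)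
  have hE : ∀ ρ ∈ Ioi (0:ℝ), ρ * Real.exp (-(1 / 2) * ρ ^ 2) * hh w (ρ * A) =
      max A 0 * (ρ ^ 2 * Real.exp (-(1 / 2) * ρ ^ 2)) +
        ∫ s in Ioc 0 w, ρ * Real.exp (-(1 / 2) * ρ ^ 2) * phi (ρ * A / s) := by
    intro ρ hρ
    rw [integral_const_mul, ← intervalIntegral.integral_of_le hw, ← hh_sub_zero hw]
    have : max (ρ * A) 0 = ρ * max A 0 := by
      rw [mul_max_of_nonneg _ _ (le_of_lt hρ), mul_zero]
    rw [this]
    ring
  have hprod : Integrable
      (Function.uncurry fun ρ s => ρ * Real.exp (-(1 / 2) * ρ ^ 2) * phi (ρ * A / s))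
      ((volume.restrict (Ioi 0)).prod (volume.restrict (Ioc 0 w))) := by
    refine Integrable.mono' ((h1.integrable.abs).mul_prod
      (integrable_const (μ := volume.restrict (Ioc 0 w)) t2)) ?_ ?_
    · have := continuous_phi.measurable
      exact Measurable.aestronglyMeasurable (by unfold Function.uncurry; fun_prop)
    · refine Eventually.of_forall fun p => ?_
      simp only [Function.uncurry, Real.norm_eq_abs, abs_mul, abs_of_nonneg (phi_nonneg _)]
      exact mul_le_mul_of_nonneg_left (phi_le _) (by positivity)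
  have hpl : Integrable (fun ρ => ∫ s in Ioc 0 w,
      ρ * Real.exp (-(1 / 2) * ρ ^ 2) * phi (ρ * A / s)) (volume.restrict (Ioi 0)) :=
    hprod.integral_prod_left
  rw [setIntegral_congr_fun measurableSet_Ioi hE,
    integral_add (integral_sq_exp.1.const_mul _) hpl, integral_const_mul,
    integral_sq_exp.2, integral_integral_swap hprod, intervalIntegral.integral_of_le hw, mul_add]
  congr 1
  · have : √(π / 2) = t2 * π := by
      have hs : √(2 * π) * √(π / 2) = π := by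
        rw [← Real.sqrt_mul (by positivity), show 2 * π * (π / 2) = π * π by ring,
          Real.sqrt_mul_self pi_pos.le]
      have : (√(2 * π)) ≠ 0 := (Real.sqrt_pos.2 (by positivity)).ne'
      unfold t2
      field_simp
      rw [mul_comm π 2]
      linarith
    rw [this]
    ring
  · rw [← integral_const_mul]
    refine setIntegral_congr_fun measurableSet_Ioc fun s hs => ?_
    have hs0 : 0 < s := hs.1
    have ha : 0 < (1 + A ^ 2 / s ^ 2) / 2 := by positivity
    have : ∀ ρ : ℝ, ρ * Real.exp (-(1 / 2) * ρ ^ 2) * phi (ρ * A / s) =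
        t2 * (ρ * Real.exp (-((1 + A ^ 2 / s ^ 2) / 2) * ρ ^ 2)) := by
      intro ρ
      unfold phi t2
      rw [show -((1 + A ^ 2 / s ^ 2) / 2) * ρ ^ 2
          = -(1 / 2) * ρ ^ 2 + -(ρ * A / s) ^ 2 / 2 by ring, Real.exp_add]
      ring
    simp only [this]
    rw [integral_const_mul, integral_rho_exp ha]
    field_simp
    ring

theorem Psi2_polar {c r w : ℝ} :
    Psi2 c r w = 1 / (2 * π) * ∫ θ in Ioo (-π) π,
      ∫ ρ in Ioi (0:ℝ), ρ * Real.exp (-(1 / 2) * ρ ^ 2) * hh w (ρ * (r * cos θ - c)) := by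
  have hmp := measurePreserving_finTwoArrow (gaussianReal 0 1)
  set F : ℝ × ℝ → ℝ := fun p => hh w (r * p.1 - c * √(p.1 ^ 2 + p.2 ^ 2)) with hF
  have h1 : Psi2 c r w = ∫ p, F p ∂((gaussianReal 0 1).prod (gaussianReal 0 1)) := by
    rw [← hmp.integral_comp' F, Psi2]
    simp [hF, rad, Fin.sum_univ_two, MeasurableEquiv.finTwoArrow]
  rw [h1, gaussianReal_of_var_ne_zero _ one_ne_zero,
    prod_withDensity (measurable_gaussianPDF _ _) (measurable_gaussianPDF _ _),
    integral_withDensity_eq_integral_toReal_smul (by fun_prop)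
      (Eventually.of_forall fun p => ENNReal.mul_lt_top gaussianPDF_lt_top gaussianPDF_lt_top),
    ← Measure.volume_eq_prod, ← integral_comp_polarCoord_symm, polarCoord_target,
    Measure.volume_eq_prod, ← integral_const_mul]
  set g : ℝ × ℝ → ℝ := fun p =>
    1 / (2 * π) * (p.1 * Real.exp (-(1 / 2) * p.1 ^ 2) * hh w (p.1 * (r * cos p.2 - c))) with hg
  have hpt : ∀ p ∈ Ioi (0:ℝ) ×ˢ Ioo (-π) π, p.1 • ((gaussianPDF 0 1 (polarCoord.symm p).1 *
      gaussianPDF 0 1 (polarCoord.symm p).2).toReal • F (polarCoord.symm p)) = g p := by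
    rintro ⟨ρ, θ⟩ ⟨hρ, -⟩
    have hρ : 0 < ρ := hρ
    simp only [polarCoord_symm_apply, ENNReal.toReal_mul, gaussianPDF, ← phi_eq_pdf,
      ENNReal.toReal_ofReal (phi_nonneg _), smul_eq_mul, hg, hF]
    have e : (ρ * cos θ) ^ 2 + (ρ * sin θ) ^ 2 = ρ ^ 2 := by
      linear_combination ρ ^ 2 * Real.cos_sq_add_sin_sq θ
    rw [e, Real.sqrt_sq hρ.le, show r * (ρ * cos θ) - c * ρ = ρ * (r * cos θ - c) by ring]
    have e2 : phi (ρ * cos θ) * phi (ρ * sin θ) =
        1 / (2 * π) * Real.exp (-(1 / 2) * ρ ^ 2) := by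
      unfold phi
      rw [show -(1 / 2) * ρ ^ 2 = -(ρ * cos θ) ^ 2 / 2 + -(ρ * sin θ) ^ 2 / 2 by
        linear_combination (1 / 2 : ℝ) * e, Real.exp_add]
      have : (√(2 * π))⁻¹ * (√(2 * π))⁻¹ = 1 / (2 * π) := by
        rw [← mul_inv, Real.mul_self_sqrt (by positivity), one_div]
      rw [← this]
      ring
    rw [e2]
    ring
  rw [setIntegral_congr_fun (measurableSet_Ioi.prod measurableSet_Ioo) hpt]
  have h2 := integral_sq_exp.1
  have h3 := (integrable_mul_exp_neg_mul_sq (b := 1 / 2) (by norm_num)).integrableOn (s := Ioi 0)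
  have hint : Integrable g ((volume.restrict (Ioi 0)).prod (volume.restrict (Ioo (-π) π))) := by
    refine Integrable.mono' (g := fun p : ℝ × ℝ => 1 / (2 * π) *
        ((|r| + |c|) * (p.1 ^ 2 * Real.exp (-(1 / 2) * p.1 ^ 2))
          + (|w| * ∫ u, |u| ∂(gaussianReal 0 1)) * |p.1 * Real.exp (-(1 / 2) * p.1 ^ 2)|) * 1)
      ((((h2.integrable.const_mul _).add (h3.integrable.abs.const_mul _)).const_mul _).mul_prod
        (integrable_const (μ := volume.restrict (Ioo (-π) π)) (1:ℝ)))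
      (Continuous.aestronglyMeasurable (by simp only [hg]; fun_prop))
      (Eventually.of_forall fun p => ?_)
    rw [mul_one, hg, Real.norm_eq_abs, abs_mul (1 / (2 * π)), abs_of_pos (by positivity : 0 < 1 / (2 * π))]
    refine mul_le_mul_of_nonneg_left ?_ (by positivity)
    rw [abs_mul, abs_of_nonneg (hh_nonneg _ _)]
    have hA : |r * cos p.2 - c| ≤ |r| + |c| := by
      refine (abs_sub _ _).trans (add_le_add ?_ le_rfl)
      rw [abs_mul]
      exact mul_le_of_le_one_right (abs_nonneg _) (abs_cos_le_one _)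
    have hb := (hh_le w (p.1 * (r * cos p.2 - c))).trans
      (add_le_add (max_le ((le_abs_self _).trans ((abs_mul _ _).le.trans
        (mul_le_mul_of_nonneg_left hA (abs_nonneg p.1)))) (by positivity)) le_rfl)
    refine (mul_le_mul_of_nonneg_left hb (abs_nonneg _)).trans (le_of_eq ?_)
    have e : |p.1 * Real.exp (-(1 / 2) * p.1 ^ 2)| * |p.1| =
        p.1 ^ 2 * Real.exp (-(1 / 2) * p.1 ^ 2) := by
      rw [← abs_mul, ← abs_of_nonneg (mul_nonneg (sq_nonneg p.1) (Real.exp_nonneg _))]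
      congr 1
      ring
    rw [← e]
    ring
  rw [← Measure.prod_restrict, integral_prod g hint, integral_integral_swap hint]
  refine setIntegral_congr_fun measurableSet_Ioo fun θ _ => ?_
  simp only [hg]
  rw [integral_const_mul]

theorem integrable_max_aux (c r : ℝ) (a b : ℝ) :
    IntervalIntegrable (fun θ => max (r * cos θ - c) 0) volume a b :=
  (by fun_prop : Continuous fun θ => max (r * cos θ - c) 0).intervalIntegrable a b

/-- the one-variable formula. -/
theorem Psi2_eq {c r w : ℝ} (hc : 0 < c) (hw : 0 ≤ w) :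
    Psi2 c r w = t2 * ((∫ θ in (0:ℝ)..π, max (r * cos θ - c) 0) +
      ∫ s in (0:ℝ)..w,
        s * √((√((r ^ 2 - c ^ 2 + s ^ 2) ^ 2 + 4 * c ^ 2 * s ^ 2) + (r ^ 2 - c ^ 2 + s ^ 2)) / 2) /
          √((r ^ 2 - c ^ 2 + s ^ 2) ^ 2 + 4 * c ^ 2 * s ^ 2)) := by
  rw [Psi2_polar]
  simp only [integral_radial hw]
  have hpm : (-π) ≤ π := by linarith [pi_pos]
  have hker : Integrable (Function.uncurry fun θ s => ker2 c r θ s)
      ((volume.restrict (Ioc 0 π)).prod (volume.restrict (Ioc 0 w))) := by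
    refine Integrable.mono' (integrable_const (1:ℝ)) ?_ (Eventually.of_forall fun p => ?_)
    · exact Measurable.aestronglyMeasurable (by unfold Function.uncurry ker2; fun_prop)
    · simp only [Function.uncurry]
      rw [Real.norm_eq_abs, abs_of_nonneg (ker2_nonneg _ _ _ _)]
      exact ker2_le_one _ _ _ _
  set G : ℝ → ℝ := fun θ => t2 * (π * max (r * cos θ - c) 0 +
    ∫ s in (0:ℝ)..w, s ^ 2 / ((r * cos θ - c) ^ 2 + s ^ 2)) with hG
  have hG0 : IntegrableOn G (Ioc 0 π) := by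
    refine (Integrable.add ((integrable_max_aux c r 0 π).1.const_mul π) ?_).const_mul t2
    simp only [intervalIntegral.integral_of_le hw]
    exact hker.integral_prod_left
  have hG0' : IntervalIntegrable G volume 0 π :=
    ⟨hG0, by simp [Ioc_eq_empty (not_lt.2 pi_pos.le)]⟩
  have heven : ∀ θ, G (-θ) = G θ := fun θ => by simp [hG]
  have hG1 : IntervalIntegrable G volume (-π) 0 := by
    have h := (IntervalIntegrable.iff_comp_neg (f := G) (a := 0) (b := π)).1 hG0'
    simpa [heven] using h.symm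
  have htot : ∫ θ in Ioo (-π) π, G θ = 2 * ∫ θ in (0:ℝ)..π, G θ := by
    rw [← integral_Ioc_eq_integral_Ioo, ← intervalIntegral.integral_of_le hpm,
      ← intervalIntegral.integral_add_adjacent_intervals hG1 hG0',
      show ∫ θ in (-π)..0, G θ = ∫ θ in (0:ℝ)..π, G θ by
        have h := intervalIntegral.integral_comp_neg (a := (0:ℝ)) (b := π) G
        simp only [heven, neg_zero] at h
        exact h.symm]
    ring
  rw [htot, hG]
  simp only
  rw [intervalIntegral.integral_const_mul, intervalIntegral.integral_add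
    ((integrable_max_aux c r 0 π).const_mul π) ?_, intervalIntegral.integral_const_mul]
  swap
  · refine ⟨?_, by simp [Ioc_eq_empty (not_lt.2 pi_pos.le)]⟩
    simp only [intervalIntegral.integral_of_le hw]
    exact hker.integral_prod_left
  have hswap : ∫ θ in (0:ℝ)..π, ∫ s in (0:ℝ)..w, s ^ 2 / ((r * cos θ - c) ^ 2 + s ^ 2) =
      π * ∫ s in (0:ℝ)..w,
        s * √((√((r ^ 2 - c ^ 2 + s ^ 2) ^ 2 + 4 * c ^ 2 * s ^ 2) + (r ^ 2 - c ^ 2 + s ^ 2)) / 2) /
          √((r ^ 2 - c ^ 2 + s ^ 2) ^ 2 + 4 * c ^ 2 * s ^ 2) := by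
    simp only [intervalIntegral.integral_of_le hw, intervalIntegral.integral_of_le pi_pos.le]
    refine (integral_integral_swap hker).trans ?_
    rw [← integral_const_mul]
    refine setIntegral_congr_fun measurableSet_Ioc fun s hs => ?_
    simp only [ker2, div_eq_mul_one_div (s ^ 2)]
    rw [integral_const_mul, ← intervalIntegral.integral_of_le pi_pos.le,
      angular_integral hc hs.1]
    have := hs.1.ne'
    field_simp
  rw [hswap]
  field_simp
  ring_nf

theorem integral_max_cos {c r : ℝ} (hc : 0 < c) (hcr : c ≤ r) :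
    ∫ θ in (0:ℝ)..π, max (r * cos θ - c) 0 = √(r ^ 2 - c ^ 2) - c * arccos (c / r) := by
  have hr : 0 < r := hc.trans_le hcr
  have hle : c / r ≤ 1 := (div_le_one hr).2 hcr
  have hge : -1 ≤ c / r := le_trans (by norm_num) (div_nonneg hc.le hr.le)
  set θ₀ := arccos (c / r) with hθ
  have h0 : 0 ≤ θ₀ := arccos_nonneg _
  have hπ : θ₀ ≤ π := arccos_le_pi _
  have hcos : cos θ₀ = c / r := cos_arccos hge hle
  have h1 : ∫ θ in (0:ℝ)..θ₀, max (r * cos θ - c) 0 = ∫ θ in (0:ℝ)..θ₀, (r * cos θ - c) := by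
    refine intervalIntegral.integral_congr fun θ hθ' => ?_
    rw [uIcc_of_le h0] at hθ'
    refine max_eq_left ?_
    have h := cos_le_cos_of_nonneg_of_le_pi hθ'.1 hπ hθ'.2
    rw [hcos, div_le_iff₀ hr] at h
    linarith
  have h2 : ∫ θ in θ₀..π, max (r * cos θ - c) 0 = 0 := by
    rw [intervalIntegral.integral_congr (g := fun _ => (0:ℝ)) fun θ hθ' => ?_,
      intervalIntegral.integral_zero]
    rw [uIcc_of_le hπ] at hθ'
    refine max_eq_right ?_
    have h := cos_le_cos_of_nonneg_of_le_pi h0 hθ'.2 hθ'.1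
    rw [hcos, le_div_iff₀ hr] at h
    linarith
  rw [← intervalIntegral.integral_add_adjacent_intervals (integrable_max_aux c r 0 θ₀)
    (integrable_max_aux c r θ₀ π), h1, h2, add_zero,
    intervalIntegral.integral_eq_sub_of_hasDerivAt (f := fun θ => r * sin θ - c * θ) (fun θ _ => ?_)
      ((by fun_prop : Continuous fun θ => r * cos θ - c).intervalIntegrable 0 θ₀)]
  · rw [hθ, sin_arccos, sin_zero]
    have : r * √(1 - (c / r) ^ 2) = √(r ^ 2 - c ^ 2) := by
      rw [← Real.sqrt_sq hr.le, ← Real.sqrt_mul (sq_nonneg r), Real.sqrt_sq hr.le]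
      congr 1
      field_simp
    simp [this]
  · exact (((hasDerivAt_sin θ).const_mul r).sub ((hasDerivAt_id θ).const_mul c)).congr_deriv
      (by simp)

theorem kerK_bound {c r s : ℝ} (hc : 0 < c) (hs : 0 < s) (hS : 0 < r ^ 2 - c ^ 2 + s ^ 2) :
    s * √((√((r ^ 2 - c ^ 2 + s ^ 2) ^ 2 + 4 * c ^ 2 * s ^ 2) + (r ^ 2 - c ^ 2 + s ^ 2)) / 2) /
        √((r ^ 2 - c ^ 2 + s ^ 2) ^ 2 + 4 * c ^ 2 * s ^ 2) ≤ s / √(r ^ 2 - c ^ 2 + s ^ 2) := by
  set S := r ^ 2 - c ^ 2 + s ^ 2 with hSdef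
  set p := √(S ^ 2 + 4 * c ^ 2 * s ^ 2) with hp
  have hp2 : p ^ 2 = S ^ 2 + 4 * c ^ 2 * s ^ 2 := Real.sq_sqrt (by positivity)
  have hpS : S ≤ p := Real.le_sqrt_of_sq_le (by nlinarith [sq_nonneg (c * s)])
  have hp0 : 0 < p := lt_of_lt_of_le hS hpS
  rw [div_le_div_iff₀ hp0 (Real.sqrt_pos.2 hS), mul_assoc]
  refine mul_le_mul_of_nonneg_left ?_ hs.le
  rw [← Real.sqrt_mul (by linarith)]
  refine Real.sqrt_le_iff.2 ⟨hp0.le, ?_⟩
  nlinarith [mul_le_mul hpS hpS hS.le hp0.le, mul_le_mul_of_nonneg_left hpS hS.le]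

theorem continuous_kerK (c r : ℝ) (hc : 0 < c) :
    ∀ s : ℝ, 0 < s → ContinuousAt (fun s =>
      s * √((√((r ^ 2 - c ^ 2 + s ^ 2) ^ 2 + 4 * c ^ 2 * s ^ 2) + (r ^ 2 - c ^ 2 + s ^ 2)) / 2) /
        √((r ^ 2 - c ^ 2 + s ^ 2) ^ 2 + 4 * c ^ 2 * s ^ 2)) s := by
  intro s hs
  refine ContinuousAt.div (by fun_prop) (by fun_prop) (Real.sqrt_pos.2 ?_).ne'
  positivity

theorem psi2Le : Psi2Le := by
  intro c r w hc hcr hw
  have hr2 : 0 ≤ r ^ 2 - c ^ 2 := by nlinarith
  rw [Psi2_eq hc hw, integral_max_cos hc hcr]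
  refine mul_le_mul_of_nonneg_left ?_ (by unfold t2; positivity)
  have hb : ∀ s ∈ Ioo 0 w, |s / √(r ^ 2 - c ^ 2 + s ^ 2)| ≤ 1 := fun s hs => by
    rw [abs_div, abs_of_pos hs.1, abs_of_nonneg (Real.sqrt_nonneg _)]
    exact div_le_one_of_le₀ (Real.le_sqrt_of_sq_le (by linarith)) (Real.sqrt_nonneg _)
  have hg : IntervalIntegrable (fun s => s / √(r ^ 2 - c ^ 2 + s ^ 2)) volume 0 w := by
    rw [intervalIntegrable_iff_integrableOn_Ioo_of_le hw]
    exact Measure.integrableOn_of_bounded measure_Ioo_lt_top.ne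
      (Measurable.aestronglyMeasurable (by fun_prop)) (M := 1)
      ((ae_restrict_mem measurableSet_Ioo).mono fun s hs => by
        rw [Real.norm_eq_abs]; exact hb s hs)
  have hf : IntervalIntegrable (fun s =>
      s * √((√((r ^ 2 - c ^ 2 + s ^ 2) ^ 2 + 4 * c ^ 2 * s ^ 2) + (r ^ 2 - c ^ 2 + s ^ 2)) / 2) /
        √((r ^ 2 - c ^ 2 + s ^ 2) ^ 2 + 4 * c ^ 2 * s ^ 2)) volume 0 w := by
    rw [intervalIntegrable_iff_integrableOn_Ioo_of_le hw]
    refine Measure.integrableOn_of_bounded measure_Ioo_lt_top.ne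
      (Measurable.aestronglyMeasurable (by fun_prop)) (M := 1)
      ((ae_restrict_mem measurableSet_Ioo).mono fun s hs => ?_)
    rw [Real.norm_eq_abs, abs_of_nonneg (div_nonneg (mul_nonneg hs.1.le (Real.sqrt_nonneg _))
      (Real.sqrt_nonneg _))]
    exact (kerK_bound hc hs.1 (by nlinarith [hs.1])).trans ((le_abs_self _).trans (hb s hs))
  have hmono := intervalIntegral.integral_mono_on_of_le_Ioo hw hf hg fun s hs =>
    kerK_bound hc hs.1 (by nlinarith [hs.1])
  have hval : ∫ s in (0:ℝ)..w, s / √(r ^ 2 - c ^ 2 + s ^ 2) =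
      √(r ^ 2 - c ^ 2 + w ^ 2) - √(r ^ 2 - c ^ 2) := by
    rw [intervalIntegral.integral_eq_sub_of_hasDerivAt_of_le hw
      (f := fun s => √(r ^ 2 - c ^ 2 + s ^ 2)) (Continuous.continuousOn (by fun_prop))
      (fun s hs => ?_) hg]
    · simp
    · have hpos : 0 < r ^ 2 - c ^ 2 + s ^ 2 := by nlinarith [hs.1]
      refine (((hasDerivAt_pow 2 s).const_add (r ^ 2 - c ^ 2)).sqrt hpos.ne').congr_deriv ?_
      have := (Real.sqrt_pos.2 hpos).ne'
      field_simp
      norm_num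
  linarith

theorem psi2Zero : Psi2Zero := by
  intro c w hc hw
  rw [Psi2_eq hc hw]
  have h0 : ∀ θ : ℝ, max (0 * cos θ - c) 0 = 0 := fun θ => by simp [hc.le]
  simp only [h0, intervalIntegral.integral_zero, zero_add]
  congr 1
  rw [intervalIntegral.integral_congr (g := fun s => 1 - 1 / (1 + (s / c) ^ 2)) fun s hs => ?_]
  · rw [intervalIntegral.integral_eq_sub_of_hasDerivAt
      (f := fun s => s - c * arctan (s / c)) (fun s _ => ?_)
      (Continuous.intervalIntegrable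
        (show Continuous fun s : ℝ => 1 - 1 / (1 + (s / c) ^ 2) from
          continuous_const.sub (continuous_const.div (by fun_prop) fun s => by positivity)) 0 w)]
    · simp
    · refine ((hasDerivAt_id s).sub ((((hasDerivAt_id s).div_const c).arctan).const_mul c))
        |>.congr_deriv ?_
      simp only [id_eq]
      field_simp
  · rw [uIcc_of_le hw] at hs
    have hs0 : 0 ≤ s := hs.1
    have hp : √((0 ^ 2 - c ^ 2 + s ^ 2) ^ 2 + 4 * c ^ 2 * s ^ 2) = c ^ 2 + s ^ 2 := by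
      rw [show (0 ^ 2 - c ^ 2 + s ^ 2) ^ 2 + 4 * c ^ 2 * s ^ 2 = (c ^ 2 + s ^ 2) ^ 2 by ring,
        Real.sqrt_sq (by positivity)]
    simp only
    rw [hp, show (c ^ 2 + s ^ 2 + (0 ^ 2 - c ^ 2 + s ^ 2)) / 2 = s ^ 2 by ring, Real.sqrt_sq hs0]
    field_simp
    ring

theorem psi2Junction : Psi2Junction := by
  intro c w hc hw _
  rw [Psi2_eq hc hw, integral_max_cos hc le_rfl]
  simp only [sub_self, Real.sqrt_zero, div_self hc.ne', arccos_one, mul_zero, zero_add]
  refine mul_le_mul_of_nonneg_left ?_ (by unfold t2; positivity)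
  have hbound : ∀ s ∈ Ioo 0 w,
      s * √((√((s ^ 2) ^ 2 + 4 * c ^ 2 * s ^ 2) + s ^ 2) / 2) /
        √((s ^ 2) ^ 2 + 4 * c ^ 2 * s ^ 2) ≤ √s / √(2 * c) := by
    intro s hs
    have hs0 : 0 < s := hs.1
    set b := √(s ^ 2 + 4 * c ^ 2) with hb
    have hb2 : b ^ 2 = s ^ 2 + 4 * c ^ 2 := Real.sq_sqrt (by positivity)
    have hb0 : 0 < b := Real.sqrt_pos.2 (by positivity)
    have hbe : b ≤ 2 * c + s := by
      rw [hb, Real.sqrt_le_iff]
      exact ⟨by linarith, by nlinarith⟩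
    have e : √((s ^ 2) ^ 2 + 4 * c ^ 2 * s ^ 2) = s * b := by
      rw [show (s ^ 2) ^ 2 + 4 * c ^ 2 * s ^ 2 = s ^ 2 * (s ^ 2 + 4 * c ^ 2) by ring,
        Real.sqrt_mul (sq_nonneg s), Real.sqrt_sq hs0.le]
    rw [e, show s * √((s * b + s ^ 2) / 2) / (s * b) = √((s * b + s ^ 2) / 2) / b by
      field_simp, ← Real.sqrt_div hs0.le, div_le_iff₀ hb0, Real.sqrt_le_iff]
    refine ⟨by positivity, ?_⟩
    rw [mul_pow, Real.sq_sqrt (by positivity), hb2, div_mul_eq_mul_div,
      div_le_div_iff₀ (by norm_num) (by positivity)]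
    nlinarith [mul_le_mul_of_nonneg_left hbe (mul_pos hs0 hc).le, mul_nonneg hs0.le (sq_nonneg (s - c))]
  have hg : IntervalIntegrable (fun s => √s / √(2 * c)) volume 0 w :=
    (Continuous.div_const (by fun_prop) _).intervalIntegrable 0 w
  have hf : IntervalIntegrable (fun s =>
      s * √((√((s ^ 2) ^ 2 + 4 * c ^ 2 * s ^ 2) + s ^ 2) / 2) /
        √((s ^ 2) ^ 2 + 4 * c ^ 2 * s ^ 2)) volume 0 w := by
    rw [intervalIntegrable_iff_integrableOn_Ioo_of_le hw] at hg ⊢
    refine Integrable.mono' hg (Measurable.aestronglyMeasurable (by fun_prop))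
      ((ae_restrict_mem measurableSet_Ioo).mono fun s hs => ?_)
    rw [Real.norm_eq_abs, abs_of_nonneg (div_nonneg (mul_nonneg hs.1.le (Real.sqrt_nonneg _))
      (Real.sqrt_nonneg _))]
    exact hbound s hs
  refine (intervalIntegral.integral_mono_on_of_le_Ioo hw hf hg hbound).trans (le_of_eq ?_)
  rw [intervalIntegral.integral_eq_sub_of_hasDerivAt_of_le hw
    (f := fun s => 2 / 3 * s * √s / √(2 * c)) (Continuous.continuousOn (by fun_prop))
    (fun s hs => ?_) hg]
  · simp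
  · refine ((((hasDerivAt_id s).const_mul (2 / 3)).mul (Real.hasDerivAt_sqrt hs.1.ne')).div_const
      (√(2 * c))).congr_deriv ?_
    have := (Real.sqrt_pos.2 hs.1).ne'
    have h2 : √s * √s = s := Real.mul_self_sqrt hs.1.le
    simp only [id_eq]
    field_simp
    nlinarith [h2]

end Vale.Agent.P226
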