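import Vale.Agent.P226.CheckSound
import Vale.Agent.P226.Core
import Vale.Agent.P226.Psi2
import Vale.Agent.P226.MBound
import Vale.Agent.P226.CertA
import Vale.Agent.P226.CertB
import Vale.Agent.P226.CertC
import Vale.Agent.P226.CertD
import Vale.Agent.P226.CertE
import Vale.Agent.P226.CertM

/-! # P226 module E: the normalised bound -/

namespace Vale.Agent.P226

open Chk

theorem mods : Mods :=
  ⟨psi3Eq, psi3Zero, psi2Le, psi2Zero, psi2Junction, psiMBig, psiMFour, psiMSmall,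
    witness3, witness2, witnessM⟩

theorem emaxBound : EmaxBound := by
  intro k n z hz hsum
  show emax z ≤ Tgt
  have M := mods
  have hs : ∀ i j : Fin (k + 4), (i : ℕ) ≤ j → sqn z j ≤ sqn z i := fun i j h =>
    pow_le_pow_left₀ (norm_nonneg _) (hz.sorted i j h) 2
  have h3 : 0 ≤ sqn z c3 := sq_nonneg _
  have h2 : 0 ≤ sqn z c2 := sq_nonneg _
  have hS : 0 ≤ tailSq z 4 := by
    rw [tailSq_four]; exact Finset.sum_nonneg fun j _ => sq_nonneg _
  have htot : sqn z c0 + sqn z c1 + sqn z c2 + sqn z c3 + tailSq z 4 = 3 := by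
    rw [tailSq_four, ← hsum, sum_split (fun i => ‖z i‖ ^ 2)]; rfl
  have h10 : sqn z c1 ≤ sqn z c0 := hs _ _ (by simp [c0, c1])
  have h21 : sqn z c2 ≤ sqn z c1 := hs _ _ (by simp [c1, c2])
  have h32 : sqn z c3 ≤ sqn z c2 := hs _ _ (by simp [c2, c3])
  have box : ∀ (T : Tree) (a b s0 s1 lo hi : ℚ), check T ⟨a, b, s0, s1, lo, hi⟩ = true →
      (a : ℝ) ≤ sqn z c3 → sqn z c3 ≤ (b : ℝ) → (s0 : ℝ) ≤ tailSq z 4 → tailSq z 4 ≤ (s1 : ℝ) →
      (lo : ℝ) ≤ sqn z c2 → sqn z c2 ≤ (hi : ℝ) → emax z ≤ Tgt :=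
    fun T a b s0 s1 lo hi h q1 q2 q3 q4 q5 q6 =>
      check_sound M T _ h ⟨hz, hsum, q1, q2, q3, q4, q5, q6⟩
  rcases le_total (sqn z c3) (1 / 10) with v1 | v1
  · rcases le_total (tailSq z 4) (7 / 25) with S1 | S1
    · rcases le_total (sqn z c2) (7 / 20) with w1 | w1
      · apply box tA2 _ _ _ _ _ _ tA2_ok <;> push_cast <;> linarith
      rcases le_total (sqn z c2) (11 / 20) with w2 | w2
      · apply box tA1 _ _ _ _ _ _ tA1_ok <;> push_cast <;> linarith
      · apply box tA _ _ _ _ _ _ tA_ok <;> push_cast <;> linarith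
    rcases le_total (tailSq z 4) (7 / 10) with S2 | S2
    · rcases le_total (sqn z c3) (1 / 20) with v0 | v0
      · apply box tC _ _ _ _ _ _ tC_ok <;> push_cast <;> linarith
      · apply box tC1 _ _ _ _ _ _ tC1_ok <;> push_cast <;> linarith
    · apply box tC2 _ _ _ _ _ _ tC2_ok <;> push_cast <;> linarith
  rcases le_total (sqn z c3) (1 / 5) with v2 | v2
  · rcases le_total (tailSq z 4) (7 / 25) with S1 | S1
    · rcases le_total (sqn z c2) (7 / 20) with w1 | w1
      · apply box tB2 _ _ _ _ _ _ tB2_ok <;> push_cast <;> linarith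
      · apply box tB _ _ _ _ _ _ tB_ok <;> push_cast <;> linarith
    rcases le_total (tailSq z 4) (7 / 10) with S2 | S2
    · apply box tD _ _ _ _ _ _ tD_ok <;> push_cast <;> linarith
    · apply box tD2 _ _ _ _ _ _ tD2_ok <;> push_cast <;> linarith
  rcases le_total (sqn z c3) (3 / 10) with v3 | v3
  · apply box tE _ _ _ _ _ _ tE_ok <;> push_cast <;> linarith
  rcases le_total (sqn z c3) (2 / 5) with v4 | v4
  · apply box tF _ _ _ _ _ _ tF_ok <;> push_cast <;> linarith
  rcases le_total (sqn z c3) (1 / 2) with v5 | v5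
  · apply box tG _ _ _ _ _ _ tG_ok <;> push_cast <;> linarith
  rcases le_total (sqn z c3) (3 / 5) with v6 | v6
  · apply box tH _ _ _ _ _ _ tH_ok <;> push_cast <;> linarith
  rcases le_total (sqn z c3) (27 / 40) with v7 | v7
  · apply box tI _ _ _ _ _ _ tI_ok <;> push_cast <;> linarith
  rcases le_total (tailSq z 4) (3 / 40) with S1 | S1
  · apply box tJ _ _ _ _ _ _ tJ_ok <;> push_cast <;> linarith
  · apply box tK _ _ _ _ _ _ tK_ok <;> push_cast <;> linarith

end Vale.Agent.P226
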