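import Mathlib

/-! # P226: rational certificate checker (definitions only) -/

namespace Vale.Agent.P226.Chk

/-- round up to a multiple of `10⁻⁸`. -/
def rup (x : ℚ) : ℚ := (⌈x * 100000000⌉ : ℚ) / 100000000

/-- one rounded Newton step. -/
def newt (x y : ℚ) : ℚ := rup ((y + x / y) / 2)

/-- approximate square root (only used where a side condition is checked). -/
def sq (x : ℚ) : ℚ :=
  let y : ℚ := if x < 1 / 100 then 1 / 10 else if x < 1 / 4 then 3 / 10 else if x < 2 then 1 else 2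
  newt x (newt x (newt x (newt x y)))

/-- a positive number near `√x`. -/
def sqPos (x : ℚ) : ℚ := max (sq x) (1 / 100000000)

/-- upper bound of `√x`. -/
def sqHi (x : ℚ) : ℚ := if x ≤ sq x * sq x ∧ 0 < sq x then sq x else max 1 x

/-- lower bound of `√x`. -/
def sqLo (x : ℚ) : ℚ := if x ≤ sq x * sq x ∧ 0 < sq x ∧ 0 ≤ x then x / sq x else 0

/-- upper bounds of `a √(a² + t)` at `t = t0, t1`, linear in `t`. -/
def qqUp (a t0 t1 : ℚ) : ℚ × ℚ :=
  if 0 ≤ a then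
    let u := sqPos (a * a + (t0 + t1) / 2)
    (a * (a * a + t0 + u * u) / (2 * u), a * (a * a + t1 + u * u) / (2 * u))
  else (a * sqLo (a * a + t0), a * sqLo (a * a + t1))

/-- `κ` with `k0 c σ ≤ κ σ²` for `σ² ≤ b`, and whether it is valid. -/
def kap3 (c b : ℚ) : ℚ × Bool :=
  let y := sqHi (c * c + b)
  let k := rup ((y - c) / (4 * y * (y + c)))
  (k, decide (0 < c ∧ 0 ≤ b ∧ 0 ≤ k ∧ 8 * k * y + 4 * k * c ≤ 1))

/-- node value for `Psi3`. -/
def node3 (c t0 t1 r : ℚ) : (ℚ × ℚ) × Bool :=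
  if r = 0 then
    let k := kap3 c t1
    ((rup (k.1 * t0), rup (k.1 * t1)), k.2)
  else
    let m := qqUp (r - c) t0 t1
    let p := qqUp (r + c) t0 t1
    ((rup (-c / 2 + (m.1 + p.1) / (8 * r)), rup (-c / 2 + (m.2 + p.2) / (8 * r))), decide (0 < r))

/-- truncated sum of the arctangent series with an even number of terms. -/
def atanLo (y : ℚ) : ℕ → ℚ
  | 0 => 0
  | n + 1 => atanLo y n + (y ^ (4 * n + 1) / (4 * n + 1) - y ^ (4 * n + 3) / (4 * n + 3))

/-- round down to a multiple of `10⁻⁶`. -/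
def rdn (x : ℚ) : ℚ := (⌊x * 1000000⌋ : ℚ) / 1000000

/-- lower bound of `arctan x`, given `u ≥ √(1 + x²)`. -/
def atanLo2 (x u : ℚ) : ℚ := 2 * atanLo (max 0 (rdn (x / (1 + u)))) 9

/-- `κ` with `σ - c arctan (σ/c) ≤ κ σ²` for `σ² ≤ b`. -/
def kap2 (c b : ℚ) : ℚ × Bool :=
  if b = 0 then (0, decide (0 < c)) else
    let x := rup (sqHi b / c)
    let k := rup ((x - atanLo2 x (sqHi (1 + x * x))) / (x * x))
    (k / c, decide (0 < c ∧ 0 < b ∧ 0 < x ∧ 0 ≤ k ∧ 2 * k * (1 + x * x) ≤ x))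

/-- node value for `Psi2`. -/
def node2 (c t0 t1 r : ℚ) : (ℚ × ℚ) × Bool :=
  if r = 0 then
    let k := kap2 c t1
    ((rup (k.1 * t0), rup (k.1 * t1)), k.2)
  else if r = c then
    let g := sqPos (sqPos ((t0 + t1) / 2))
    let h := sqHi (1 / (2 * c))
    ((rup (2 / 3 * h * ((3 * t0 / g + g * g * g) / 4)),
      rup (2 / 3 * h * ((3 * t1 / g + g * g * g) / 4))),
      decide (0 < c ∧ t1 ≤ 4 * c * c))
  else
    let q := r * r - c * c
    let u := sqPos (q + (t0 + t1) / 2)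
    let a := atanLo2 (sqLo q / c) (r / c)
    ((rup ((q + t0 + u * u) / (2 * u) - c * a), rup ((q + t1 + u * u) / (2 * u) - c * a)),
      decide (0 < c ∧ c < r))

/-- upper bounds of `-(a √(a² + t))`. -/
def qqNeg (a t0 t1 : ℚ) : ℚ × ℚ := qqUp (-a) t0 t1

/-- upper bound of `piece w r c a b`. -/
def pieceUp (t0 t1 r c a b : ℚ) : (ℚ × ℚ) × Bool :=
  let p := qqUp (r * b - c) t0 t1
  let m := qqNeg (r * a - c) t0 t1
  let d := (r * b - c) * (r * b - c) - (r * a - c) * (r * a - c)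
  (((d + p.1 + m.1) / (8 * r), (d + p.2 + m.2) / (8 * r)), decide (0 < r))

/-- upper bound, affine in `t ∈ [0, t1]`, of one node piece. -/
def nodePieceUp (c de p k2 t1 q l h x0 : ℚ) : (ℚ × ℚ) × Bool :=
  pieceUp 0 t1 (p - 2 * q * de * x0 + de * k2 * (l + h))
    (c - q * de * (1 + x0 * x0) + de * k2 * (l * h)) l h

/-- upper bound of `nodeA`. -/
def nodeAUp (c de p k2 t1 q : ℚ) : (ℚ × ℚ) × Bool :=
  let p1 := nodePieceUp c de p k2 t1 q (-1) (3 / 10) (3 / 20)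
  let p2 := nodePieceUp c de p k2 t1 q (3 / 10) (1 / 2) (2 / 5)
  let p3 := nodePieceUp c de p k2 t1 q (1 / 2) (7 / 10) (3 / 5)
  let p4 := nodePieceUp c de p k2 t1 q (7 / 10) 1 (17 / 20)
  ((p1.1.1 + p2.1.1 + p3.1.1 + p4.1.1, p1.1.2 + p2.1.2 + p3.1.2 + p4.1.2),
    p1.2 && p2.2 && p3.2 && p4.2)

/-- upper bound of `1/π`. -/
def wEnd : ℚ := 31831 / 100000

/-- upper bound of `1 - 2/π`. -/
def wMid : ℚ := 1 - 2 * (318309 / 1000000)

/-- affine upper bound in `(s, t)` from the two ends `a² = 0` and `a² = t1`: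
    `(1 - s) u₀ + s u₁ + β (t - s t1)`, `s = a² / t1`; evaluated at `(ν t / t1, t)`. -/
def mixEnd (u0 u1 : ℚ × ℚ) (t1 t nu : ℚ) : ℚ :=
  let b := max ((u0.2 - u0.1) / t1) ((u1.2 - u1.1) / t1)
  let s := nu * t / t1
  max 0 ((1 - s) * u0.1 + s * u1.1 + b * (t - nu * t))

/-- node value for `PsiM`, uniform in `a² ∈ [0, t]`. -/
def nodeM (c de t0 t1 r : ℚ) : (ℚ × ℚ) × Bool :=
  let k := t1 / (r * r)
  let p := r + t1 / (2 * r)
  let a0 := pieceUp 0 t1 r c (-1) 1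
  let a1 := pieceUp 0 t1 p (c - de * k) (-1) 1
  let m0 := nodeAUp c de r 0 t1 (1 / 2)
  let m1 := nodeAUp c de p k t1 (1 / 2)
  let e0 := nodeAUp c de r 0 t1 1
  let e1 := nodeAUp c de p k t1 1
  let val := fun t nu : ℚ =>
    wEnd * (mixEnd a0.1 a1.1 t1 t nu + mixEnd e0.1 e1.1 t1 t nu) + wMid * mixEnd m0.1 m1.1 t1 t nu
      + nu * (de * de * (t / (r * r)) / (4 * (r - 2 * de)))
  ((rup (max (val t0 0) (val t0 1)), rup (max (val t1 0) (val t1 1))),
    a0.2 && a1.2 && m0.2 && m1.2 && e0.2 && e1.2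
      && decide (0 ≤ de ∧ 2 * de ≤ c ∧ 2 * de < r ∧ t1 ≤ r * r ∧ 0 < t1 ∧ 0 ≤ t0))

/-- maximum of `F(r) - k r²` on a segment, `F` affine. -/
def segMax (k l fl h fh : ℚ) : ℚ :=
  let s := (fh - fl) / (h - l)
  let e := max (fl - k * l * l) (fh - k * h * h)
  if k ≤ 0 ∨ s ≤ 2 * k * l ∨ 2 * k * h ≤ s then e else max e (fl - s * l + s * s / (4 * k))

/-- running maximum along the nodes; also requires increasing abscissae. -/
def supGo (f : ℚ → (ℚ × ℚ) × Bool) (k : ℚ) :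
    ℚ → ℚ × ℚ → List ℚ → (ℚ × ℚ) × Bool
  | l, fl, [] => ((fl.1 - k * l * l, fl.2 - k * l * l), true)
  | l, fl, h :: rest =>
    let fh := f h
    let t := supGo f k h fh.1 rest
    ((max (segMax k l fl.1 h fh.1.1) t.1.1, max (segMax k l fl.2 h fh.1.2) t.1.2),
      decide (l < h) && fh.2 && t.2)

/-- bound of `F(r, t) - k r²` over the node range, at both ends of the `t`-interval. -/
def supOn (f : ℚ → (ℚ × ℚ) × Bool) (k : ℚ) (ns : List ℚ) : (ℚ × ℚ) × Bool :=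
  match ns with
  | [] => ((0, 0), false)
  | l :: rest =>
    let fl := f l
    let t := supGo f k l fl.1 rest
    (t.1, decide (0 ≤ l) && fl.2 && t.2)

/-- do the nodes cover all admissible radii for squared norms in `[lo, hi]`? -/
def covers (ns : List ℚ) (lo hi t0 t1 : ℚ) : Bool :=
  match ns with
  | [] => false
  | l :: rest =>
    decide ((l = 0 ∨ l * l + t1 ≤ lo) ∧
      hi ≤ (rest.getLast?.getD l) * (rest.getLast?.getD l) + t0 ∧ 0 ≤ (rest.getLast?.getD l))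

/-- a box: `v₄ ∈ [a,b]`, tail `S ∈ [s0,s1]`, `v₁,v₂,v₃ ≥ lo`, `v₃ ≤ hi` (`Σ v = 3`). -/
structure Box where
  a : ℚ
  b : ℚ
  s0 : ℚ
  s1 : ℚ
  lo : ℚ
  hi : ℚ

/-- parameters of a leaf. -/
structure Par where
  c : ℚ
  k : ℚ
  k4 : ℚ
  de : ℚ
  ns : List ℚ
  n3 : List ℚ
  n4 : List ℚ

/-- corner test: `g` affine in `(v₄, S)`. -/
def corners (bx : Box) (g : ℚ → ℚ → Bool) : Bool :=
  g bx.a bx.s0 && g bx.a bx.s1 && g bx.b bx.s0 && g bx.b bx.s1

/-- interpolation parameter. -/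
def theta (t0 t1 t : ℚ) : ℚ := if t0 = t1 then 0 else (t - t0) / (t1 - t0)

/-- clamped big-cell supremum. -/
def clamp (k lo t0 t1 : ℚ) (m : ℚ × ℚ) : ℚ × ℚ :=
  (m.1 + k * max 0 (t0 - lo), m.2 + k * max 0 (t1 - lo))

/-- interpolate. -/
def mixv (th : ℚ) (m : ℚ × ℚ) : ℚ := (1 - th) * m.1 + th * m.2

/-- upper limit of the two largest squared norms. -/
def hiBig (v : ℚ) (bx : Box) : ℚ := v - bx.s0 - bx.a - 2 * max bx.a bx.lo

/-- leaf test for `Witness3`, in units where `Σ v = 4`. -/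
def leaf3 (p : Par) (bx : Box) : Bool :=
  let a := 4 / 3 * bx.a
  let b := 4 / 3 * bx.b
  let s0 := 4 / 3 * bx.s0
  let s1 := 4 / 3 * bx.s1
  let lo := max a (4 / 3 * bx.lo)
  let hi := 4 - s0 - a - 2 * lo
  let t0 := s0 / 16
  let t1 := s1 / 16
  let f := node3 p.c t0 t1
  let sB := supOn f p.k p.ns
  let sT := supOn f p.k p.n3
  let sF := supOn f p.k4 p.n4
  let kp := kap3 p.c b
  let mB := clamp p.k lo t0 t1 sB.1
  let mT := clamp p.k lo t0 t1 sT.1
  let mF := clamp p.k4 a t0 t1 sF.1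
  decide (0 ≤ p.k ∧ 0 ≤ p.k4 ∧ 0 < p.c) && sB.2 && sT.2 && sF.2 && kp.2
    && covers p.ns lo hi t0 t1 && covers p.n3 lo (min hi (4 / 3 * bx.hi)) t0 t1
    && covers p.n4 a b t0 t1
    && corners bx (fun v s =>
      let v4 := 4 / 3 * v
      let S := 4 / 3 * s
      let t := S / 16
      let th := theta t0 t1 t
      decide (p.c + kp.1 * S + 2 * mixv th mB + mixv th mT + mixv th mF
        + p.k * (4 - S - v4 - 3 * t) + p.k4 * (v4 - t) ≤ 3 / 4))

/-- rational lower bound of `3√3/2`. -/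
def tgt2 : ℚ := 25980762113 / 10000000000

/-- rational upper bound of `π`. -/
def piUp : ℚ := 3141592654 / 1000000000

/-- leaf test for `Witness2`. -/
def leaf2 (p : Par) (bx : Box) : Bool :=
  let lo := max bx.a bx.lo
  let hi := hiBig 3 bx
  let t0 := (bx.a + bx.s0) / 9
  let t1 := (bx.b + bx.s1) / 9
  let f := node2 p.c t0 t1
  let sB := supOn f p.k p.ns
  let sT := supOn f p.k p.n3
  let kp := kap2 p.c bx.b
  let mB := clamp p.k lo t0 t1 sB.1
  let mT := clamp p.k lo t0 t1 sT.1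
  decide (0 ≤ p.k ∧ 0 < p.c) && sB.2 && sT.2 && kp.2
    && covers p.ns lo hi t0 t1 && covers p.n3 lo (min hi bx.hi) t0 t1
    && corners bx (fun v4 S =>
      let t := (v4 + S) / 9
      let th := theta t0 t1 t
      decide (p.c * piUp + kp.1 * (S + v4) + 2 * mixv th mB + mixv th mT
        + p.k * (3 - v4 - S - 3 * t) ≤ tgt2))

/-- bound of the fourth-cell term of the junction witness at squared norm `v`. -/
def fourM (c de v : ℚ) : ℚ × Bool :=
  let s := sqHi v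
  let t := min 1 (max 0 ((sqHi (s * s + 4 * de * c) - s) / (2 * de) + 1 / 10000))
  let p := s * t - c + de * t * t
  (rup ((t * p + ((s / 2 - c + de / 3) - (s * t * t / 2 - c * t + de * t * t * t / 3))) / 2),
    decide (0 ≤ p ∧ 0 < de))

/-- rational bounds for the hat weights `√2/3`, `4/3 - 2√2/3`, `√2/3 - 1/3`. -/
def kapM (c de b : ℚ) : ℚ × Bool :=
  let k0 := kap3 c b
  let k1 := kap3 (c - de / 2) b
  let k2 := kap3 (c - de) b
  (4714046 / 10000000 * k0.1 + 3905244 / 10000000 * k1.1 + 1380713 / 10000000 * k2.1,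
    k0.2 && k1.2 && k2.2)

/-- rational lower bound of `3√3/8`. -/
def tgtM : ℚ := 64951905283 / 100000000000

/-- leaf test for `WitnessM`; the fourth cell is bounded at `v₄ = b`. -/
def leafM (p : Par) (bx : Box) : Bool :=
  let lo := max bx.a bx.lo
  let hi := hiBig 3 bx
  let t0 := (bx.a + bx.s0) / 9
  let t1 := (bx.b + bx.s1) / 9
  let f := nodeM p.c p.de t0 t1
  let sB := supOn f p.k p.ns
  let sT := supOn f p.k p.n3
  let kp := kapM p.c p.de bx.b
  let fa := fourM p.c p.de bx.a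
  let fb := fourM p.c p.de bx.b
  let mB := clamp p.k lo t0 t1 sB.1
  let mT := clamp p.k lo t0 t1 sT.1
  let sl := if bx.a < bx.b then (fb.1 - fa.1) / (bx.b - bx.a) else 0
  let gap := (sqHi bx.b - sqLo bx.a) * (sqHi bx.b - sqLo bx.a) * max 0 sl / 4
  decide (0 ≤ p.k ∧ 0 < p.c ∧ 0 ≤ p.de ∧ 2 * p.de ≤ p.c ∧ 0 < p.c - p.de ∧ bx.a < bx.b)
    && sB.2 && sT.2 && kp.2 && fa.2 && fb.2
    && covers p.ns lo hi t0 t1 && covers p.n3 lo (min hi bx.hi) t0 t1
    && corners bx (fun v4 S =>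
      let t := (v4 + S) / 9
      let th := theta t0 t1 t
      decide (p.c - p.de / 3 + kp.1 * S + fa.1 + sl * (v4 - bx.a) + gap
        + 2 * mixv th mB + mixv th mT + p.k * (3 - v4 - S - 3 * t) ≤ tgtM))

/-- the tail can not exceed `3 - 4 a`. -/
def clip (bx : Box) : Box :=
  if 3 - 4 * bx.a < bx.s1 then { bx with s1 := max bx.s0 (3 - 4 * bx.a) } else bx

/-- certificate tree. -/
inductive Tree where
  | emp : Tree
  | d3 : Par → Tree
  | d2 : Par → Tree
  | jm : Par → Tree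
  | tet : Tree
  | prp : Tree
  | splitA : ℚ → Tree → Tree → Tree
  | splitS : ℚ → Tree → Tree → Tree
  | split3 : ℚ → Tree → Tree → Tree

/-- check a tree on a box. -/
def check : Tree → Box → Bool
  | .emp, bx => decide (3 < 4 * bx.a + bx.s0 ∨ 3 < bx.a + bx.s0 + 3 * bx.lo)
  | .d3 p, bx => decide (0 ≤ bx.a ∧ 0 ≤ bx.s0) && leaf3 p (clip bx)
  | .d2 p, bx => decide (0 ≤ bx.a ∧ 0 ≤ bx.s0) && leaf2 p (clip bx)
  | .jm p, bx => decide (0 ≤ bx.a ∧ 0 ≤ bx.s0) && leafM p (clip bx)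
  | .tet, bx => decide (27 / 40 ≤ bx.a ∧ bx.s1 ≤ 3 / 40)
  | .prp, bx => decide (bx.b ≤ 1 / 160 ∧ bx.s1 ≤ 1 / 32 ∧ 11 / 20 ≤ bx.lo)
  | .splitA m l r, bx => check l { bx with b := m } && check r { bx with a := m }
  | .splitS m l r, bx => check l { bx with s1 := m } && check r { bx with s0 := m }
  | .split3 m l r, bx => check l { bx with hi := m } && check r { bx with lo := m }

end Vale.Agent.P226.Chk
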