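import Vale.Agent.P226.Interface
import Vale.Agent.P226.CheckerDefs

/-! # P226: soundness of the scalar parts of the checker -/

namespace Vale.Agent.P226.Chk

open Real

lemma le_rup (x : ℚ) : (x : ℝ) ≤ (rup x : ℝ) := by
  have h : x ≤ rup x := by
    unfold rup
    rw [le_div_iff₀ (by norm_num)]
    exact Int.le_ceil _
  exact_mod_cast h

lemma rdn_le (x : ℚ) : (rdn x : ℝ) ≤ (x : ℝ) := by
  have h : rdn x ≤ x := by
    unfold rdn
    rw [div_le_iff₀ (by norm_num)]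
    exact Int.floor_le _
  exact_mod_cast h

lemma sqPos_pos (x : ℚ) : (0 : ℝ) < (sqPos x : ℝ) := by
  have h : 0 < sqPos x := lt_of_lt_of_le (by norm_num) (le_max_right _ _)
  exact_mod_cast h

lemma sqrt_le_sqHi (x : ℚ) : √(x : ℝ) ≤ (sqHi x : ℝ) := by
  unfold sqHi
  split
  next h =>
    obtain ⟨h1, h2⟩ := h
    have h1' : (x : ℝ) ≤ (sq x : ℝ) * (sq x : ℝ) := by exact_mod_cast h1
    have h2' : (0 : ℝ) ≤ (sq x : ℝ) := by exact_mod_cast h2.le
    calc √(x : ℝ) ≤ √((sq x : ℝ) * (sq x : ℝ)) := sqrt_le_sqrt h1'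
      _ = (sq x : ℝ) := sqrt_mul_self h2'
  next h =>
    push_cast
    rcases le_total (x : ℝ) 1 with h1 | h1
    · exact le_trans (sqrt_le_one.2 h1) (le_max_left _ _)
    · refine le_trans ?_ (le_max_right _ _)
      rw [Real.sqrt_le_left (by linarith)]
      nlinarith

lemma sqHi_nonneg (x : ℚ) : (0 : ℝ) ≤ (sqHi x : ℝ) := le_trans (sqrt_nonneg _) (sqrt_le_sqHi x)

lemma sqLo_nonneg (x : ℚ) : (0 : ℝ) ≤ (sqLo x : ℝ) := by
  unfold sqLo
  split
  next h =>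
    obtain ⟨-, h2, h3⟩ := h
    have : (0 : ℚ) ≤ x / sq x := div_nonneg h3 h2.le
    exact_mod_cast this
  next h => simp

lemma sqLo_le_sqrt (x : ℚ) : (sqLo x : ℝ) ≤ √(x : ℝ) := by
  unfold sqLo
  split
  next h =>
    obtain ⟨h1, h2, h3⟩ := h
    have h1' : (x : ℝ) ≤ (sq x : ℝ) * (sq x : ℝ) := by exact_mod_cast h1
    have h2' : (0 : ℝ) < (sq x : ℝ) := by exact_mod_cast h2
    have h3' : (0 : ℝ) ≤ (x : ℝ) := by exact_mod_cast h3
    push_cast
    rw [div_le_iff₀ h2']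
    have : √(x : ℝ) ≤ (sq x : ℝ) := by
      calc √(x : ℝ) ≤ √((sq x : ℝ) * (sq x : ℝ)) := sqrt_le_sqrt h1'
        _ = (sq x : ℝ) := sqrt_mul_self h2'.le
    nlinarith [mul_self_sqrt h3', sqrt_nonneg (x : ℝ)]
  next h => simp

/-- affine interpolation. -/
def lerp (θ : ℝ) (a b : ℝ) : ℝ := (1 - θ) * a + θ * b

lemma lerp_mono {θ a b a' b' : ℝ} (h0 : 0 ≤ θ) (h1 : θ ≤ 1) (ha : a ≤ a') (hb : b ≤ b') :
    lerp θ a b ≤ lerp θ a' b' := by
  unfold lerp
  have : 0 ≤ 1 - θ := by linarith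
  gcongr

lemma sqrt_le_tangent {x u : ℝ} (hx : 0 ≤ x) (hu : 0 < u) : √x ≤ (x + u * u) / (2 * u) := by
  rw [le_div_iff₀ (by positivity)]
  nlinarith [sq_nonneg (√x - u), mul_self_sqrt hx]

lemma sqrt_lerp_ge {θ x0 x1 l0 l1 : ℝ} (h0 : 0 ≤ θ) (h1 : θ ≤ 1)
    (hl0 : l0 ≤ √x0) (hl1 : l1 ≤ √x1) (hx0 : 0 ≤ x0) (hx1 : 0 ≤ x1) :
    lerp θ l0 l1 ≤ √(lerp θ x0 x1) := by
  refine le_trans (lerp_mono h0 h1 hl0 hl1) ?_
  apply Real.le_sqrt_of_sq_le
  unfold lerp
  have e0 := mul_self_sqrt hx0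
  have e1 := mul_self_sqrt hx1
  nlinarith [mul_nonneg (mul_nonneg h0 (by linarith : (0 : ℝ) ≤ 1 - θ)) (sq_nonneg (√x0 - √x1))]

/-- `a √(a² + t) ≤` the affine interpolation of the checker's values. -/
lemma qqUp_sound (a t0 t1 : ℚ) {θ : ℝ} (h0 : 0 ≤ θ) (h1 : θ ≤ 1)
    (ht0 : (0 : ℚ) ≤ t0) (ht1 : (0 : ℚ) ≤ t1) :
    (a : ℝ) * √((a : ℝ) ^ 2 + lerp θ t0 t1)
      ≤ lerp θ ((qqUp a t0 t1).1 : ℝ) ((qqUp a t0 t1).2 : ℝ) := by
  unfold qqUp
  split
  next ha =>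
    have ha' : (0 : ℝ) ≤ (a : ℝ) := by exact_mod_cast ha
    have hu := sqPos_pos (a * a + (t0 + t1) / 2)
    generalize sqPos (a * a + (t0 + t1) / 2) = uq at hu ⊢
    have q0 : (0 : ℝ) ≤ (t0 : ℝ) := by exact_mod_cast ht0
    have q1 : (0 : ℝ) ≤ (t1 : ℝ) := by exact_mod_cast ht1
    have hl : (0 : ℝ) ≤ lerp θ t0 t1 :=
      add_nonneg (mul_nonneg (by linarith) q0) (mul_nonneg h0 q1)
    have := mul_le_mul_of_nonneg_left
      (sqrt_le_tangent (x := (a : ℝ) ^ 2 + lerp θ t0 t1) (u := (uq : ℝ)) (by positivity) hu) ha'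
    refine le_trans this (le_of_eq ?_)
    simp only [lerp]
    push_cast
    field_simp
    ring
  next ha =>
    have ha' : (a : ℝ) ≤ 0 := by exact_mod_cast (le_of_lt (not_le.1 ha))
    have q0 : (0 : ℝ) ≤ (t0 : ℝ) := by exact_mod_cast ht0
    have q1 : (0 : ℝ) ≤ (t1 : ℝ) := by exact_mod_cast ht1
    have l0 : (sqLo (a * a + t0) : ℝ) ≤ √((a : ℝ) ^ 2 + t0) := by
      have := sqLo_le_sqrt (a * a + t0); push_cast at this; rw [pow_two]; exact this
    have l1 : (sqLo (a * a + t1) : ℝ) ≤ √((a : ℝ) ^ 2 + t1) := by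
      have := sqLo_le_sqrt (a * a + t1); push_cast at this; rw [pow_two]; exact this
    have hk := sqrt_lerp_ge h0 h1 l0 l1 (by positivity) (by positivity)
    have heq : lerp θ ((a : ℝ) ^ 2 + t0) ((a : ℝ) ^ 2 + t1) = (a : ℝ) ^ 2 + lerp θ t0 t1 := by
      unfold lerp; ring
    rw [heq] at hk
    refine le_trans (mul_le_mul_of_nonpos_left hk ha') (le_of_eq ?_)
    simp only [lerp]
    push_cast
    ring

/-- sub-quadratic bound of `k0`. -/
lemma k0_le_of {c b κ Y σ : ℝ} (hc : 0 < c) (hκ : 0 ≤ κ) (hY : √(c ^ 2 + b) ≤ Y)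
    (hq : Y - c ≤ κ * (4 * Y * (Y + c))) (hd : 8 * κ * Y + 4 * κ * c ≤ 1)
    (hσ : σ ^ 2 ≤ b) : k0 c σ ≤ κ * σ ^ 2 := by
  set y := √(c ^ 2 + σ ^ 2) with hy
  have hsq : y * y = c ^ 2 + σ ^ 2 := mul_self_sqrt (by positivity)
  have hcy : c ≤ y := Real.le_sqrt_of_sq_le (by nlinarith)
  have hyY : y ≤ Y := le_trans (sqrt_le_sqrt (by linarith)) hY
  have hy0 : 0 < y := lt_of_lt_of_le hc hcy
  have hmid : y - c ≤ κ * (4 * y * (y + c)) := by
    nlinarith [mul_nonneg (sub_nonneg.2 hyY)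
      (by nlinarith : (0 : ℝ) ≤ 1 - 4 * κ * (y + Y) - 4 * κ * c)]
  unfold k0
  rw [← hy, div_le_iff₀ (by positivity)]
  have hs : σ ^ 2 = (y - c) * (y + c) := by nlinarith
  rw [hs]
  nlinarith [mul_le_mul_of_nonneg_left hmid (sub_nonneg.2 hcy)]

lemma kap3_sound (c b : ℚ) (h : (kap3 c b).2 = true) :
    (0 : ℝ) < (c : ℝ) ∧ (0 : ℝ) ≤ ((kap3 c b).1 : ℝ) ∧
      ∀ σ : ℝ, σ ^ 2 ≤ (b : ℝ) → k0 (c : ℝ) σ ≤ ((kap3 c b).1 : ℝ) * σ ^ 2 := by
  unfold kap3 at h ⊢
  simp only [decide_eq_true_eq] at h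
  obtain ⟨hc, hb, hk, hd⟩ := h
  have hc' : (0 : ℝ) < (c : ℝ) := by exact_mod_cast hc
  have hb' : (0 : ℝ) ≤ (b : ℝ) := by exact_mod_cast hb
  refine ⟨hc', by exact_mod_cast hk, fun σ hσ => ?_⟩
  simp only
  set y : ℚ := sqHi (c * c + b) with hy
  set k : ℚ := rup ((y - c) / (4 * y * (y + c))) with hkdef
  have hY : √((c : ℝ) ^ 2 + (b : ℝ)) ≤ (y : ℝ) := by
    have := sqrt_le_sqHi (c * c + b); push_cast at this; rw [pow_two]; exact this
  have hy0 : (c : ℝ) ≤ (y : ℝ) := le_trans (Real.le_sqrt_of_sq_le (by linarith)) hY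
  have hq : ((y - c) / (4 * y * (y + c)) : ℝ) ≤ (k : ℝ) := by
    have := le_rup ((y - c) / (4 * y * (y + c))); push_cast at this; exact this
  refine k0_le_of hc' (by exact_mod_cast hk) hY ?_ ?_ hσ
  · have hpos : (0 : ℝ) < 4 * (y : ℝ) * ((y : ℝ) + (c : ℝ)) := by
      have : (0 : ℝ) < (y : ℝ) := lt_of_lt_of_le hc' hy0
      positivity
    rwa [div_le_iff₀ hpos] at hq
  · exact_mod_cast hd

lemma sq_series_step (y : ℝ) (n : ℕ) :
    HasDerivAt (fun y : ℝ => y ^ (4 * n + 1) / (4 * n + 1) - y ^ (4 * n + 3) / (4 * n + 3))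
      (y ^ (4 * n) - y ^ (4 * n + 2)) y := by
  have h1 := (hasDerivAt_pow (4 * n + 1) y).div_const ((4 : ℝ) * n + 1)
  have h2 := (hasDerivAt_pow (4 * n + 3) y).div_const ((4 : ℝ) * n + 3)
  refine (h1.sub h2).congr_deriv ?_
  push_cast
  field_simp

/-- real version of `atanLo`. -/
noncomputable def atanPoly : ℕ → ℝ → ℝ
  | 0, _ => 0
  | n + 1, y => atanPoly n y + (y ^ (4 * n + 1) / (4 * n + 1) - y ^ (4 * n + 3) / (4 * n + 3))

lemma atanLo_cast (y : ℚ) (n : ℕ) : ((atanLo y n : ℚ) : ℝ) = atanPoly n (y : ℝ) := by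
  induction n with
  | zero => simp [atanLo, atanPoly]
  | succ n ih => simp only [atanLo, atanPoly]; push_cast; rw [ih]

lemma atanPoly_deriv (n : ℕ) (y : ℝ) :
    HasDerivAt (atanPoly n) ((1 - y ^ (4 * n)) / (1 + y ^ 2)) y := by
  induction n with
  | zero =>
    have : atanPoly 0 = fun _ => (0 : ℝ) := by funext z; rfl
    rw [this]; simpa using hasDerivAt_const y (0 : ℝ)
  | succ n ih =>
    have : atanPoly (n + 1) = fun y => atanPoly n y
        + (y ^ (4 * n + 1) / (4 * n + 1) - y ^ (4 * n + 3) / (4 * n + 3)) := by funext z; rfl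
    rw [this]
    refine (ih.add (sq_series_step y n)).congr_deriv ?_
    have : 1 + y ^ 2 ≠ 0 := by positivity
    field_simp
    ring

lemma atanPoly_le (n : ℕ) {y : ℝ} (hy : 0 ≤ y) : atanPoly n y ≤ arctan y := by
  have hd : ∀ x, HasDerivAt (fun x => arctan x - atanPoly n x)
      (x ^ (4 * n) / (1 + x ^ 2)) x := fun x => by
    refine ((hasDerivAt_arctan x).sub (atanPoly_deriv n x)).congr_deriv ?_
    have : 1 + x ^ 2 ≠ 0 := by positivity
    field_simp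
    ring
  have hm : Monotone (fun x => arctan x - atanPoly n x) :=
    monotone_of_hasDerivAt_nonneg hd (fun x => by
      have : (0 : ℝ) ≤ x ^ (4 * n) := Even.pow_nonneg ⟨2 * n, by ring⟩ x
      positivity)
  have h0 : atanPoly n 0 = 0 := by
    clear hd hm hy
    induction n with
    | zero => rfl
    | succ n ih => simp [atanPoly, ih]
  have := hm hy
  simp only [h0, arctan_zero] at this
  linarith

lemma atanLo2_le {x u : ℚ} (hx : 0 ≤ x) (hu : √(1 + (x : ℝ) ^ 2) ≤ (u : ℝ)) :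
    (atanLo2 x u : ℝ) ≤ arctan (x : ℝ) := by
  unfold atanLo2
  push_cast
  rw [atanLo_cast]
  have hx' : (0 : ℝ) ≤ (x : ℝ) := by exact_mod_cast hx
  set s := √(1 + (x : ℝ) ^ 2) with hs
  have hs1 : 1 ≤ s := Real.le_sqrt_of_sq_le (by nlinarith)
  have hss : s * s = 1 + (x : ℝ) ^ 2 := mul_self_sqrt (by positivity)
  set y := (x : ℝ) / (1 + s) with hy
  have hy0 : 0 ≤ y := by positivity
  have hyarg : ((max 0 (rdn (x / (1 + u))) : ℚ) : ℝ) ≤ y := by
    push_cast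
    refine max_le hy0 ?_
    refine le_trans (rdn_le _) ?_
    push_cast
    exact div_le_div_of_nonneg_left hx' (by linarith) (by linarith)
  have hnn : (0 : ℝ) ≤ ((max 0 (rdn (x / (1 + u))) : ℚ) : ℝ) := by
    exact_mod_cast le_max_left _ _
  have key : arctan (x : ℝ) = 2 * arctan y := by
    have hy1 : y < 1 := by
      rw [hy, div_lt_one (by linarith)]; nlinarith
    have hpos : (0 : ℝ) < 1 + s := by linarith
    rw [two_mul_arctan (by linarith) hy1]
    congr 1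
    have hne : (1 + s) ^ 2 - (x : ℝ) ^ 2 ≠ 0 := by nlinarith
    rw [hy]
    field_simp
    nlinarith [hss]
  rw [key]
  have := atanPoly_le 9 hnn
  have h2 := arctan_mono hyarg
  linarith

/-- sub-quadratic bound of `σ - c arctan (σ/c)`. -/
lemma sub_arctan_le {κ X y : ℝ} (hκ : 0 ≤ κ) (hy : 0 ≤ y) (hyX : y ≤ X)
    (hd : 2 * κ * (1 + X ^ 2) ≤ X) (hX : X - arctan X ≤ κ * X ^ 2) :
    y - arctan y ≤ κ * y ^ 2 := by
  let h := fun x : ℝ => κ * x ^ 2 - x + arctan x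
  have hder : ∀ x, HasDerivAt h (x * (2 * κ * (1 + x ^ 2) - x) / (1 + x ^ 2)) x := fun x => by
    have h1 := ((hasDerivAt_pow 2 x).const_mul κ).sub (hasDerivAt_id x)
    refine ((h1.add (hasDerivAt_arctan x)).congr_of_eventuallyEq ?_).congr_deriv ?_
    · exact Filter.Eventually.of_forall (fun z => by simp [h])
    · have : 1 + x ^ 2 ≠ 0 := by positivity
      field_simp
      ring
  have hcont : Continuous h := continuous_iff_continuousAt.2 fun x => (hder x).continuousAt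
  rcases eq_or_lt_of_le hyX with rfl | hlt
  · exact hX
  rcases le_or_gt y (2 * κ * (1 + y ^ 2)) with hcase | hcase
  · -- increasing on `[0, y]`
    have hm : MonotoneOn h (Set.Icc 0 y) := by
      apply monotoneOn_of_hasDerivWithinAt_nonneg (convex_Icc 0 y) hcont.continuousOn
        (fun x _ => (hder x).hasDerivWithinAt)
      intro x hx
      rw [interior_Icc] at hx
      have hx0 := hx.1
      have : x ≤ 2 * κ * (1 + x ^ 2) := by
        by_contra hne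
        push Not at hne
        have h2 : 2 * κ * (1 + X ^ 2) ≤ X := hd
        have e : (X - x) * (2 * κ * (1 + y ^ 2) - y)
            ≤ (X - y) * (2 * κ * (1 + x ^ 2) - x) + (y - x) * (2 * κ * (1 + X ^ 2) - X) := by
          nlinarith [mul_nonneg hκ (mul_nonneg (mul_nonneg (by linarith [hx.2] : (0 : ℝ) ≤ y - x)
            (by linarith : (0 : ℝ) ≤ X - y)) (by linarith [hx.2] : (0 : ℝ) ≤ X - x))]
        nlinarith [hx.2, mul_pos (sub_pos.2 hlt) (sub_pos.2 hne)]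
      positivity
    have := hm (Set.left_mem_Icc.2 hy) (Set.right_mem_Icc.2 hy) hy
    simp [h] at this
    linarith
  · -- decreasing on `[y, X]`
    have hm : AntitoneOn h (Set.Icc y X) := by
      apply antitoneOn_of_hasDerivWithinAt_nonpos (convex_Icc y X) hcont.continuousOn
        (fun x _ => (hder x).hasDerivWithinAt)
      intro x hx
      rw [interior_Icc] at hx
      obtain ⟨h1, h2⟩ := hx
      have e : 2 * κ * (1 + x ^ 2) - x ≤ 0 := by
        nlinarith [mul_nonneg hκ (mul_nonneg (mul_nonneg (sub_nonneg.2 h1.le)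
          (sub_nonneg.2 h2.le)) (by linarith : (0 : ℝ) ≤ X - y)),
          mul_pos (sub_pos.2 h2) (sub_pos.2 hcase)]
      apply div_nonpos_of_nonpos_of_nonneg _ (by positivity)
      exact mul_nonpos_of_nonneg_of_nonpos (by linarith) e
    have := hm (Set.left_mem_Icc.2 hyX) (Set.right_mem_Icc.2 hyX) hyX
    simp [h] at this
    linarith

end Vale.Agent.P226.Chk
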