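import Vale.Agent.P226.CheckPoint

/-! # P226: soundness of the `Witness2` leaves -/

namespace Vale.Agent.P226.Chk

open Real MeasureTheory

variable {k n : ℕ}

lemma piUp_ge : π ≤ (piUp : ℝ) := by
  unfold piUp; push_cast
  linarith [pi_lt_d20]

lemma tgt2_le : (tgt2 : ℝ) ≤ 3 * √3 / 2 := by
  have h : (173205080756 / 100000000000 : ℝ) ≤ √3 := Real.le_sqrt_of_sq_le (by norm_num)
  unfold tgt2; push_cast
  linarith

/-- `Witness2`, with the sum split. -/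
lemma witness2_split (W : Witness2) {z : Fin (k + 4) → EuclideanSpace ℝ (Fin n)}
    (hz : Admissible z) {c : ℝ} (hc : 0 < c) :
    emax z ≤ c * m2
      + (bigTerm (Psi2 c) (sqn z c0) (tailSq z 3 / 9)
        + bigTerm (Psi2 c) (sqn z c1) (tailSq z 3 / 9)
        + bigTerm (Psi2 c) (sqn z c2) (tailSq z 3 / 9))
      + (Psi2 c 0 ‖z c3‖ + ∑ j : Fin k, Psi2 c 0 ‖z (tl j)‖) := by
  have h := W k n z hz c hc
  rw [sum_split] at h
  simp only [c0, c1, c2, c3, tl, Nat.zero_lt_succ, if_true, Nat.one_lt_ofNat,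
    show (2 : ℕ) < 3 by norm_num, Nat.lt_irrefl,
    show ∀ m : ℕ, ¬ m + 4 < 3 from fun m => by omega, if_false] at h
  refine le_trans h (le_of_eq ?_)
  simp only [sqn, c0, c1, c2, c3, tl]
  ring

/-- three big cells and the small cells, with the same constants. -/
lemma leaf2_sound (hE : Psi2Le) (hZ : Psi2Zero) (hJ : Psi2Junction) (W : Witness2) (p : Par)
    (bx : Box) {z : Fin (k + 4) → EuclideanSpace ℝ (Fin n)} (H : InBox z bx) (ha : 0 ≤ bx.a)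
    (hs : 0 ≤ bx.s0) (h : leaf2 p bx = true) : emax z ≤ Tgt := by
  have F := H.facts
  unfold leaf2 at h
  simp only [Bool.and_eq_true, decide_eq_true_eq, corners] at h
  obtain ⟨⟨⟨⟨⟨⟨⟨hk, hc⟩, hB⟩, hT⟩, hkp⟩, covB⟩, covT⟩, ⟨⟨k1, k2⟩, k3⟩, k4⟩ := h
  set lo : ℚ := max bx.a bx.lo with hlodef
  set hi : ℚ := hiBig 3 bx with hhidef
  set t0 : ℚ := (bx.a + bx.s0) / 9 with ht0def
  set t1 : ℚ := (bx.b + bx.s1) / 9 with ht1def
  set t : ℝ := tailSq z 3 / 9 with htdef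
  set θ : ℝ := thR t0 t1 t with hθdef
  have hva := H.va
  have hvb := H.vb
  have hsa := H.sa
  have hsb := H.sb
  have hlo := H.lo
  have hhi := H.hi
  have htS := tailSq_three z
  have ht0 : (0 : ℚ) ≤ t0 := by rw [ht0def]; positivity
  have hb0 : (t0 : ℝ) ≤ t := by rw [ht0def, htdef, htS]; push_cast; linarith
  have hb1 : t ≤ (t1 : ℝ) := by rw [ht1def, htdef, htS]; push_cast; linarith
  have ht01 : t0 ≤ t1 := by exact_mod_cast hb0.trans hb1
  obtain ⟨θ0, θ1, θe⟩ := thR_spec hb0 hb1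
  have hc' : (0 : ℝ) < (p.c : ℝ) := by exact_mod_cast hc
  have hn : ∀ x : ℚ, (node2 p.c t0 t1 x).2 = true →
      Psi2 (p.c : ℝ) (x : ℝ) (√t) ≤ t2 * lerp θ ((node2 p.c t0 t1 x).1.1 : ℝ)
        ((node2 p.c t0 t1 x).1.2 : ℝ) := fun x hx => by
    have := node2_sound hE hZ hJ p.c t0 t1 x hc hx ht0 ht01 θ0 θ1
    rwa [θe] at this
  have cell : ∀ (hi' : ℚ) (ns : List ℚ), (supOn (node2 p.c t0 t1) p.k ns).2 = true →
      covers ns lo hi' t0 t1 = true → ∀ v : ℝ, (lo : ℝ) ≤ v → v ≤ (hi' : ℝ) →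
      bigTerm (Psi2 (p.c : ℝ)) v t ≤ t2 * (lerp θ
        ((clamp p.k lo t0 t1 (supOn (node2 p.c t0 t1) p.k ns).1).1 : ℝ)
        ((clamp p.k lo t0 t1 (supOn (node2 p.c t0 t1) p.k ns).1).2 : ℝ) + (p.k : ℝ) * (v - t)) := by
    intro hi' ns hsup hcov v v1 v2
    unfold bigTerm
    refine le_trans (Psi2_mono _ _ (sqrt_nonneg _) (sqrt_le_sqrt (min_le_right v t))) ?_
    exact cell_sound (node2 p.c t0 t1) p.k lo hi' t0 t1 ns (G := fun r => Psi2 (p.c : ℝ) r (√t))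
      (Psi2_convex _ _) t2_nonneg θ0 θ1 hn hsup hcov hk θe.symm ht01 v1 v2
  have lo2 : (lo : ℝ) ≤ sqn z c2 := by
    rw [hlodef]; push_cast
    exact max_le (by linarith [F.h32]) hlo
  have hi0 : sqn z c0 ≤ (hi : ℝ) := by
    rw [hhidef]; unfold hiBig; rw [← hlodef]; push_cast
    linarith [F.hsum, F.h21]
  have q0 := cell hi p.ns hB covB _ (by linarith [F.h10, F.h21]) hi0
  have q1 := cell hi p.ns hB covB (sqn z c1) (by linarith [F.h21]) (by linarith [F.h10])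
  have q2 := cell (min hi bx.hi) p.n3 hT covT _ lo2 (by
    push_cast; exact le_min (by linarith [F.h10, F.h21]) hhi)
  have qk : ∀ i, sqn z i ≤ sqn z c3 →
      Psi2 (p.c : ℝ) 0 ‖z i‖ ≤ t2 * (((kap2 p.c bx.b).1 : ℝ) * sqn z i) := fun i hi' => by
    obtain ⟨-, hkap⟩ := kap2_sound p.c bx.b hkp
    rw [hZ _ _ hc' (norm_nonneg _)]
    exact mul_le_mul_of_nonneg_left (hkap _ (norm_nonneg _) (hi'.trans hvb)) t2_nonneg
  have qt := tail_sum_le (z := z) (C := t2) (κ := ((kap2 p.c bx.b).1 : ℝ))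
    (P := fun j => Psi2 (p.c : ℝ) 0 ‖z (tl j)‖) fun j => qk _ (F.htl j)
  have qf := qk c3 le_rfl
  have hw := witness2_split W H.adm hc'
  rw [← htdef, m2_eq] at hw
  rw [Tgt_eq]
  refine le_trans hw ?_
  set mB := clamp p.k lo t0 t1 (supOn (node2 p.c t0 t1) p.k p.ns).1
  set mT := clamp p.k lo t0 t1 (supOn (node2 p.c t0 t1) p.k p.n3).1
  set κ := (kap2 p.c bx.b).1
  let E : ℝ → ℝ → ℝ := fun v s => (p.c : ℝ) * (piUp : ℝ) + (κ : ℝ) * (s + v)
    + 2 * lerp (thR t0 t1 ((v + s) / 9)) (mB.1 : ℝ) (mB.2 : ℝ)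
    + lerp (thR t0 t1 ((v + s) / 9)) (mT.1 : ℝ) (mT.2 : ℝ)
    + (p.k : ℝ) * (3 - v - s - 3 * ((v + s) / 9))
  have hEaff : ∀ u v, E u v = E 0 0 + (E 1 0 - E 0 0) * u + (E 0 1 - E 0 0) * v := fun u v => by
    simp only [E, lerp, thR]; ring
  have corner : ∀ v s : ℚ, (p.c * piUp + κ * (s + v) + 2 * mixv (theta t0 t1 ((v + s) / 9)) mB
      + mixv (theta t0 t1 ((v + s) / 9)) mT + p.k * (3 - v - s - 3 * ((v + s) / 9)) ≤ tgt2) →
      E (v : ℝ) (s : ℝ) ≤ (tgt2 : ℝ) := by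
    intro v s hvs
    have h2 := (Rat.cast_le (K := ℝ)).2 hvs
    push_cast [mixv_cast, theta_cast] at h2
    exact h2
  have key : E (sqn z c3) (tailSq z 4) ≤ (tgt2 : ℝ) :=
    affine_le E hEaff hva hvb hsa hsb (corner _ _ k1) (corner _ _ k2) (corner _ _ k3) (corner _ _ k4)
  have hm := mul_le_mul_of_nonneg_left (key.trans tgt2_le) t2_nonneg
  refine le_trans ?_ hm
  have hp : (p.c : ℝ) * (π * t2) ≤ (p.c : ℝ) * ((piUp : ℝ) * t2) :=
    mul_le_mul_of_nonneg_left (mul_le_mul_of_nonneg_right piUp_ge t2_nonneg) hc'.le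
  refine le_trans (add_le_add (add_le_add hp (add_le_add (add_le_add q0 q1) q2))
    (add_le_add qf qt)) (le_of_eq ?_)
  have hsum : sqn z c0 + sqn z c1 + sqn z c2 = 3 - tailSq z 4 - sqn z c3 := by linarith [F.hsum]
  simp only [E]
  rw [show (sqn z c3 + tailSq z 4) / 9 = t by rw [htdef, htS], ← hθdef]
  linear_combination (t2 * (p.k : ℝ)) * hsum

end Vale.Agent.P226.Chk
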