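import Vale.Agent.P226.CheckPoint

/-! # P226: soundness of the `Witness3` leaves -/

namespace Vale.Agent.P226.Chk

open Real MeasureTheory

variable {k n : ℕ}

lemma Psi3_homog {l : ℝ} (hl : 0 ≤ l) (c r w : ℝ) :
    Psi3 (l * c) (l * r) (l * w) = l * Psi3 c r w := by
  unfold Psi3
  rw [← integral_const_mul]
  congr 1
  funext y
  rw [← hh_homog hl]
  congr 1
  ring

/-- `4/3` scaling of the bound of `Witness3`. -/
lemma witness3_scaled (W : Witness3) {z : Fin (k + 4) → EuclideanSpace ℝ (Fin n)}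
    (hz : Admissible z) {c : ℝ} (hc : 0 < c) :
    √(4 / 3) * emax z ≤ c * m3
      + (bigTerm (Psi3 c) (4 / 3 * sqn z c0) (4 / 3 * tailSq z 4 / 16)
        + bigTerm (Psi3 c) (4 / 3 * sqn z c1) (4 / 3 * tailSq z 4 / 16)
        + bigTerm (Psi3 c) (4 / 3 * sqn z c2) (4 / 3 * tailSq z 4 / 16)
        + bigTerm (Psi3 c) (4 / 3 * sqn z c3) (4 / 3 * tailSq z 4 / 16))
      + ∑ j : Fin k, Psi3 c 0 (√(4 / 3 * sqn z (tl j))) := by
  set l : ℝ := √(4 / 3) with hl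
  have hl0 : 0 < l := by positivity
  have h := W k n z hz (c / l) (div_pos hc hl0)
  rw [sum_split] at h
  have e1 : ∀ v t : ℝ, l * bigTerm (Psi3 (c / l)) v t
      = bigTerm (Psi3 c) (4 / 3 * v) (4 / 3 * t) := fun v t => by
    unfold bigTerm
    rw [← Psi3_homog hl0.le, hl, ← Real.sqrt_mul (by norm_num), ← Real.sqrt_mul (by norm_num),
      mul_sub, mul_min_of_nonneg _ _ (by norm_num : (0 : ℝ) ≤ 4 / 3), ← hl,
      mul_div_cancel₀ _ hl0.ne']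
  have e2 : ∀ j : Fin k, l * Psi3 (c / l) 0 ‖z (tl j)‖ = Psi3 c 0 (√(4 / 3 * sqn z (tl j))) :=
    fun j => by
    rw [← Psi3_homog hl0.le, mul_zero, mul_div_cancel₀ _ hl0.ne', sqn,
      Real.sqrt_mul (by norm_num), Real.sqrt_sq (norm_nonneg _)]
  simp only [c0, c1, c2, c3, tl, Nat.zero_lt_succ, if_true, Nat.one_lt_ofNat,
    show (2 : ℕ) < 4 by norm_num, show (3 : ℕ) < 4 by norm_num,
    show ∀ m : ℕ, ¬ m + 4 < 4 from fun m => by omega, if_false] at h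
  have h' := mul_le_mul_of_nonneg_left h hl0.le
  refine le_trans h' (le_of_eq ?_)
  rw [mul_add, mul_add, mul_add, mul_add, mul_add, Finset.mul_sum]
  simp only [e1]
  have e3 : l * (c / l * m3) = c * m3 := by field_simp
  rw [e3]
  have e4 : ∑ i : Fin k, l * Psi3 (c / l) 0 ‖z (tl i)‖
      = ∑ j : Fin k, Psi3 c 0 (√(4 / 3 * sqn z (tl j))) := Finset.sum_congr rfl fun j _ => e2 j
  simp only [tl] at e4
  rw [e4]
  simp only [sqn, mul_div_assoc, c0, c1, c2, c3, tl]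
  ring

lemma Tgt_scaled {e : ℝ} (h : √(4 / 3) * e ≤ m3 * (3 / 4)) : e ≤ Tgt := by
  rw [m3_eq] at h
  rw [Tgt_eq]
  have h3 : 0 < √(3 : ℝ) := by positivity
  have e3 : √(4 / 3 : ℝ) = 2 / √3 := by
    rw [Real.sqrt_div (by norm_num), show (4 : ℝ) = 2 ^ 2 by norm_num,
      Real.sqrt_sq (by norm_num : (0 : ℝ) ≤ 2)]
  rw [e3, div_mul_eq_mul_div, div_le_iff₀ h3] at h
  nlinarith [t2_nonneg]

lemma leaf3_sound (hE : Psi3Eq) (hZ : Psi3Zero) (W : Witness3) (p : Par) (bx : Box)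
    {z : Fin (k + 4) → EuclideanSpace ℝ (Fin n)} (H : InBox z bx) (ha : 0 ≤ bx.a)
    (hs : 0 ≤ bx.s0) (h : leaf3 p bx = true) : emax z ≤ Tgt := by
  have F := H.facts
  unfold leaf3 at h
  simp only [Bool.and_eq_true, decide_eq_true_eq, corners] at h
  obtain ⟨⟨⟨⟨⟨⟨⟨⟨⟨hk, hk4, hc⟩, hB⟩, hT⟩, hF⟩, hkp⟩, covB⟩, covT⟩, covF⟩,
    ⟨⟨k1, k2⟩, k3⟩, k4⟩ := h
  set a : ℚ := 4 / 3 * bx.a with hadef
  set b : ℚ := 4 / 3 * bx.b with hbdef
  set lo : ℚ := max a (4 / 3 * bx.lo) with hlodef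
  set hi : ℚ := 4 - 4 / 3 * bx.s0 - a - 2 * lo with hhidef
  set t0 : ℚ := 4 / 3 * bx.s0 / 16 with ht0def
  set t1 : ℚ := 4 / 3 * bx.s1 / 16 with ht1def
  set S : ℝ := 4 / 3 * tailSq z 4 with hSdef
  set t : ℝ := 4 / 3 * tailSq z 4 / 16 with htdef
  set θ : ℝ := thR t0 t1 t with hθdef
  have hsa := H.sa
  have hsb := H.sb
  have ht0 : (0 : ℚ) ≤ t0 := by rw [ht0def]; positivity
  have hb0 : (t0 : ℝ) ≤ t := by rw [ht0def, htdef]; push_cast; linarith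
  have hb1 : t ≤ (t1 : ℝ) := by rw [ht1def, htdef]; push_cast; linarith
  have ht01 : t0 ≤ t1 := by exact_mod_cast hb0.trans hb1
  obtain ⟨θ0, θ1, θe⟩ := thR_spec hb0 hb1
  have hc' : (0 : ℝ) < (p.c : ℝ) := by exact_mod_cast hc
  have htnn : 0 ≤ t := by rw [htdef]; linarith [F.hS]
  have hn : ∀ x : ℚ, (node3 p.c t0 t1 x).2 = true →
      Psi3 (p.c : ℝ) (x : ℝ) (√t) ≤ m3 * lerp θ ((node3 p.c t0 t1 x).1.1 : ℝ)
        ((node3 p.c t0 t1 x).1.2 : ℝ) := fun x hx => by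
    have := node3_sound hE hZ p.c t0 t1 x hc hx ht0 ht01 θ0 θ1
    rwa [θe] at this
  have cell : ∀ (kk lo' hi' : ℚ) (ns : List ℚ), (supOn (node3 p.c t0 t1) kk ns).2 = true →
      covers ns lo' hi' t0 t1 = true → 0 ≤ kk → ∀ v : ℝ, (lo' : ℝ) ≤ v → v ≤ (hi' : ℝ) →
      bigTerm (Psi3 (p.c : ℝ)) v t ≤ m3 * (lerp θ
        ((clamp kk lo' t0 t1 (supOn (node3 p.c t0 t1) kk ns).1).1 : ℝ)
        ((clamp kk lo' t0 t1 (supOn (node3 p.c t0 t1) kk ns).1).2 : ℝ) + (kk : ℝ) * (v - t)) := by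
    intro kk lo' hi' ns hsup hcov hkk v v1 v2
    unfold bigTerm
    refine le_trans (Psi3_mono _ _ (sqrt_nonneg _) (sqrt_le_sqrt (min_le_right v t))) ?_
    exact cell_sound (node3 p.c t0 t1) kk lo' hi' t0 t1 ns (G := fun r => Psi3 (p.c : ℝ) r (√t))
      (Psi3_convex _ _) m3_nonneg θ0 θ1 hn hsup hcov hkk θe.symm ht01 v1 v2
  have hva := H.va
  have hvb := H.vb
  have hlo := H.lo
  have hhi := H.hi
  have lo2 : (lo : ℝ) ≤ 4 / 3 * sqn z c2 := by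
    rw [hlodef, hadef]; push_cast
    exact max_le (by linarith [F.h32]) (by linarith)
  have hi0 : 4 / 3 * sqn z c0 ≤ (hi : ℝ) := by
    rw [hhidef, hadef]; push_cast
    linarith [F.hsum, F.h21]
  have q0 := cell p.k lo hi p.ns hB covB hk _ (by linarith [F.h10, F.h21]) hi0
  have q1 := cell p.k lo hi p.ns hB covB hk (4 / 3 * sqn z c1) (by linarith [F.h21])
    (by linarith [F.h10])
  have q2 := cell p.k lo (min hi (4 / 3 * bx.hi)) p.n3 hT covT hk _ lo2 (by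
    push_cast
    exact le_min (by linarith [F.h10, F.h21]) (by linarith))
  have q3 := cell p.k4 a b p.n4 hF covF hk4 (4 / 3 * sqn z c3)
    (by rw [hadef]; push_cast; linarith) (by rw [hbdef]; push_cast; linarith)
  have qt : ∑ j : Fin k, Psi3 (p.c : ℝ) 0 (√(4 / 3 * sqn z (tl j)))
      ≤ (4 / 3 * m3) * (((kap3 p.c b).1 : ℝ) * tailSq z 4) := by
    refine tail_sum_le fun j => ?_
    obtain ⟨-, -, hkap⟩ := kap3_sound p.c b hkp
    have h0 : 0 ≤ 4 / 3 * sqn z (tl j) := mul_nonneg (by norm_num) (sq_nonneg _)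
    rw [hZ _ _ hc' (sqrt_nonneg _)]
    have hsq : √(4 / 3 * sqn z (tl j)) ^ 2 ≤ (b : ℝ) := by
      rw [sq_sqrt h0, hbdef]; push_cast; linarith [F.htl j]
    refine le_trans (mul_le_mul_of_nonneg_left (hkap _ hsq) m3_nonneg) (le_of_eq ?_)
    rw [sq_sqrt h0]; ring
  have hw := witness3_scaled W H.adm hc'
  rw [← htdef] at hw
  refine Tgt_scaled (le_trans hw ?_)
  set mB := clamp p.k lo t0 t1 (supOn (node3 p.c t0 t1) p.k p.ns).1
  set mT := clamp p.k lo t0 t1 (supOn (node3 p.c t0 t1) p.k p.n3).1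
  set mF := clamp p.k4 a t0 t1 (supOn (node3 p.c t0 t1) p.k4 p.n4).1
  set κ := (kap3 p.c b).1
  let E : ℝ → ℝ → ℝ := fun v s => (p.c : ℝ) + (κ : ℝ) * (4 / 3 * s)
    + 2 * lerp (thR t0 t1 (4 / 3 * s / 16)) (mB.1 : ℝ) (mB.2 : ℝ)
    + lerp (thR t0 t1 (4 / 3 * s / 16)) (mT.1 : ℝ) (mT.2 : ℝ)
    + lerp (thR t0 t1 (4 / 3 * s / 16)) (mF.1 : ℝ) (mF.2 : ℝ)
    + (p.k : ℝ) * (4 - 4 / 3 * s - 4 / 3 * v - 3 * (4 / 3 * s / 16))
    + (p.k4 : ℝ) * (4 / 3 * v - 4 / 3 * s / 16)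
  have hE : ∀ u v, E u v = E 0 0 + (E 1 0 - E 0 0) * u + (E 0 1 - E 0 0) * v := fun u v => by
    simp only [E, lerp, thR]; ring
  have corner : ∀ v s : ℚ, (p.c + κ * (4 / 3 * s) + 2 * mixv (theta t0 t1 (4 / 3 * s / 16)) mB
      + mixv (theta t0 t1 (4 / 3 * s / 16)) mT + mixv (theta t0 t1 (4 / 3 * s / 16)) mF
      + p.k * (4 - 4 / 3 * s - 4 / 3 * v - 3 * (4 / 3 * s / 16))
      + p.k4 * (4 / 3 * v - 4 / 3 * s / 16) ≤ 3 / 4) → E (v : ℝ) (s : ℝ) ≤ 3 / 4 := by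
    intro v s hvs
    have h2 := (Rat.cast_le (K := ℝ)).2 hvs
    push_cast [mixv_cast, theta_cast] at h2
    exact h2
  have key : E (sqn z c3) (tailSq z 4) ≤ 3 / 4 :=
    affine_le E hE hva hvb hsa hsb (corner _ _ k1) (corner _ _ k2) (corner _ _ k3) (corner _ _ k4)
  have hm := mul_le_mul_of_nonneg_left key m3_nonneg
  refine le_trans ?_ hm
  refine le_trans (add_le_add (add_le_add_right (add_le_add (add_le_add (add_le_add q0 q1) q2) q3) _)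
    qt) (le_of_eq ?_)
  have hsum : sqn z c0 + sqn z c1 + sqn z c2 = 3 - tailSq z 4 - sqn z c3 := by linarith [F.hsum]
  simp only [E]
  rw [← htdef, ← hθdef]
  linear_combination (4 / 3 * m3 * (p.k : ℝ)) * hsum

end Vale.Agent.P226.Chk
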