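import Vale.Agent.P226.CheckPiece

/-! # P226: soundness of the junction node -/

namespace Vale.Agent.P226.Chk

open Real

/-- affine function on `[0, T]` with end values `u`. -/
noncomputable def affU (u : ℚ × ℚ) (T x : ℝ) : ℝ := lerp (x / T) (u.1 : ℝ) (u.2 : ℝ)

lemma qq_neg (w a : ℝ) : qq w (-a) = -qq w a := by unfold qq; rw [neg_sq]; ring

lemma pieceUp_sound (t1 r c l h : ℚ) (hf : (pieceUp 0 t1 r c l h).2 = true) (ht : 0 < t1)
    {w : ℝ} (hwt : w ^ 2 ≤ (t1 : ℝ)) :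
    piece w (r : ℝ) (c : ℝ) (l : ℝ) (h : ℝ) ≤ affU (pieceUp 0 t1 r c l h).1 (t1 : ℝ) (w ^ 2) := by
  unfold pieceUp at hf ⊢
  simp only [decide_eq_true_eq] at hf ⊢
  have hr : (0 : ℝ) < (r : ℝ) := by exact_mod_cast hf
  have hT : (0 : ℝ) < (t1 : ℝ) := by exact_mod_cast ht
  set θ := w ^ 2 / (t1 : ℝ) with hθ
  have h0 : 0 ≤ θ := by positivity
  have h1 : θ ≤ 1 := by rw [hθ, div_le_one hT]; exact hwt
  have hl : lerp θ ((0 : ℚ) : ℝ) (t1 : ℝ) = w ^ 2 := by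
    rw [hθ]; unfold lerp; push_cast; field_simp; ring
  have hp := qqUp_sound (r * h - c) 0 t1 h0 h1 le_rfl ht.le
  have hm := qqUp_sound (-(r * l - c)) 0 t1 h0 h1 le_rfl ht.le
  rw [hl] at hp hm
  push_cast at hp hm
  change qq w ((r : ℝ) * h - c) ≤ _ at hp
  change qq w (-((r : ℝ) * l - c)) ≤ _ at hm
  rw [qq_neg] at hm
  unfold piece gK affU qqNeg
  rw [div_le_iff₀ (by positivity)]
  rw [← hθ]
  unfold lerp at hp hm ⊢
  push_cast
  field_simp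
  ring_nf at hp hm ⊢
  nlinarith [hp, hm]

lemma affU_le_max (u v : ℚ × ℚ) {T s x : ℝ} (hT : 0 < T) (h0 : 0 ≤ s) (h1 : s ≤ 1) (hx : 0 ≤ x) :
    lerp s (affU u T x) (affU v T x)
      ≤ (1 - s) * (u.1 : ℝ) + s * (v.1 : ℝ)
        + max (((u.2 : ℝ) - u.1) / T) (((v.2 : ℝ) - v.1) / T) * x := by
  have e : ∀ u : ℚ × ℚ, affU u T x = (u.1 : ℝ) + ((u.2 : ℝ) - u.1) / T * x := fun u => by
    unfold affU lerp; field_simp; ring
  rw [e, e]
  unfold lerp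
  have a1 : ((u.2 : ℝ) - u.1) / T * x ≤ max (((u.2 : ℝ) - u.1) / T) (((v.2 : ℝ) - v.1) / T) * x :=
    mul_le_mul_of_nonneg_right (le_max_left _ _) hx
  have a2 : ((v.2 : ℝ) - v.1) / T * x ≤ max (((u.2 : ℝ) - u.1) / T) (((v.2 : ℝ) - v.1) / T) * x :=
    mul_le_mul_of_nonneg_right (le_max_right _ _) hx
  nlinarith [mul_le_mul_of_nonneg_left a1 (by linarith : (0 : ℝ) ≤ 1 - s),
    mul_le_mul_of_nonneg_left a2 h0]

/-- the real version of `mixEnd`, as a function of `(t, a²)`. -/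
noncomputable def gEnd (u v : ℚ × ℚ) (T t a : ℝ) : ℝ :=
  max 0 ((1 - a / T) * (u.1 : ℝ) + a / T * (v.1 : ℝ)
    + max (((u.2 : ℝ) - u.1) / T) (((v.2 : ℝ) - v.1) / T) * (t - a))

lemma gEnd_lerp (u v : ℚ × ℚ) (T : ℝ) {θ t t' a a' : ℝ} (h0 : 0 ≤ θ) (h1 : θ ≤ 1) :
    gEnd u v T (lerp θ t t') (lerp θ a a') ≤ lerp θ (gEnd u v T t a) (gEnd u v T t' a') := by
  unfold gEnd lerp
  refine max_le (add_nonneg (mul_nonneg (by linarith) (le_max_left _ _))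
    (mul_nonneg h0 (le_max_left _ _))) ?_
  refine le_trans (le_of_eq ?_) (add_le_add
    (mul_le_mul_of_nonneg_left (le_max_right _ _) (by linarith : (0 : ℝ) ≤ 1 - θ))
    (mul_le_mul_of_nonneg_left (le_max_right _ _) h0))
  ring

lemma gEnd_cast (u v : ℚ × ℚ) (T t nu : ℚ) :
    gEnd u v (T : ℝ) (t : ℝ) ((nu : ℝ) * t) = ((mixEnd u v T t nu : ℚ) : ℝ) := by
  unfold gEnd mixEnd; push_cast; ring_nf

lemma le_gEnd {T t a2 : ℝ} (hT : 0 < T) (ha : 0 ≤ a2) (hat : a2 ≤ t) (htT : t ≤ T)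
    {F : ℝ} (u v : ℚ × ℚ)
    (hF : F ≤ lerp (a2 / T) (affU u T (t - a2)) (affU v T (t - a2))) : F ≤ gEnd u v T t a2 := by
  refine le_trans hF (le_trans (affU_le_max u v hT (by positivity) ?_ (by linarith)) (le_max_right _ _))
  rw [div_le_one hT]; linarith

/-- one node of `bigA` against its two ends. -/
lemma piece_two_ends {T t a2 p0 p1 c0 c1 l h : ℝ} (hT : 0 < T) (ha : 0 ≤ a2) (hat : a2 ≤ t)
    (htT : t ≤ T) (hlh : l ≤ h) (hp0 : 0 < p0) (hp1 : 0 < p1) :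
    piece (√(t - a2)) (lerp (a2 / T) p0 p1) (lerp (a2 / T) c0 c1) l h
      ≤ lerp (a2 / T) (piece (√(t - a2)) p0 c0 l h) (piece (√(t - a2)) p1 c1 l h) :=
  piece_convex _ (sqrt_nonneg _) hlh hp0 hp1 (by positivity)
    (by rw [div_le_one hT]; linarith)

lemma nodeAUp_sound (c de p k t1 q : ℚ) (hf : (nodeAUp c de p k t1 q).2 = true) (ht : 0 < t1)
    {w : ℝ} (hwt : w ^ 2 ≤ (t1 : ℝ)) :
    nodeA (c : ℝ) (de : ℝ) (p : ℝ) (k : ℝ) w (q : ℝ)
      ≤ affU (nodeAUp c de p k t1 q).1 (t1 : ℝ) (w ^ 2) := by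
  unfold nodeAUp at hf ⊢
  simp only [Bool.and_eq_true] at hf
  obtain ⟨⟨⟨f1, f2⟩, f3⟩, f4⟩ := hf
  have key : ∀ l h x0 : ℚ, (nodePieceUp c de p k t1 q l h x0).2 = true →
      nodePiece (c : ℝ) (de : ℝ) (p : ℝ) (k : ℝ) w (q : ℝ) (l : ℝ) (h : ℝ) (x0 : ℝ)
        ≤ affU (nodePieceUp c de p k t1 q l h x0).1 (t1 : ℝ) (w ^ 2) := fun l h x0 hflag => by
    have := pieceUp_sound t1 _ _ l h hflag ht hwt
    unfold nodePiece
    push_cast at this
    refine le_trans (le_of_eq ?_) this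
    congr 1
    ring
  have e := add_le_add (add_le_add (add_le_add (key _ _ _ f1) (key _ _ _ f2)) (key _ _ _ f3))
    (key _ _ _ f4)
  unfold nodeA
  push_cast at e
  refine le_trans e (le_of_eq ?_)
  unfold affU lerp; push_cast; ring

lemma nodePiece_affine {c δ r T a2 w q l h x0 : ℝ} (hr : 0 < r) (hT : 0 < T) (hlh : l ≤ h)
    (hw : 0 ≤ w) (ha : 0 ≤ a2) (haT : a2 ≤ T) (h0 : 0 < r - 2 * q * δ * x0)
    (h1 : 0 < r + T / (2 * r) - 2 * q * δ * x0 + δ * (T / r ^ 2) * (l + h)) :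
    nodePiece c δ (r + a2 / (2 * r)) (a2 / r ^ 2) w q l h x0
      ≤ lerp (a2 / T) (nodePiece c δ r 0 w q l h x0)
          (nodePiece c δ (r + T / (2 * r)) (T / r ^ 2) w q l h x0) := by
  unfold nodePiece
  have hs0 : 0 ≤ a2 / T := by positivity
  have hs1 : a2 / T ≤ 1 := by rw [div_le_one hT]; exact haT
  refine le_trans (le_of_eq ?_) (le_trans (piece_convex w hw (r0 := r - 2 * q * δ * x0)
    (r1 := r + T / (2 * r) - 2 * q * δ * x0 + δ * (T / r ^ 2) * (l + h))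
    (c0 := c - q * δ * (1 + x0 ^ 2))
    (c1 := c - q * δ * (1 + x0 ^ 2) + δ * (T / r ^ 2) * (l * h)) hlh h0 h1 hs0 hs1)
    (le_of_eq ?_))
  · congr 1 <;> (unfold lerp; field_simp; ring)
  · congr 1; congr 1 <;> ring

lemma nodeA_affine {c δ r T a2 w q : ℝ} (hT : 0 < T) (hTr : T ≤ r ^ 2) (hδ : 0 ≤ δ)
    (hdr : 2 * δ < r) (hq0 : 0 ≤ q) (hq1 : q ≤ 1) (hw : 0 ≤ w) (ha : 0 ≤ a2) (haT : a2 ≤ T) :
    nodeA c δ (r + a2 / (2 * r)) (a2 / r ^ 2) w q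
      ≤ lerp (a2 / T) (nodeA c δ r 0 w q) (nodeA c δ (r + T / (2 * r)) (T / r ^ 2) w q) := by
  have hr : 0 < r := by linarith
  have hk0 : 0 ≤ T / r ^ 2 := by positivity
  have hk : T / r ^ 2 ≤ 1 := by rw [div_le_one (by positivity)]; exact hTr
  have hp : 0 ≤ T / (2 * r) := by positivity
  have hqd : q * δ ≤ δ := mul_le_of_le_one_left hδ hq1
  have hqd0 : 0 ≤ q * δ := mul_nonneg hq0 hδ
  have hkd : δ * (T / r ^ 2) ≤ δ := mul_le_of_le_one_right hδ hk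
  have hkd0 : 0 ≤ δ * (T / r ^ 2) := mul_nonneg hδ hk0
  have a := nodePiece_affine (c := c) (δ := δ) (q := q) (x0 := 3 / 20) (l := -1) (h := 3 / 10) hr hT
    (by norm_num) hw ha haT (by nlinarith) (by nlinarith)
  have b := nodePiece_affine (c := c) (δ := δ) (q := q) (x0 := 2 / 5) (l := 3 / 10) (h := 1 / 2) hr
    hT (by norm_num) hw ha haT (by nlinarith) (by nlinarith)
  have d := nodePiece_affine (c := c) (δ := δ) (q := q) (x0 := 3 / 5) (l := 1 / 2) (h := 7 / 10) hr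
    hT (by norm_num) hw ha haT (by nlinarith) (by nlinarith)
  have e := nodePiece_affine (c := c) (δ := δ) (q := q) (x0 := 17 / 20) (l := 7 / 10) (h := 1) hr
    hT (by norm_num) hw ha haT (by nlinarith) (by nlinarith)
  unfold nodeA lerp
  unfold lerp at a b d e
  linarith

/-- the affine-convex majorant of `bigA` used by `nodeM`. -/
noncomputable def gNode (c de t1 r : ℚ) (t a : ℝ) : ℝ :=
  (wEnd : ℝ) * (gEnd (pieceUp 0 t1 r c (-1) 1).1
      (pieceUp 0 t1 (r + t1 / (2 * r)) (c - de * (t1 / (r * r))) (-1) 1).1 (t1 : ℝ) t a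
    + gEnd (nodeAUp c de r 0 t1 1).1
      (nodeAUp c de (r + t1 / (2 * r)) (t1 / (r * r)) t1 1).1 (t1 : ℝ) t a)
  + (wMid : ℝ) * gEnd (nodeAUp c de r 0 t1 (1 / 2)).1
      (nodeAUp c de (r + t1 / (2 * r)) (t1 / (r * r)) t1 (1 / 2)).1 (t1 : ℝ) t a
  + (de : ℝ) * de / ((r : ℝ) * r) / (4 * ((r : ℝ) - 2 * de)) * a

lemma gNode_lerp (c de t1 r : ℚ) {θ x x' y y' : ℝ} (g0 : 0 ≤ θ) (g1 : θ ≤ 1) :
    gNode c de t1 r (lerp θ x x') (lerp θ y y')
      ≤ lerp θ (gNode c de t1 r x y) (gNode c de t1 r x' y') := by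
  have hwE : (0 : ℝ) ≤ (wEnd : ℝ) := by norm_num [wEnd]
  have hwM : (0 : ℝ) ≤ (wMid : ℝ) := by norm_num [wMid]
  have key := fun u v : ℚ × ℚ =>
    gEnd_lerp u v (t1 : ℝ) (t := x) (t' := x') (a := y) (a' := y') g0 g1
  unfold gNode
  refine le_trans (add_le_add (add_le_add (mul_le_mul_of_nonneg_left
    (add_le_add (key _ _) (key _ _)) hwE) (mul_le_mul_of_nonneg_left (key _ _) hwM)) le_rfl)
    (le_of_eq ?_)
  unfold lerp
  ring

lemma gNode_segment (c de t1 r : ℚ) (x : ℝ) {ν : ℝ} (n0 : 0 ≤ ν) (n1 : ν ≤ 1) :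
    gNode c de t1 r x (ν * x) ≤ max (gNode c de t1 r x 0) (gNode c de t1 r x (1 * x)) := by
  have h := gNode_lerp c de t1 r (x := x) (x' := x) (y := 0) (y' := 1 * x) n0 n1
  rw [lerp_self] at h
  have e : lerp ν 0 (1 * x) = ν * x := by unfold lerp; ring
  rw [e] at h
  refine le_trans h ?_
  have := lerp_mono n0 n1 (le_max_left (gNode c de t1 r x 0) (gNode c de t1 r x (1 * x)))
    (le_max_right (gNode c de t1 r x 0) (gNode c de t1 r x (1 * x)))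
  rwa [lerp_self] at this

lemma nodeM_cast_ends (c de t0 t1 r : ℚ) :
    max (gNode c de t1 r (t0 : ℝ) 0) (gNode c de t1 r (t0 : ℝ) (1 * (t0 : ℝ)))
        ≤ ((nodeM c de t0 t1 r).1.1 : ℝ) ∧
      max (gNode c de t1 r (t1 : ℝ) 0) (gNode c de t1 r (t1 : ℝ) (1 * (t1 : ℝ)))
        ≤ ((nodeM c de t0 t1 r).1.2 : ℝ) := by
  have e : ∀ (u v : ℚ × ℚ) (t : ℚ),
      gEnd u v (t1 : ℝ) (t : ℝ) 0 = ((mixEnd u v t1 t 0 : ℚ) : ℝ) ∧
      gEnd u v (t1 : ℝ) (t : ℝ) (1 * (t : ℝ)) = ((mixEnd u v t1 t 1 : ℚ) : ℝ) := fun u v t => by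
    have h0 := gEnd_cast u v t1 t 0
    have h1 := gEnd_cast u v t1 t 1
    push_cast at h0 h1
    rw [zero_mul] at h0
    exact ⟨h0, h1⟩
  unfold nodeM gNode
  constructor <;>
  · refine le_trans (le_of_eq ?_) (le_rup _)
    simp only [fun u v => (e u v t0).1, fun u v => (e u v t0).2, fun u v => (e u v t1).1,
      fun u v => (e u v t1).2]
    push_cast
    congr 1 <;> ring

lemma nodeM_sound (hB : PsiMBig) (c de t0 t1 r : ℚ) (hf : (nodeM c de t0 t1 r).2 = true)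
    (ht : t0 ≤ t1) {θ a : ℝ} (h0 : 0 ≤ θ) (h1 : θ ≤ 1) (ha : a ^ 2 ≤ lerp θ t0 t1) :
    PsiM (c : ℝ) (de : ℝ) (r : ℝ) a (√(lerp θ t0 t1 - a ^ 2))
      ≤ m3 * lerp θ ((nodeM c de t0 t1 r).1.1 : ℝ) ((nodeM c de t0 t1 r).1.2 : ℝ) := by
  unfold nodeM at hf
  simp only [Bool.and_eq_true, decide_eq_true_eq] at hf
  obtain ⟨⟨⟨⟨⟨⟨fa0, fa1⟩, fm0⟩, fm1⟩, fe0⟩, fe1⟩, hde, h2c, hdr, htr, ht1, ht00⟩ := hf
  set T : ℝ := (t1 : ℝ) with hTdef
  have hT : 0 < T := by rw [hTdef]; exact_mod_cast ht1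
  have q0 : (0 : ℝ) ≤ (t0 : ℝ) := by exact_mod_cast ht00
  have q1 : (t0 : ℝ) ≤ T := by rw [hTdef]; exact_mod_cast ht
  have hde' : (0 : ℝ) ≤ (de : ℝ) := by exact_mod_cast hde
  have h2c' : 2 * (de : ℝ) ≤ (c : ℝ) := by exact_mod_cast h2c
  have hdr' : 2 * (de : ℝ) < (r : ℝ) := by exact_mod_cast hdr
  have htr' : T ≤ (r : ℝ) ^ 2 := by rw [hTdef, pow_two]; exact_mod_cast htr
  have hr : (0 : ℝ) < (r : ℝ) := by linarith
  set t := lerp θ (t0 : ℝ) T with htdef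
  have htT : t ≤ T := lerp_le_right h1 q1
  have ht0' : 0 ≤ t := lerp_nonneg h0 h1 q0 (q0.trans q1)
  refine le_trans (hB _ _ _ a _ hde' h2c' hdr' (by nlinarith) (sqrt_nonneg _)) ?_
  refine mul_le_mul_of_nonneg_left ?_ m3_nonneg
  set a2 := a ^ 2 with ha2
  have ha0 : 0 ≤ a2 := sq_nonneg a
  set w := √(t - a2) with hw
  have hw2 : w ^ 2 = t - a2 := sq_sqrt (by linarith)
  have hwT : w ^ 2 ≤ T := by rw [hw2]; linarith
  have hs0 : 0 ≤ a2 / T := by positivity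
  have hs1 : a2 / T ≤ 1 := by rw [div_le_one hT]; linarith
  have hA : piece w ((r : ℝ) + a2 / (2 * r)) ((c : ℝ) - de * (a2 / (r : ℝ) ^ 2)) (-1) 1
      ≤ gEnd (pieceUp 0 t1 r c (-1) 1).1
          (pieceUp 0 t1 (r + t1 / (2 * r)) (c - de * (t1 / (r * r))) (-1) 1).1 T t a2 := by
    refine le_gEnd hT ha0 (by linarith) htT _ _ ?_
    have hp := piece_two_ends (p0 := (r : ℝ))
      (p1 := (r : ℝ) + T / (2 * r)) (c0 := (c : ℝ)) (c1 := (c : ℝ) - de * (T / (r : ℝ) ^ 2))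
      (l := (-1 : ℝ)) (h := 1)
      (t := t) hT ha0 (by linarith) htT (by norm_num) hr (by positivity)
    rw [← hw] at hp
    refine le_trans (le_trans (le_of_eq ?_) hp) ?_
    · congr 1 <;> (unfold lerp; field_simp; ring)
    · rw [← hw2]
      refine lerp_mono hs0 hs1 ?_ ?_
      · have := pieceUp_sound t1 _ _ (-1) 1 fa0 ht1 hwT; push_cast at this; exact this
      · have := pieceUp_sound t1 _ _ (-1) 1 fa1 ht1 hwT
        push_cast at this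
        refine le_trans (le_of_eq ?_) this
        congr 1; rw [hTdef]; ring
  have hN : ∀ q : ℚ, 0 ≤ q → q ≤ 1 → (nodeAUp c de r 0 t1 q).2 = true →
      (nodeAUp c de (r + t1 / (2 * r)) (t1 / (r * r)) t1 q).2 = true →
      nodeA (c : ℝ) (de : ℝ) ((r : ℝ) + a2 / (2 * r)) (a2 / (r : ℝ) ^ 2) w (q : ℝ)
        ≤ gEnd (nodeAUp c de r 0 t1 q).1
            (nodeAUp c de (r + t1 / (2 * r)) (t1 / (r * r)) t1 q).1 T t a2 := by
    intro q hq0 hq1 f0 f1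
    refine le_gEnd hT ha0 (by linarith) htT _ _ ?_
    refine le_trans (nodeA_affine hT htr' hde' hdr' (by exact_mod_cast hq0)
      (by exact_mod_cast hq1) (sqrt_nonneg _) ha0 (by linarith)) ?_
    rw [← hw2]
    refine lerp_mono hs0 hs1 ?_ ?_
    · have := nodeAUp_sound c de r 0 t1 q f0 ht1 hwT; push_cast at this; exact this
    · have := nodeAUp_sound c de (r + t1 / (2 * r)) (t1 / (r * r)) t1 q f1 ht1 hwT
      push_cast at this
      refine le_trans (le_of_eq ?_) this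
      rw [pow_two, hTdef]
  have hM := hN (1 / 2) (by norm_num) (by norm_num) fm0 fm1
  have hE := hN 1 (by norm_num) le_rfl fe0 fe1
  push_cast at hM hE
  have hb : bigA (c : ℝ) (de : ℝ) (r : ℝ) a2 w ≤ gNode c de t1 r t a2 := by
    unfold bigA gNode
    have w1 : (0 : ℝ) ≤ 1 / π := by positivity
    have w2 : (0 : ℝ) ≤ 1 - 2 / π := by
      rw [sub_nonneg, div_le_one pi_pos]; linarith [pi_gt_three]
    have mono : ∀ {x w' g : ℝ} {W : ℚ}, 0 ≤ w' → w' ≤ (W : ℝ) → x ≤ g → 0 ≤ g →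
        w' * x ≤ (W : ℝ) * g := fun hw' hW hx hg =>
      le_trans (mul_le_mul_of_nonneg_left hx hw') (mul_le_mul_of_nonneg_right hW hg)
    have e1 := mono w1 wEnd_ge hA (le_max_left _ _)
    have e2 := mono w2 wMid_ge hM (le_max_left _ _)
    have e3 := mono w1 wEnd_ge hE (le_max_left _ _)
    have e4 : (de : ℝ) ^ 2 * (a2 / (r : ℝ) ^ 2) / (4 * ((r : ℝ) - 2 * de))
        = (de : ℝ) * de / ((r : ℝ) * r) / (4 * ((r : ℝ) - 2 * de)) * a2 := by ring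
    linarith
  refine le_trans hb ?_
  obtain ⟨ν, n0, n1, hν⟩ : ∃ ν : ℝ, 0 ≤ ν ∧ ν ≤ 1 ∧ a2 = ν * t := by
    rcases eq_or_lt_of_le ht0' with h | h
    · exact ⟨0, le_rfl, by norm_num, by nlinarith⟩
    · exact ⟨a2 / t, by positivity, by rw [div_le_one h]; exact ha, by field_simp⟩
  have step : gNode c de t1 r t a2
      ≤ lerp θ (gNode c de t1 r t0 (ν * t0)) (gNode c de t1 r T (ν * T)) := by
    refine le_trans (le_of_eq ?_)
      (gNode_lerp c de t1 r (x := (t0 : ℝ)) (x' := T) (y := ν * t0) (y' := ν * T) h0 h1)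
    have : lerp θ (ν * (t0 : ℝ)) (ν * T) = a2 := by rw [hν, htdef]; unfold lerp; ring
    rw [this, htdef]
  obtain ⟨c0, c1⟩ := nodeM_cast_ends c de t0 t1 r
  exact le_trans step (lerp_mono h0 h1 (le_trans (gNode_segment c de t1 r _ n0 n1) c0)
    (le_trans (gNode_segment c de t1 r _ n0 n1) c1))

end Vale.Agent.P226.Chk
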