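import Vale.Agent.P226.CheckPoint
import Vale.Agent.P226.CheckNodeM

/-! # P226: soundness of the `WitnessM` leaves -/

namespace Vale.Agent.P226.Chk

open Real MeasureTheory

variable {k n : ℕ}

lemma tgtM_le : 4 * (tgtM : ℝ) ≤ 3 * √3 / 2 := by
  have h : (173205080756 / 100000000000 : ℝ) ≤ √3 := Real.le_sqrt_of_sq_le (by norm_num)
  unfold tgtM; push_cast
  linarith

lemma fourM_sound (hF : PsiMFour) (c de v : ℚ) (hde : 0 ≤ de) (h2 : 2 * de ≤ c)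
    (h : (fourM c de v).2 = true) :
    PsiM (c : ℝ) (de : ℝ) 0 (√(v : ℝ)) 0 ≤ m3 * ((fourM c de v).1 : ℝ) := by
  unfold fourM at h ⊢
  simp only [decide_eq_true_eq] at h ⊢
  obtain ⟨hp, -⟩ := h
  set s : ℚ := sqHi v with hs
  set T : ℚ := min 1 (max 0 ((sqHi (s * s + 4 * de * c) - s) / (2 * de) + 1 / 10000)) with hT
  have T0 : (0 : ℚ) ≤ T := le_min zero_le_one (le_max_left _ _)
  have T1 : T ≤ 1 := min_le_left _ _
  have hp' : (0 : ℝ) ≤ (s : ℝ) * T - c + de * (T : ℝ) ^ 2 := by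
    have : (0 : ℚ) ≤ s * T - c + de * T ^ 2 := by rw [pow_two, ← mul_assoc]; exact hp
    exact_mod_cast this
  refine le_trans (PsiM_mono_a _ _ (sqrt_nonneg _) (sqrt_le_sqHi v)) ?_
  rw [← hs]
  refine le_trans (hF (c : ℝ) (de : ℝ) (s : ℝ) (T : ℝ) (by exact_mod_cast hde)
    (by exact_mod_cast h2) (sqHi_nonneg v) (by exact_mod_cast T0) (by exact_mod_cast T1) hp') ?_
  refine mul_le_mul_of_nonneg_left (le_trans (le_of_eq ?_) (le_rup _)) m3_nonneg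
  push_cast
  ring

/-- chord bound of a convex increasing function of `√v`, affine in `v`. -/
lemma chord_sqrt {f : ℝ → ℝ} (hf : ConvexOn ℝ Set.univ f) {A B a b v g : ℝ} (ha : 0 ≤ a)
    (hab : a < b) (hva : a ≤ v) (hvb : v ≤ b) (hA : f (√a) ≤ A) (hB : f (√b) ≤ B)
    (hg : √b - √a ≤ g) :
    f (√v) ≤ A + (B - A) / (b - a) * (v - a) + g * g * max 0 ((B - A) / (b - a)) / 4 := by
  set α := √a with hα
  set β := √b with hβ
  set σ := √v with hσ
  have a2 : a = α * α := (mul_self_sqrt ha).symm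
  have b2 : b = β * β := (mul_self_sqrt (ha.trans hab.le)).symm
  have v2 : v = σ * σ := (mul_self_sqrt (ha.trans hva)).symm
  have s1 : α ≤ σ := sqrt_le_sqrt hva
  have s2 : σ ≤ β := sqrt_le_sqrt hvb
  have s3 : α < β := Real.sqrt_lt_sqrt ha hab
  have hd : 0 < β - α := by linarith
  have hs : 0 < β + α := by linarith [sqrt_nonneg a]
  set u := (σ - α) / (β - α) with hu
  have u0 : 0 ≤ u := div_nonneg (by linarith) hd.le
  have u1 : u ≤ 1 := by rw [hu, div_le_one hd]; linarith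
  have hc := hf.2 (Set.mem_univ α) (Set.mem_univ β) (show 0 ≤ 1 - u by linarith) u0
    (show 1 - u + u = 1 by ring)
  simp only [smul_eq_mul] at hc
  rw [show (1 - u) * α + u * β = σ by rw [hu]; field_simp; ring] at hc
  have h1 : f σ ≤ (1 - u) * A + u * B :=
    le_trans hc (add_le_add (mul_le_mul_of_nonneg_left hA (by linarith))
      (mul_le_mul_of_nonneg_left hB u0))
  refine le_trans h1 ?_
  set sl := (B - A) / (b - a) with hsl
  have hBA : B = A + sl * (b - a) := by rw [hsl, div_mul_cancel₀ _ (by linarith)]; ring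
  have hex : u * (b - a) - (v - a) = (σ - α) * (β - σ) := by
    rw [hu, a2, b2, v2]; field_simp; ring
  have p0 : 0 ≤ (σ - α) * (β - σ) := mul_nonneg (by linarith) (by linarith)
  have p1 : (σ - α) * (β - σ) ≤ g * g / 4 := by
    nlinarith [sq_nonneg ((σ - α) - (β - σ)), mul_self_le_mul_self hd.le hg]
  have e : (1 - u) * A + u * B = A + sl * (v - a) + sl * ((σ - α) * (β - σ)) := by
    rw [hBA, ← hex]; ring
  rw [e]
  rcases le_total sl 0 with h | h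
  · rw [max_eq_left h]; nlinarith [mul_nonpos_of_nonpos_of_nonneg h p0]
  · rw [max_eq_right h]; nlinarith [mul_le_mul_of_nonneg_left p1 h]

lemma kapM_sound (hS : PsiMSmall) (c de b : ℚ) (hde : 0 ≤ de) (h2 : 2 * de ≤ c)
    (hcd : 0 < c - de) (h : (kapM c de b).2 = true) {σ : ℝ} (h0 : 0 ≤ σ) (hσ : σ ^ 2 ≤ (b : ℝ)) :
    PsiM (c : ℝ) (de : ℝ) 0 0 σ ≤ m3 * (((kapM c de b).1 : ℝ) * σ ^ 2) := by
  unfold kapM at h ⊢
  simp only [Bool.and_eq_true] at h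
  obtain ⟨⟨f0, f1⟩, f2⟩ := h
  obtain ⟨-, p0, e0⟩ := kap3_sound c b f0
  obtain ⟨-, p1, e1⟩ := kap3_sound (c - de / 2) b f1
  obtain ⟨-, p2, e2⟩ := kap3_sound (c - de) b f2
  have g0 := e0 σ hσ
  have g1 := e1 σ hσ
  have g2 := e2 σ hσ
  push_cast at g0 g1 g2
  refine le_trans (hS (c : ℝ) (de : ℝ) σ (by exact_mod_cast hde) (by exact_mod_cast h2)
    (by exact_mod_cast hcd) h0) (mul_le_mul_of_nonneg_left ?_ m3_nonneg)
  have l2 : √(2 : ℝ) ≤ 14142136 / 10000000 := by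
    rw [Real.sqrt_le_left (by norm_num)]; norm_num
  have u2 : (14142135 / 10000000 : ℝ) ≤ √2 := Real.le_sqrt_of_sq_le (by norm_num)
  have s2 : 0 ≤ σ ^ 2 := sq_nonneg σ
  have q0 := mul_le_mul_of_nonneg_left g0 (by linarith : (0 : ℝ) ≤ √2 / 3)
  have q1 := mul_le_mul_of_nonneg_left g1 (by linarith : (0 : ℝ) ≤ 4 / 3 - 2 * √2 / 3)
  have q2 := mul_le_mul_of_nonneg_left g2 (by linarith : (0 : ℝ) ≤ √2 / 3 - 1 / 3)
  have r0 := mul_le_mul_of_nonneg_right (by linarith : √2 / 3 ≤ (4714046 / 10000000 : ℝ))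
    (mul_nonneg p0 s2)
  have r1 := mul_le_mul_of_nonneg_right
    (by linarith : 4 / 3 - 2 * √2 / 3 ≤ (3905244 / 10000000 : ℝ)) (mul_nonneg p1 s2)
  have r2 := mul_le_mul_of_nonneg_right
    (by linarith : √2 / 3 - 1 / 3 ≤ (1380713 / 10000000 : ℝ)) (mul_nonneg p2 s2)
  push_cast
  linarith

/-- `WitnessM`, with the sum split. -/
lemma witnessM_split (W : WitnessM) {z : Fin (k + 4) → EuclideanSpace ℝ (Fin n)}
    (hz : Admissible z) {c δ : ℝ} (hd : 0 ≤ δ) (h2 : 2 * δ ≤ c) (hc : 0 < c) :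
    ∃ a : Fin (k + 4) → ℝ, (∀ i, a i ^ 2 ≤ min (sqn z i) (tailSq z 3 / 9)) ∧
    emax z ≤ (c - δ / 3) * m3
      + (bigTerm (fun r w => PsiM c δ r (a c0) (√(w ^ 2 - a c0 ^ 2))) (sqn z c0) (tailSq z 3 / 9)
        + bigTerm (fun r w => PsiM c δ r (a c1) (√(w ^ 2 - a c1 ^ 2))) (sqn z c1) (tailSq z 3 / 9)
        + bigTerm (fun r w => PsiM c δ r (a c2) (√(w ^ 2 - a c2 ^ 2))) (sqn z c2) (tailSq z 3 / 9))
      + PsiM c δ 0 ‖z c3‖ 0 + ∑ j : Fin k, PsiM c δ 0 0 ‖z (tl j)‖ := by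
  obtain ⟨a, ha, h⟩ := W k n z hz c δ hd h2 hc
  refine ⟨a, ha, ?_⟩
  rw [sum_split] at h
  simp only [c0, c1, c2, c3, tl, Nat.zero_lt_succ, if_true, Nat.one_lt_ofNat,
    show (2 : ℕ) < 3 by norm_num, Nat.lt_irrefl,
    show ∀ m : ℕ, ¬ m + 4 < 3 from fun m => by omega,
    show ∀ m : ℕ, ¬ m + 4 = 3 from fun m => by omega, if_false] at h
  refine le_trans h (le_of_eq ?_)
  simp only [sqn, c0, c1, c2, c3, tl]
  ring

lemma leafM_sound (hB : PsiMBig) (hF : PsiMFour) (hS : PsiMSmall) (W : WitnessM) (p : Par)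
    (bx : Box) {z : Fin (k + 4) → EuclideanSpace ℝ (Fin n)} (H : InBox z bx) (ha : 0 ≤ bx.a)
    (hs : 0 ≤ bx.s0) (h : leafM p bx = true) : emax z ≤ Tgt := by
  have F := H.facts
  unfold leafM at h
  simp only [Bool.and_eq_true, decide_eq_true_eq, corners] at h
  obtain ⟨⟨⟨⟨⟨⟨⟨⟨⟨hk, hc, hde, h2c, hcd, hab⟩, sB⟩, sT⟩, hkp⟩, hfa⟩, hfb⟩, covB⟩, covT⟩,
    ⟨⟨k1, k2⟩, k3⟩, k4⟩ := h
  set lo : ℚ := max bx.a bx.lo with hlodef
  set hi : ℚ := hiBig 3 bx with hhidef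
  set t0 : ℚ := (bx.a + bx.s0) / 9 with ht0def
  set t1 : ℚ := (bx.b + bx.s1) / 9 with ht1def
  set t : ℝ := tailSq z 3 / 9 with htdef
  set θ : ℝ := thR t0 t1 t with hθdef
  have hva := H.va
  have hvb := H.vb
  have hsa := H.sa
  have hsb := H.sb
  have hlo := H.lo
  have hhi := H.hi
  have htS := tailSq_three z
  have hb0 : (t0 : ℝ) ≤ t := by rw [ht0def, htdef, htS]; push_cast; linarith
  have hb1 : t ≤ (t1 : ℝ) := by rw [ht1def, htdef, htS]; push_cast; linarith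
  have ht01 : t0 ≤ t1 := by exact_mod_cast hb0.trans hb1
  obtain ⟨θ0, θ1, θe⟩ := thR_spec hb0 hb1
  have hc' : (0 : ℝ) < (p.c : ℝ) := by exact_mod_cast hc
  obtain ⟨a, hat, hw⟩ := witnessM_split W H.adm (c := (p.c : ℝ)) (δ := (p.de : ℝ))
    (by exact_mod_cast hde) (by exact_mod_cast h2c) hc'
  have cell : ∀ (hi' : ℚ) (ns : List ℚ), (supOn (nodeM p.c p.de t0 t1) p.k ns).2 = true →
      covers ns lo hi' t0 t1 = true → ∀ (v : ℝ) (x : ℝ), x ^ 2 ≤ min v t →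
      (lo : ℝ) ≤ v → v ≤ (hi' : ℝ) →
      bigTerm (fun r w => PsiM (p.c : ℝ) (p.de : ℝ) r x (√(w ^ 2 - x ^ 2))) v t ≤ m3 * (lerp θ
        ((clamp p.k lo t0 t1 (supOn (nodeM p.c p.de t0 t1) p.k ns).1).1 : ℝ)
        ((clamp p.k lo t0 t1 (supOn (nodeM p.c p.de t0 t1) p.k ns).1).2 : ℝ)
          + (p.k : ℝ) * (v - t)) := by
    intro hi' ns hsup hcov v x hx v1 v2
    have hm : 0 ≤ min v t := (sq_nonneg x).trans hx
    unfold bigTerm
    dsimp only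
    rw [sq_sqrt hm]
    refine le_trans (PsiM_mono _ _ _ _ (sqrt_nonneg _)
      (sqrt_le_sqrt (sub_le_sub_right (min_le_right v t) (x ^ 2)))) ?_
    refine cell_sound (nodeM p.c p.de t0 t1) p.k lo hi' t0 t1 ns
      (G := fun r => PsiM (p.c : ℝ) (p.de : ℝ) r x (√(t - x ^ 2)))
      (PsiM_convex _ _ _ _) m3_nonneg θ0 θ1 (fun y hy => ?_) hsup hcov hk θe.symm ht01 v1 v2
    have := nodeM_sound hB p.c p.de t0 t1 y hy ht01 θ0 θ1 (a := x)
      (by rw [θe]; exact hx.trans (min_le_right _ _))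
    rwa [θe] at this
  have lo2 : (lo : ℝ) ≤ sqn z c2 := by
    rw [hlodef]; push_cast
    exact max_le (by linarith [F.h32]) hlo
  have hi0 : sqn z c0 ≤ (hi : ℝ) := by
    rw [hhidef]; unfold hiBig; rw [← hlodef]; push_cast
    linarith [F.hsum, F.h21]
  have q0 := cell hi p.ns sB covB _ (a c0) (hat c0) (by linarith [F.h10, F.h21]) hi0
  have q1 := cell hi p.ns sB covB (sqn z c1) (a c1) (hat c1) (by linarith [F.h21])
    (by linarith [F.h10])
  have q2 := cell (min hi bx.hi) p.n3 sT covT _ (a c2) (hat c2) lo2 (by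
    push_cast; exact le_min (by linarith [F.h10, F.h21]) hhi)
  set fa := fourM p.c p.de bx.a
  set fb := fourM p.c p.de bx.b
  set sl : ℚ := if bx.a < bx.b then (fb.1 - fa.1) / (bx.b - bx.a) else 0 with hsl
  set gp : ℚ := (sqHi bx.b - sqLo bx.a) * (sqHi bx.b - sqLo bx.a) * max 0 sl / 4 with hgp
  have qf : PsiM (p.c : ℝ) (p.de : ℝ) 0 ‖z c3‖ 0
      ≤ m3 * ((fa.1 : ℝ) + (sl : ℝ) * (sqn z c3 - (bx.a : ℝ)) + (gp : ℝ)) := by
    have hab' : (bx.a : ℝ) < (bx.b : ℝ) := by exact_mod_cast hab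
    have ha' : (0 : ℝ) ≤ (bx.a : ℝ) := by exact_mod_cast ha
    have h4 := chord_sqrt (PsiM_convex_a (p.c : ℝ) (p.de : ℝ)) ha' hab' hva hvb
      (fourM_sound hF p.c p.de bx.a hde h2c hfa) (fourM_sound hF p.c p.de bx.b hde h2c hfb)
      (g := (sqHi bx.b : ℝ) - (sqLo bx.a : ℝ))
      (sub_le_sub (sqrt_le_sqHi _) (sqLo_le_sqrt _))
    have e : √(sqn z c3) = ‖z c3‖ := Real.sqrt_sq (norm_nonneg _)
    rw [e] at h4
    refine le_trans h4 (le_of_eq ?_)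
    rw [hgp, hsl, if_pos hab]
    have hm3 : ∀ x y : ℝ, m3 * x - m3 * y = m3 * (x - y) := fun x y => by ring
    rw [hm3, mul_div_assoc]
    push_cast
    rw [show max (0 : ℝ) (m3 * (((fb.1 : ℝ) - fa.1) / ((bx.b : ℝ) - bx.a)))
        = m3 * max 0 (((fb.1 : ℝ) - fa.1) / ((bx.b : ℝ) - bx.a)) by
      rw [mul_max_of_nonneg _ _ m3_nonneg, mul_zero]]
    ring
  have qt := tail_sum_le (z := z) (C := m3) (κ := ((kapM p.c p.de bx.b).1 : ℝ))
    (P := fun j => PsiM (p.c : ℝ) (p.de : ℝ) 0 0 ‖z (tl j)‖) fun j =>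
      kapM_sound hS p.c p.de bx.b hde h2c hcd hkp (norm_nonneg _) ((F.htl j).trans hvb)
  rw [← htdef] at hw
  rw [Tgt_eq]
  refine le_trans hw ?_
  set mB := clamp p.k lo t0 t1 (supOn (nodeM p.c p.de t0 t1) p.k p.ns).1
  set mT := clamp p.k lo t0 t1 (supOn (nodeM p.c p.de t0 t1) p.k p.n3).1
  set κ := (kapM p.c p.de bx.b).1
  let E : ℝ → ℝ → ℝ := fun v s => (p.c : ℝ) - (p.de : ℝ) / 3 + (κ : ℝ) * s + (fa.1 : ℝ)
    + (sl : ℝ) * (v - (bx.a : ℝ)) + (gp : ℝ)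
    + 2 * lerp (thR t0 t1 ((v + s) / 9)) (mB.1 : ℝ) (mB.2 : ℝ)
    + lerp (thR t0 t1 ((v + s) / 9)) (mT.1 : ℝ) (mT.2 : ℝ)
    + (p.k : ℝ) * (3 - v - s - 3 * ((v + s) / 9))
  have hEaff : ∀ u v, E u v = E 0 0 + (E 1 0 - E 0 0) * u + (E 0 1 - E 0 0) * v := fun u v => by
    simp only [E, lerp, thR]; ring
  have corner : ∀ v s : ℚ, (p.c - p.de / 3 + κ * s + fa.1 + sl * (v - bx.a) + gp
      + 2 * mixv (theta t0 t1 ((v + s) / 9)) mB + mixv (theta t0 t1 ((v + s) / 9)) mT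
      + p.k * (3 - v - s - 3 * ((v + s) / 9)) ≤ tgtM) → E (v : ℝ) (s : ℝ) ≤ (tgtM : ℝ) := by
    intro v s hvs
    have h2 := (Rat.cast_le (K := ℝ)).2 hvs
    push_cast [mixv_cast, theta_cast] at h2
    exact h2
  have key : E (sqn z c3) (tailSq z 4) ≤ (tgtM : ℝ) :=
    affine_le E hEaff hva hvb hsa hsb (corner _ _ k1) (corner _ _ k2) (corner _ _ k3) (corner _ _ k4)
  have hm := mul_le_mul_of_nonneg_left key m3_nonneg
  have ht := mul_le_mul_of_nonneg_left tgtM_le t2_nonneg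
  refine le_trans ?_ (le_trans hm (le_trans (le_of_eq (by rw [m3_eq]; ring)) ht))
  refine le_trans (add_le_add (add_le_add (add_le_add_right (add_le_add (add_le_add q0 q1) q2) _)
    qf) qt) (le_of_eq ?_)
  have hsum : sqn z c0 + sqn z c1 + sqn z c2 = 3 - tailSq z 4 - sqn z c3 := by linarith [F.hsum]
  simp only [E]
  rw [show (sqn z c3 + tailSq z 4) / 9 = t by rw [htdef, htS], ← hθdef]
  linear_combination (m3 * (p.k : ℝ)) * hsum

end Vale.Agent.P226.Chk
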