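import Vale.Agent.P226.CheckBasic

/-! # P226: soundness of the node values -/

namespace Vale.Agent.P226.Chk

open Real

lemma lerp_le_right {θ a b : ℝ} (h1 : θ ≤ 1) (hab : a ≤ b) : lerp θ a b ≤ b := by
  unfold lerp; nlinarith

lemma lerp_nonneg {θ a b : ℝ} (h0 : 0 ≤ θ) (h1 : θ ≤ 1) (ha : 0 ≤ a) (hb : 0 ≤ b) :
    0 ≤ lerp θ a b := by
  unfold lerp
  have : 0 ≤ 1 - θ := by linarith
  positivity

lemma lerp_self (θ a : ℝ) : lerp θ a a = a := by unfold lerp; ring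

lemma m3_nonneg : 0 ≤ m3 := sqrt_nonneg _

lemma t2_nonneg : 0 ≤ t2 := by unfold t2; positivity

lemma node3_sound (hE : Psi3Eq) (hZ : Psi3Zero) (c t0 t1 r : ℚ) (hc : 0 < c)
    (h : (node3 c t0 t1 r).2 = true) (ht0 : 0 ≤ t0) (ht : t0 ≤ t1)
    {θ : ℝ} (h0 : 0 ≤ θ) (h1 : θ ≤ 1) :
    Psi3 (c : ℝ) (r : ℝ) (√(lerp θ t0 t1))
      ≤ m3 * lerp θ ((node3 c t0 t1 r).1.1 : ℝ) ((node3 c t0 t1 r).1.2 : ℝ) := by
  have hc' : (0 : ℝ) < (c : ℝ) := by exact_mod_cast hc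
  have q0 : (0 : ℝ) ≤ (t0 : ℝ) := by exact_mod_cast ht0
  have q1 : (t0 : ℝ) ≤ (t1 : ℝ) := by exact_mod_cast ht
  have hl : 0 ≤ lerp θ (t0 : ℝ) (t1 : ℝ) := lerp_nonneg h0 h1 q0 (q0.trans q1)
  unfold node3 at h ⊢
  by_cases hr : r = 0
  · simp only [hr, if_true] at h ⊢
    obtain ⟨-, -, hk⟩ := kap3_sound c t1 h
    push_cast
    rw [hZ _ _ hc' (sqrt_nonneg _)]
    refine mul_le_mul_of_nonneg_left ?_ m3_nonneg
    have hsq : √(lerp θ (t0 : ℝ) (t1 : ℝ)) ^ 2 ≤ (t1 : ℝ) := by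
      rw [sq_sqrt hl]; exact lerp_le_right h1 q1
    refine le_trans (hk _ hsq) ?_
    rw [sq_sqrt hl]
    refine le_trans (le_of_eq ?_)
      (lerp_mono h0 h1 (le_rup ((kap3 c t1).1 * t0)) (le_rup ((kap3 c t1).1 * t1)))
    unfold lerp; push_cast; ring
  · simp only [hr, if_false, decide_eq_true_eq] at h ⊢
    have hr' : (0 : ℝ) < (r : ℝ) := by exact_mod_cast h
    rw [hE _ _ _ hc' hr' (sqrt_nonneg _)]
    refine mul_le_mul_of_nonneg_left ?_ m3_nonneg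
    have hm := qqUp_sound (r - c) t0 t1 h0 h1 ht0 (ht0.trans ht)
    have hp := qqUp_sound (r + c) t0 t1 h0 h1 ht0 (ht0.trans ht)
    push_cast at hm hp
    have e : ∀ a : ℝ, qq (√(lerp θ (t0 : ℝ) (t1 : ℝ))) a = a * √(a ^ 2 + lerp θ t0 t1) := fun a => by
      unfold qq; rw [sq_sqrt hl]
    rw [e, e]
    refine le_trans ?_ (lerp_mono h0 h1
      (le_rup (-c / 2 + ((qqUp (r - c) t0 t1).1 + (qqUp (r + c) t0 t1).1) / (8 * r)))
      (le_rup (-c / 2 + ((qqUp (r - c) t0 t1).2 + (qqUp (r + c) t0 t1).2) / (8 * r))))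
    have h8 : (0 : ℝ) < 8 * (r : ℝ) := by linarith
    refine le_trans (add_le_add_right ((div_le_div_iff_of_pos_right h8).2 (add_le_add hm hp)) _)
      (le_of_eq ?_)
    unfold lerp; push_cast; field_simp; ring

lemma kap2_sound (c b : ℚ) (h : (kap2 c b).2 = true) :
    (0 : ℝ) < (c : ℝ) ∧ ∀ σ : ℝ, 0 ≤ σ → σ ^ 2 ≤ (b : ℝ) →
      σ - (c : ℝ) * arctan (σ / c) ≤ ((kap2 c b).1 : ℝ) * σ ^ 2 := by
  unfold kap2 at h ⊢
  by_cases hb : b = 0
  · simp only [hb, if_true, decide_eq_true_eq] at h ⊢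
    refine ⟨by exact_mod_cast h, fun σ _ hσ => ?_⟩
    push_cast at hσ ⊢
    have : σ = 0 := by nlinarith [sq_nonneg σ, pow_eq_zero_iff (n := 2) (a := σ) (by norm_num)]
    subst this; simp
  · simp only [hb, if_false, decide_eq_true_eq] at h ⊢
    obtain ⟨hc, hb0, hx, hk, hd⟩ := h
    set x : ℚ := rup (sqHi b / c) with hxdef
    set k : ℚ := rup ((x - atanLo2 x (sqHi (1 + x * x))) / (x * x)) with hkdef
    have hc' : (0 : ℝ) < (c : ℝ) := by exact_mod_cast hc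
    have hx' : (0 : ℝ) < (x : ℝ) := by exact_mod_cast hx
    refine ⟨hc', fun σ hσ0 hσ => ?_⟩
    have hX : √(b : ℝ) / (c : ℝ) ≤ (x : ℝ) := by
      refine le_trans ?_ (le_rup (sqHi b / c))
      push_cast
      exact (div_le_div_iff_of_pos_right hc').2 (sqrt_le_sqHi b)
    have hy : σ / (c : ℝ) ≤ (x : ℝ) := by
      refine le_trans ?_ hX
      exact (div_le_div_iff_of_pos_right hc').2 (Real.le_sqrt_of_sq_le hσ)
    have hat : (atanLo2 x (sqHi (1 + x * x)) : ℝ) ≤ arctan (x : ℝ) := by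
      refine atanLo2_le hx.le ?_
      have := sqrt_le_sqHi (1 + x * x); push_cast at this; rw [pow_two]; exact this
    have hq : ((x : ℝ) - (atanLo2 x (sqHi (1 + x * x)) : ℝ)) / ((x : ℝ) * (x : ℝ)) ≤ (k : ℝ) := by
      have := le_rup ((x - atanLo2 x (sqHi (1 + x * x))) / (x * x)); push_cast at this; exact this
    rw [div_le_iff₀ (by positivity)] at hq
    have hd' : 2 * (k : ℝ) * (1 + (x : ℝ) ^ 2) ≤ (x : ℝ) := by
      rw [pow_two]; exact_mod_cast hd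
    have hk' : (0 : ℝ) ≤ (k : ℝ) := by exact_mod_cast hk
    have key := sub_arctan_le hk' (div_nonneg hσ0 hc'.le) hy hd' (by nlinarith)
    push_cast
    have e1 : σ - (c : ℝ) * arctan (σ / c) = (c : ℝ) * (σ / c - arctan (σ / c)) := by field_simp
    rw [e1]
    refine le_trans (mul_le_mul_of_nonneg_left key hc'.le) (le_of_eq ?_)
    field_simp

lemma node2_sound (hE : Psi2Le) (hZ : Psi2Zero) (hJ : Psi2Junction) (c t0 t1 r : ℚ) (hc : 0 < c)
    (h : (node2 c t0 t1 r).2 = true) (ht0 : 0 ≤ t0) (ht : t0 ≤ t1)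
    {θ : ℝ} (h0 : 0 ≤ θ) (h1 : θ ≤ 1) :
    Psi2 (c : ℝ) (r : ℝ) (√(lerp θ t0 t1))
      ≤ t2 * lerp θ ((node2 c t0 t1 r).1.1 : ℝ) ((node2 c t0 t1 r).1.2 : ℝ) := by
  have hc' : (0 : ℝ) < (c : ℝ) := by exact_mod_cast hc
  have q0 : (0 : ℝ) ≤ (t0 : ℝ) := by exact_mod_cast ht0
  have q1 : (t0 : ℝ) ≤ (t1 : ℝ) := by exact_mod_cast ht
  set t := lerp θ (t0 : ℝ) (t1 : ℝ) with htdef
  have hl : 0 ≤ t := lerp_nonneg h0 h1 q0 (q0.trans q1)
  have hlt : t ≤ (t1 : ℝ) := lerp_le_right h1 q1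
  unfold node2 at h ⊢
  by_cases hr : r = 0
  · simp only [hr, if_true] at h ⊢
    obtain ⟨-, hk⟩ := kap2_sound c t1 h
    push_cast
    rw [hZ _ _ hc' (sqrt_nonneg _)]
    refine mul_le_mul_of_nonneg_left ?_ t2_nonneg
    have hsq : √t ^ 2 ≤ (t1 : ℝ) := by rw [sq_sqrt hl]; exact hlt
    refine le_trans (hk _ (sqrt_nonneg _) hsq) ?_
    rw [sq_sqrt hl]
    refine le_trans (le_of_eq ?_)
      (lerp_mono h0 h1 (le_rup ((kap2 c t1).1 * t0)) (le_rup ((kap2 c t1).1 * t1)))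
    rw [htdef]; unfold lerp; push_cast; ring
  by_cases hrc : r = c
  · simp only [hrc, hr, if_false, if_true, decide_eq_true_eq, hc.ne'] at h ⊢
    obtain ⟨-, h4⟩ := h
    have h4' : (t1 : ℝ) ≤ 4 * (c : ℝ) * (c : ℝ) := by exact_mod_cast h4
    have hw : √t ≤ 2 * (c : ℝ) := by
      rw [Real.sqrt_le_left (by linarith)]; nlinarith
    refine le_trans (hJ _ _ hc' (sqrt_nonneg _) hw) ?_
    refine mul_le_mul_of_nonneg_left ?_ t2_nonneg
    set g : ℚ := sqPos (sqPos ((t0 + t1) / 2)) with hg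
    have hg0 : (0 : ℝ) < (g : ℝ) := sqPos_pos _
    set H : ℚ := sqHi (1 / (2 * c)) with hH
    have hH0 : 1 / √(2 * (c : ℝ)) ≤ (H : ℝ) := by
      have := sqrt_le_sqHi (1 / (2 * c)); push_cast at this
      rw [Real.sqrt_div (by norm_num), sqrt_one] at this; exact this
    -- `t^{3/4} ≤ (3 t / g + g³) / 4`
    set u := √(√t) with hu
    have hu2 : u * u = √t := mul_self_sqrt (sqrt_nonneg _)
    have hu4 : u * u * (u * u) = t := by rw [hu2]; exact mul_self_sqrt hl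
    have hu0 : 0 ≤ u := sqrt_nonneg _
    have hq : √t * u ≤ (3 * t / (g : ℝ) + (g : ℝ) * g * g) / 4 := by
      rw [← hu2, ← hu4]
      rw [le_div_iff₀ (by norm_num : (0 : ℝ) < 4), div_add' _ _ _ hg0.ne', le_div_iff₀ hg0]
      nlinarith [mul_nonneg (sq_nonneg (u - (g : ℝ)))
        (by positivity : (0 : ℝ) ≤ 3 * u * u + 2 * u * g + g * g)]
    have step : 2 / 3 * √t * √(√t) / √(2 * (c : ℝ))
        ≤ 2 / 3 * (H : ℝ) * ((3 * t / (g : ℝ) + (g : ℝ) * g * g) / 4) := by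
      rw [div_eq_mul_one_div, mul_assoc (2 / 3 : ℝ) _ u]
      calc 2 / 3 * (√t * u) * (1 / √(2 * (c : ℝ))) = 2 / 3 * (1 / √(2 * (c : ℝ))) * (√t * u) := by
            ring
        _ ≤ 2 / 3 * (H : ℝ) * ((3 * t / (g : ℝ) + (g : ℝ) * g * g) / 4) :=
          mul_le_mul (mul_le_mul_of_nonneg_left hH0 (by norm_num)) hq (by positivity)
            (mul_nonneg (by norm_num) (sqHi_nonneg _))
    refine le_trans step ?_
    refine le_trans (le_of_eq ?_) (lerp_mono h0 h1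
      (le_rup (2 / 3 * H * ((3 * t0 / g + g * g * g) / 4)))
      (le_rup (2 / 3 * H * ((3 * t1 / g + g * g * g) / 4))))
    rw [htdef]; unfold lerp; push_cast; field_simp; ring
  · simp only [hr, hrc, if_false, decide_eq_true_eq] at h ⊢
    obtain ⟨-, hcr⟩ := h
    have hcr' : (c : ℝ) < (r : ℝ) := by exact_mod_cast hcr
    refine le_trans (hE _ _ _ hc' hcr'.le (sqrt_nonneg _)) ?_
    refine mul_le_mul_of_nonneg_left ?_ t2_nonneg
    rw [sq_sqrt hl]
    set q : ℚ := r * r - c * c with hqdef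
    have hqR : ((q : ℚ) : ℝ) = (r : ℝ) ^ 2 - (c : ℝ) ^ 2 := by rw [hqdef]; push_cast; ring
    have hqpos : (0 : ℝ) ≤ (q : ℝ) := by rw [hqR]; nlinarith
    rw [← hqR]
    set x : ℚ := sqLo q / c with hxdef
    have hx0 : (0 : ℝ) ≤ (x : ℝ) := by
      rw [hxdef]; push_cast; exact div_nonneg (sqLo_nonneg q) hc'.le
    have hac : arccos ((c : ℝ) / r) = arctan (√(q : ℝ) / c) := by
      rw [arccos_eq_arctan (div_pos hc' (hc'.trans hcr'))]
      congr 1
      have hr0 : (0 : ℝ) < (r : ℝ) := hc'.trans hcr'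
      have : (1 : ℝ) - ((c : ℝ) / r) ^ 2 = (q : ℝ) / (r : ℝ) ^ 2 := by
        rw [hqR]; field_simp
      rw [this, Real.sqrt_div hqpos, Real.sqrt_sq hr0.le]
      field_simp
    have hA : (atanLo2 x (r / c) : ℝ) ≤ arccos ((c : ℝ) / r) := by
      rw [hac]
      refine le_trans (atanLo2_le (by exact_mod_cast hx0) ?_) (arctan_mono ?_)
      · push_cast
        rw [Real.sqrt_le_left (div_nonneg (by linarith) hc'.le), div_pow, le_div_iff₀ (by positivity)]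
        have hs := mul_self_le_mul_self (sqLo_nonneg q) (sqLo_le_sqrt q)
        rw [mul_self_sqrt hqpos] at hs
        have : (x : ℝ) * (c : ℝ) = (sqLo q : ℝ) := by
          rw [hxdef]; push_cast; field_simp
        have e2 : (x : ℝ) ^ 2 * (c : ℝ) ^ 2 = (sqLo q : ℝ) * (sqLo q : ℝ) := by
          rw [← this]; ring
        nlinarith [e2, hqR]
      · rw [hxdef]; push_cast
        exact (div_le_div_iff_of_pos_right hc').2 (sqLo_le_sqrt q)
    set u : ℚ := sqPos (q + (t0 + t1) / 2) with hudef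
    have hu : (0 : ℝ) < (u : ℝ) := sqPos_pos _
    have hs := sqrt_le_tangent (x := (q : ℝ) + t) (by positivity) hu
    refine le_trans ?_ (lerp_mono h0 h1
      (le_rup ((q + t0 + u * u) / (2 * u) - c * atanLo2 x (r / c)))
      (le_rup ((q + t1 + u * u) / (2 * u) - c * atanLo2 x (r / c))))
    refine le_trans (sub_le_sub hs (mul_le_mul_of_nonneg_left hA hc'.le)) (le_of_eq ?_)
    rw [htdef]; unfold lerp; push_cast; field_simp; ring

lemma wEnd_ge : 1 / π ≤ (wEnd : ℝ) := by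
  unfold wEnd; push_cast
  rw [div_le_iff₀ pi_pos]
  linarith [pi_gt_d6]

lemma wMid_ge : 1 - 2 / π ≤ (wMid : ℝ) := by
  unfold wMid; push_cast
  have h : (318309 / 1000000 : ℝ) ≤ 1 / π := by
    rw [le_div_iff₀ pi_pos]
    linarith [pi_lt_d6]
  have : 2 / π = 2 * (1 / π) := by ring
  linarith

end Vale.Agent.P226.Chk
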