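import Vale.Agent.P226.CheckNodes

/-! # P226: convexity of `piece` in slope and offset -/

namespace Vale.Agent.P226.Chk

open Real Set MeasureTheory intervalIntegral

/-- radial-slice kernel in units of `m3`. -/
noncomputable def kK (w A : ℝ) : ℝ := A / 2 + (2 * A ^ 2 + w ^ 2) / (4 * √(A ^ 2 + w ^ 2))

/-- derivative of the kernel. -/
noncomputable def kK' (w A : ℝ) : ℝ :=
  1 / 2 + A * (2 * A ^ 2 + 3 * w ^ 2) / (4 * ((A ^ 2 + w ^ 2) * √(A ^ 2 + w ^ 2)))

variable {w : ℝ}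

lemma hasDerivAt_sqrt_sq_add (hw : 0 < w) (A : ℝ) :
    HasDerivAt (fun A : ℝ => √(A ^ 2 + w ^ 2)) (A / √(A ^ 2 + w ^ 2)) A := by
  have h := ((hasDerivAt_pow 2 A).add_const (w ^ 2)).sqrt (by positivity)
  refine h.congr_deriv ?_
  have : 0 < √(A ^ 2 + w ^ 2) := by positivity
  field_simp
  simp

lemma hasDerivAt_gK (hw : 0 < w) (A : ℝ) : HasDerivAt (gK w) (kK w A) A := by
  have h := (((hasDerivAt_pow 2 A).add ((hasDerivAt_id A).mul (hasDerivAt_sqrt_sq_add hw A))).div_const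
    (4 : ℝ))
  have e : gK w = fun A : ℝ => (A ^ 2 + A * √(A ^ 2 + w ^ 2)) / 4 := by funext z; rfl
  rw [e]
  refine h.congr_deriv ?_
  have h0 : 0 < √(A ^ 2 + w ^ 2) := by positivity
  have hs : √(A ^ 2 + w ^ 2) * √(A ^ 2 + w ^ 2) = A ^ 2 + w ^ 2 := mul_self_sqrt (by positivity)
  unfold kK
  simp only [id_eq]
  field_simp
  ring_nf
  nlinarith [hs]

lemma hasDerivAt_kK (hw : 0 < w) (A : ℝ) : HasDerivAt (kK w) (kK' w A) A := by
  have h0 : 0 < √(A ^ 2 + w ^ 2) := by positivity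
  have hn : HasDerivAt (fun A : ℝ => 2 * A ^ 2 + w ^ 2) (4 * A) A := by
    refine (((hasDerivAt_pow 2 A).const_mul 2).add_const (w ^ 2)).congr_deriv ?_
    simp; ring
  have h := ((hasDerivAt_id A).div_const 2).add
    (hn.div ((hasDerivAt_sqrt_sq_add hw A).const_mul (4 : ℝ)) (by positivity))
  have e : kK w = fun A : ℝ => A / 2 + (2 * A ^ 2 + w ^ 2) / (4 * √(A ^ 2 + w ^ 2)) := by
    funext z; rfl
  rw [e]
  refine h.congr_deriv ?_
  have hs : √(A ^ 2 + w ^ 2) * √(A ^ 2 + w ^ 2) = A ^ 2 + w ^ 2 := mul_self_sqrt (by positivity)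
  unfold kK'
  have hp : 0 < A ^ 2 + w ^ 2 := by positivity
  have hs2 : √(A ^ 2 + w ^ 2) ^ 2 = A ^ 2 + w ^ 2 := by rw [pow_two]; exact hs
  have hs3 : √(A ^ 2 + w ^ 2) ^ 3 = (A ^ 2 + w ^ 2) * √(A ^ 2 + w ^ 2) := by rw [pow_succ, hs2]
  field_simp
  simp only [hs2, hs3]
  ring_nf

lemma kK'_monotone (hw : 0 < w) : Monotone (kK' w) := by
  have hd : ∀ A, HasDerivAt (kK' w)
      (3 * w ^ 4 / (4 * ((A ^ 2 + w ^ 2) ^ 2 * √(A ^ 2 + w ^ 2)))) A := fun A => by
    have h0 : 0 < √(A ^ 2 + w ^ 2) := by positivity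
    have hp : 0 < A ^ 2 + w ^ 2 := by positivity
    have hnum : HasDerivAt (fun A : ℝ => A * (2 * A ^ 2 + 3 * w ^ 2)) (6 * A ^ 2 + 3 * w ^ 2) A := by
      refine ((hasDerivAt_id A).mul (((hasDerivAt_pow 2 A).const_mul 2).add_const
        (3 * w ^ 2))).congr_deriv ?_
      simp; ring
    have hden : HasDerivAt (fun A : ℝ => 4 * ((A ^ 2 + w ^ 2) * √(A ^ 2 + w ^ 2)))
        (4 * (2 * A * √(A ^ 2 + w ^ 2) + (A ^ 2 + w ^ 2) * (A / √(A ^ 2 + w ^ 2)))) A := by
      refine ((((hasDerivAt_pow 2 A).add_const (w ^ 2)).mul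
        (hasDerivAt_sqrt_sq_add hw A)).const_mul (4 : ℝ)).congr_deriv ?_
      simp
    have h := (hnum.div hden (by positivity)).const_add (1 / 2 : ℝ)
    have e : kK' w = fun A : ℝ =>
        1 / 2 + A * (2 * A ^ 2 + 3 * w ^ 2) / (4 * ((A ^ 2 + w ^ 2) * √(A ^ 2 + w ^ 2))) := by
      funext z; rfl
    rw [e]
    refine h.congr_deriv ?_
    have hs2 : √(A ^ 2 + w ^ 2) ^ 2 = A ^ 2 + w ^ 2 := sq_sqrt hp.le
    field_simp
    rw [hs2]
    ring
  exact monotone_of_hasDerivAt_nonneg hd (fun A => by positivity)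

lemma kK_convex (hw : 0 < w) : ConvexOn ℝ Set.univ (kK w) := by
  have hdiff : Differentiable ℝ (kK w) := fun x => (hasDerivAt_kK hw x).differentiableAt
  refine Monotone.convexOn_univ_of_deriv hdiff ?_
  have : deriv (kK w) = kK' w := funext fun x => (hasDerivAt_kK hw x).deriv
  rw [this]; exact kK'_monotone hw

lemma continuous_kK (hw : 0 < w) : Continuous (kK w) :=
  continuous_iff_continuousAt.2 fun x => (hasDerivAt_kK hw x).continuousAt

lemma piece_eq_integral (hw : 0 < w) {r : ℝ} (hr : r ≠ 0) (c l h : ℝ) :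
    piece w r c l h = (∫ x in l..h, kK w (r * x - c)) / 2 := by
  have hd : ∀ x ∈ Set.uIcc l h,
      HasDerivAt (fun x => gK w (r * x - c) / r) (kK w (r * x - c)) x := fun x _ => by
    have h1 := ((hasDerivAt_gK hw (r * x - c)).comp x
      (((hasDerivAt_id x).const_mul r).sub_const c)).div_const r
    refine h1.congr_deriv ?_
    simp [hr]
  rw [integral_eq_sub_of_hasDerivAt hd
    (((continuous_kK hw).comp (by fun_prop)).intervalIntegrable _ _)]
  unfold piece
  field_simp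

lemma piece_convex_pos (hw : 0 < w) {r0 r1 c0 c1 l h s : ℝ} (hlh : l ≤ h) (hr0 : 0 < r0)
    (hr1 : 0 < r1) (h0 : 0 ≤ s) (h1 : s ≤ 1) :
    piece w (lerp s r0 r1) (lerp s c0 c1) l h
      ≤ lerp s (piece w r0 c0 l h) (piece w r1 c1 l h) := by
  have hr : 0 < lerp s r0 r1 := by
    unfold lerp
    rcases eq_or_lt_of_le h0 with rfl | hs
    · simpa using hr0
    · have : 0 ≤ (1 - s) * r0 := mul_nonneg (by linarith) hr0.le
      nlinarith [mul_pos hs hr1]
  rw [piece_eq_integral hw hr.ne', piece_eq_integral hw hr0.ne', piece_eq_integral hw hr1.ne']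
  have hint : ∀ r c : ℝ, IntervalIntegrable (fun x => kK w (r * x - c)) volume l h :=
    fun r c => ((continuous_kK hw).comp (by fun_prop)).intervalIntegrable _ _
  have key : ∫ x in l..h, kK w (lerp s r0 r1 * x - lerp s c0 c1)
      ≤ ∫ x in l..h, ((1 - s) * kK w (r0 * x - c0) + s * kK w (r1 * x - c1)) := by
    refine integral_mono_on hlh (hint _ _) (((hint r0 c0).const_mul _).add ((hint r1 c1).const_mul _))
      fun x _ => ?_
    have := (kK_convex hw).2 (mem_univ (r0 * x - c0)) (mem_univ (r1 * x - c1))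
      (by linarith : (0 : ℝ) ≤ 1 - s) h0 (by ring)
    simp only [smul_eq_mul] at this
    refine le_trans (le_of_eq ?_) this
    congr 1
    unfold lerp; ring
  rw [intervalIntegral.integral_add ((hint r0 c0).const_mul _) ((hint r1 c1).const_mul _),
    intervalIntegral.integral_const_mul, intervalIntegral.integral_const_mul] at key
  unfold lerp at key ⊢
  linarith

lemma piece_convex (w : ℝ) (hw : 0 ≤ w) {r0 r1 c0 c1 l h s : ℝ} (hlh : l ≤ h) (hr0 : 0 < r0)
    (hr1 : 0 < r1) (h0 : 0 ≤ s) (h1 : s ≤ 1) :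
    piece w (lerp s r0 r1) (lerp s c0 c1) l h
      ≤ lerp s (piece w r0 c0 l h) (piece w r1 c1 l h) := by
  rcases eq_or_lt_of_le hw with rfl | hw'
  · have hc : ∀ r c : ℝ, Continuous fun w => piece w r c l h := fun r c => by
      unfold piece gK qq; fun_prop
    have e : ∀ r c : ℝ, Filter.Tendsto (fun w => piece w r c l h) (nhdsWithin 0 (Ioi 0))
        (nhds (piece 0 r c l h)) := fun r c => (hc r c).continuousAt.mono_left nhdsWithin_le_nhds
    refine le_of_tendsto_of_tendsto (e _ _)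
      (((e r0 c0).const_mul (1 - s)).add ((e r1 c1).const_mul s)) ?_
    exact eventually_nhdsWithin_of_forall fun w hw => piece_convex_pos hw hlh hr0 hr1 h0 h1
  · exact piece_convex_pos hw' hlh hr0 hr1 h0 h1

end Vale.Agent.P226.Chk
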