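import Vale.Agent.P226.CheckSup

/-! # P226: a configuration inside a box of the certificate -/

namespace Vale.Agent.P226.Chk

open Real

/-- the target `3√3 / (2√(2π))`. -/
noncomputable def Tgt : ℝ := 3 * √3 / (2 * √(2 * π))

lemma Tgt_eq : Tgt = t2 * (3 * √3 / 2) := by
  unfold Tgt t2; ring

lemma m3_eq : m3 = 4 * t2 := by
  unfold m3 t2
  have h : (8 : ℝ) / π = 16 / (2 * π) := by field_simp; ring
  rw [h, Real.sqrt_div (by norm_num)]
  have : √(16 : ℝ) = 4 := by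
    rw [show (16 : ℝ) = 4 ^ 2 by norm_num, Real.sqrt_sq (by norm_num)]
  rw [this]; ring

lemma m2_eq : m2 = π * t2 := by
  unfold m2 t2
  have h : π / 2 = π ^ 2 / (2 * π) := by field_simp
  rw [h, Real.sqrt_div (by positivity), Real.sqrt_sq pi_pos.le]; ring

variable {k n : ℕ}

/-- squared norm of a cell. -/
noncomputable def sqn (z : Fin (k + 4) → EuclideanSpace ℝ (Fin n)) (i : Fin (k + 4)) : ℝ := ‖z i‖ ^ 2

/-- the first four indices. -/
def c0 : Fin (k + 4) := ⟨0, by omega⟩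
/-- second index. -/
def c1 : Fin (k + 4) := ⟨1, by omega⟩
/-- third index. -/
def c2 : Fin (k + 4) := ⟨2, by omega⟩
/-- fourth index. -/
def c3 : Fin (k + 4) := ⟨3, by omega⟩
/-- tail indices. -/
def tl (j : Fin k) : Fin (k + 4) := ⟨j + 4, by omega⟩

lemma sum_split (F : Fin (k + 4) → ℝ) :
    ∑ i, F i = F c0 + F c1 + F c2 + F c3 + ∑ j : Fin k, F (tl j) := by
  rw [Fin.sum_univ_succ, Fin.sum_univ_succ, Fin.sum_univ_succ, Fin.sum_univ_succ]
  simp only [← add_assoc]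
  rfl

lemma tailSq_four (z : Fin (k + 4) → EuclideanSpace ℝ (Fin n)) :
    tailSq z 4 = ∑ j : Fin k, sqn z (tl j) := by
  unfold tailSq
  rw [sum_split]
  simp [c0, c1, c2, c3, tl, sqn]

lemma tailSq_three (z : Fin (k + 4) → EuclideanSpace ℝ (Fin n)) :
    tailSq z 3 = sqn z c3 + tailSq z 4 := by
  rw [tailSq_four]
  unfold tailSq
  rw [sum_split]
  simp [c0, c1, c2, c3, tl, sqn]

/-- a configuration in a box of the certificate. -/
structure InBox (z : Fin (k + 4) → EuclideanSpace ℝ (Fin n)) (bx : Box) : Prop where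
  adm : Admissible z
  sum3 : ∑ i, ‖z i‖ ^ 2 = 3
  va : (bx.a : ℝ) ≤ sqn z c3
  vb : sqn z c3 ≤ (bx.b : ℝ)
  sa : (bx.s0 : ℝ) ≤ tailSq z 4
  sb : tailSq z 4 ≤ (bx.s1 : ℝ)
  lo : (bx.lo : ℝ) ≤ sqn z c2
  hi : sqn z c2 ≤ (bx.hi : ℝ)

/-- the real facts used in the leaves. -/
structure Facts (z : Fin (k + 4) → EuclideanSpace ℝ (Fin n)) : Prop where
  h10 : sqn z c1 ≤ sqn z c0
  h21 : sqn z c2 ≤ sqn z c1
  h32 : sqn z c3 ≤ sqn z c2
  h3 : 0 ≤ sqn z c3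
  htl : ∀ j, sqn z (tl j) ≤ sqn z c3
  hS : 0 ≤ tailSq z 4
  hsum : sqn z c0 + sqn z c1 + sqn z c2 + sqn z c3 + tailSq z 4 = 3

lemma InBox.facts {z : Fin (k + 4) → EuclideanSpace ℝ (Fin n)} {bx : Box} (H : InBox z bx) :
    Facts z := by
  have hs : ∀ i j : Fin (k + 4), (i : ℕ) ≤ j → sqn z j ≤ sqn z i := fun i j h =>
    pow_le_pow_left₀ (norm_nonneg _) (H.adm.sorted i j h) 2
  refine ⟨hs _ _ (by simp [c0, c1]), hs _ _ (by simp [c1, c2]), hs _ _ (by simp [c2, c3]),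
    sq_nonneg _, fun j => hs _ _ (by simp [c3, tl]), ?_, ?_⟩
  · rw [tailSq_four]; exact Finset.sum_nonneg fun j _ => sq_nonneg _
  · rw [tailSq_four, ← H.sum3, sum_split (fun i => ‖z i‖ ^ 2)]
    rfl

/-- the bound of a sum over tail cells. -/
lemma tail_sum_le {z : Fin (k + 4) → EuclideanSpace ℝ (Fin n)} {P : Fin k → ℝ} {C κ : ℝ}
    (h : ∀ j, P j ≤ C * (κ * sqn z (tl j))) : ∑ j, P j ≤ C * (κ * tailSq z 4) := by
  rw [tailSq_four, Finset.mul_sum, Finset.mul_sum]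
  exact Finset.sum_le_sum fun j _ => h j

/-- an affine function on a box is bounded by its values at the corners. -/
lemma affine_le (E : ℝ → ℝ → ℝ) {a b s0 s1 x y T : ℝ}
    (hE : ∀ u v, E u v = E 0 0 + (E 1 0 - E 0 0) * u + (E 0 1 - E 0 0) * v)
    (hxa : a ≤ x) (hxb : x ≤ b) (hys : s0 ≤ y) (hyt : y ≤ s1)
    (h1 : E a s0 ≤ T) (h2 : E a s1 ≤ T) (h3 : E b s0 ≤ T) (h4 : E b s1 ≤ T) : E x y ≤ T := by
  rw [hE] at h1 h2 h3 h4 ⊢
  rcases le_total (E 1 0 - E 0 0) 0 with hP | hP <;> rcases le_total (E 0 1 - E 0 0) 0 with hQ | hQ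
  · nlinarith [mul_nonpos_of_nonpos_of_nonneg hP (sub_nonneg.2 hxa),
      mul_nonpos_of_nonpos_of_nonneg hQ (sub_nonneg.2 hys)]
  · nlinarith [mul_nonpos_of_nonpos_of_nonneg hP (sub_nonneg.2 hxa),
      mul_nonneg hQ (sub_nonneg.2 hyt)]
  · nlinarith [mul_nonneg hP (sub_nonneg.2 hxb),
      mul_nonpos_of_nonpos_of_nonneg hQ (sub_nonneg.2 hys)]
  · nlinarith [mul_nonneg hP (sub_nonneg.2 hxb), mul_nonneg hQ (sub_nonneg.2 hyt)]

/-- interpolation parameter. -/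
noncomputable def thR (t0 t1 t : ℝ) : ℝ := (t - t0) / (t1 - t0)

lemma theta_cast (t0 t1 t : ℚ) : ((theta t0 t1 t : ℚ) : ℝ) = thR t0 t1 t := by
  unfold theta thR
  split
  · next h => subst h; simp
  · push_cast; rfl

lemma thR_spec {t0 t1 t : ℝ} (h0 : t0 ≤ t) (h1 : t ≤ t1) :
    0 ≤ thR t0 t1 t ∧ thR t0 t1 t ≤ 1 ∧ lerp (thR t0 t1 t) t0 t1 = t := by
  unfold thR
  rcases eq_or_lt_of_le (h0.trans h1) with h | h
  · subst h; simp only [sub_self, div_zero, lerp]; norm_num; linarith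
  · have hd : 0 < t1 - t0 := by linarith
    refine ⟨div_nonneg (by linarith) hd.le, by rw [div_le_one hd]; linarith, ?_⟩
    unfold lerp; field_simp; ring

lemma mixv_cast (th : ℚ) (m : ℚ × ℚ) :
    ((mixv th m : ℚ) : ℝ) = lerp (th : ℝ) (m.1 : ℝ) (m.2 : ℝ) := by
  unfold mixv lerp; push_cast; rfl

end Vale.Agent.P226.Chk
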