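import Vale.Agent.P226.CheckLeaf3
import Vale.Agent.P226.CheckLeaf2

/-! # P226: the two neighbourhoods where the bound is attained -/

namespace Vale.Agent.P226.Chk

open Real MeasureTheory

variable {k n : ℕ}

lemma qq_le {w a : ℝ} (ha : 0 ≤ a) : qq w a ≤ a ^ 2 + w ^ 2 / 2 := by
  unfold qq
  have h := mul_self_sqrt (by positivity : (0 : ℝ) ≤ a ^ 2 + w ^ 2)
  nlinarith [sq_nonneg (a - √(a ^ 2 + w ^ 2))]

/-- one cell near the regular simplex. -/
lemma tet_cell (hE : Psi3Eq) {V t : ℝ} (hV : 9 / 10 ≤ V) (h0 : 0 ≤ t) (ht : t ≤ 1 / 160) :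
    bigTerm (Psi3 (1 / 2)) V t
      ≤ m3 * (-(1 / 4) + (1 + (1 / 4 + t / 2)) / 4 + (1 - (1 / 4 + t / 2)) / 8 * (V - t - 1)) := by
  unfold bigTerm
  rw [min_eq_right (by linarith : t ≤ V)]
  set r := √(V - t) with hr
  have hr2 : r ^ 2 = V - t := sq_sqrt (by linarith)
  have hr9 : 9 / 10 ≤ r := Real.le_sqrt_of_sq_le (by norm_num; linarith)
  have hr0 : 0 < r := by linarith
  rw [hE _ _ _ (by norm_num) hr0 (sqrt_nonneg _)]
  refine mul_le_mul_of_nonneg_left ?_ m3_nonneg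
  have p1 := qq_le (w := √t) (a := r - 1 / 2) (by linarith)
  have p2 := qq_le (w := √t) (a := r + 1 / 2) (by linarith)
  rw [sq_sqrt h0] at p1 p2
  set B : ℝ := 1 / 4 + t / 2 with hB
  have key : 0 ≤ (r - 1) ^ 2 * ((1 - B) * r - 2 * B) :=
    mul_nonneg (sq_nonneg _) (by nlinarith)
  have hd : (qq (√t) (r - 1 / 2) + qq (√t) (r + 1 / 2)) / (8 * r) ≤ (2 * r ^ 2 + 2 * B) / (8 * r) := by
    refine (div_le_div_iff_of_pos_right (by linarith)).2 ?_
    rw [hB]; nlinarith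
  have hk : (2 * r ^ 2 + 2 * B) / (8 * r) ≤ (1 + B) / 4 + (1 - B) / 8 * (V - t - 1) := by
    rw [← hr2, div_le_iff₀ (by linarith)]
    nlinarith
  linarith

lemma tet_sound (hE : Psi3Eq) (hZ : Psi3Zero) (W : Witness3) (bx : Box)
    {z : Fin (k + 4) → EuclideanSpace ℝ (Fin n)} (H : InBox z bx)
    (h : check .tet bx = true) : emax z ≤ Tgt := by
  have F := H.facts
  simp only [check, decide_eq_true_eq] at h
  have ha : (27 / 40 : ℝ) ≤ sqn z c3 := by
    have q : ((27 / 40 : ℚ) : ℝ) ≤ (bx.a : ℝ) := by exact_mod_cast h.1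
    push_cast at q; linarith [H.va]
  have hS : tailSq z 4 ≤ 3 / 40 := by
    have q : (bx.s1 : ℝ) ≤ ((3 / 40 : ℚ) : ℝ) := by exact_mod_cast h.2
    push_cast at q; linarith [H.sb]
  set t : ℝ := 4 / 3 * tailSq z 4 / 16 with htdef
  have t0 : 0 ≤ t := by rw [htdef]; linarith [F.hS]
  have t1 : t ≤ 1 / 160 := by rw [htdef]; linarith
  have hw := witness3_scaled W H.adm (c := (1 / 2 : ℝ)) (by norm_num)
  rw [← htdef] at hw
  have q0 := tet_cell hE (V := 4 / 3 * sqn z c0) (by linarith [F.h10, F.h21, F.h32]) t0 t1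
  have q1 := tet_cell hE (V := 4 / 3 * sqn z c1) (by linarith [F.h21, F.h32]) t0 t1
  have q2 := tet_cell hE (V := 4 / 3 * sqn z c2) (by linarith [F.h32]) t0 t1
  have q3 := tet_cell hE (V := 4 / 3 * sqn z c3) (by linarith) t0 t1
  have hv : (kap3 (1 / 2) (1 / 10)).2 = true := by decide +kernel
  have hk : (kap3 (1 / 2) (1 / 10)).1 ≤ 1 / 25 := by decide +kernel
  obtain ⟨-, k0', hkap⟩ := kap3_sound (1 / 2) (1 / 10) hv
  have qt : ∑ j : Fin k, Psi3 (1 / 2) 0 (√(4 / 3 * sqn z (tl j)))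
      ≤ (4 / 3 * m3) * ((1 / 25 : ℝ) * tailSq z 4) := by
    refine tail_sum_le fun j => ?_
    have h0 : 0 ≤ 4 / 3 * sqn z (tl j) := mul_nonneg (by norm_num) (sq_nonneg _)
    have hj : sqn z (tl j) ≤ tailSq z 4 := by
      rw [tailSq_four]
      exact Finset.single_le_sum (f := fun j => sqn z (tl j)) (fun _ _ => sq_nonneg _)
        (Finset.mem_univ j)
    rw [hZ _ _ (by norm_num) (sqrt_nonneg _)]
    have hsq : √(4 / 3 * sqn z (tl j)) ^ 2 ≤ ((1 / 10 : ℚ) : ℝ) := by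
      rw [sq_sqrt h0]; push_cast; linarith
    have hk' : ((kap3 (1 / 2) (1 / 10)).1 : ℝ) ≤ ((1 / 25 : ℚ) : ℝ) := by exact_mod_cast hk
    push_cast at hk'
    have g := hkap _ hsq
    push_cast at g
    rw [sq_sqrt h0] at g
    have g' := g.trans (mul_le_mul_of_nonneg_right hk' h0)
    refine le_trans (mul_le_mul_of_nonneg_left g' m3_nonneg) (le_of_eq ?_)
    ring
  refine Tgt_scaled (le_trans hw ?_)
  refine le_trans (add_le_add (add_le_add_right (add_le_add (add_le_add (add_le_add q0 q1) q2) q3) _)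
    qt) ?_
  set S := tailSq z 4
  have hsum := F.hsum
  have hfac : (1 / 2 : ℝ) + (4 * (-(1 / 4) + (1 + (1 / 4 + t / 2)) / 4)
      + (1 - (1 / 4 + t / 2)) / 8 * (4 / 3 * (3 - S) - 4 * t - 4)) + 4 / 3 * (1 / 25 * S) ≤ 3 / 4 := by
    have hSt : S = 12 * t := by rw [htdef]; ring
    rw [hSt]
    nlinarith
  refine le_trans (le_of_eq ?_) (mul_le_mul_of_nonneg_left hfac m3_nonneg)
  linear_combination (m3 * (1 - (1 / 4 + t / 2)) / 8 * (4 / 3)) * hsum

/-- `h` of the propeller leaf. -/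
noncomputable def psiP (t β q : ℝ) : ℝ := q + t / (2 * q) - arctan (2 * q) / 2 - β * q ^ 2

/-- the maximiser of `psiP`. -/
noncomputable def q₀ : ℝ := √3 / 2

/-- the slope of the propeller leaf. -/
noncomputable def betaP (t : ℝ) : ℝ := (3 / 4 - 2 * t / 3) / √3

lemma psiP_deriv (t β : ℝ) {q : ℝ} (hq : q ≠ 0) :
    HasDerivAt (psiP t β) (1 - t / (2 * q ^ 2) - 1 / (1 + 4 * q ^ 2) - 2 * β * q) q := by
  have h1 := ((hasDerivAt_id q).const_mul (2 : ℝ))
  have h2 := ((hasDerivAt_id q).const_mul (2 : ℝ)).inv (by simpa using hq) |>.const_mul t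
  have h3 := (h1.arctan).div_const 2
  have h4 := (hasDerivAt_pow 2 q).const_mul β
  have h := (((hasDerivAt_id q).add h2).sub h3).sub h4
  refine (h.congr_deriv ?_).congr_of_eventuallyEq (Filter.Eventually.of_forall fun x => ?_)
  · simp only [id_eq]
    field_simp
    ring
  · simp only [psiP, id_eq, Pi.add_apply, Pi.sub_apply, Pi.inv_apply, div_eq_mul_inv]

lemma psiP_le {t q : ℝ} (h0 : 0 ≤ t) (ht : t ≤ 1 / 240) (hq : 27 / 50 ≤ q) :
    psiP t (betaP t) q ≤ psiP t (betaP t) q₀ := by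
  have h3 : (173 / 100 : ℝ) ≤ √3 := Real.le_sqrt_of_sq_le (by norm_num)
  have h3' : √(3 : ℝ) ≤ 1733 / 1000 := by
    rw [Real.sqrt_le_left (by norm_num)]; norm_num
  have s3 : √(3 : ℝ) * √3 = 3 := mul_self_sqrt (by norm_num)
  have e0 : q₀ = √3 / 2 := rfl
  have hq0 : q₀ ^ 2 = 3 / 4 := by rw [e0, pow_two, div_mul_div_comm, s3]; norm_num
  have hd : ∀ x : ℝ, 27 / 50 ≤ x → HasDerivAt (psiP t (betaP t))
      (x * ((x - q₀) * (2 * x ^ 3 * q₀ ^ 3 * (1 / 4 - x * q₀)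
        + t * (x ^ 2 + x * q₀ + q₀ ^ 2) * (1 / 4 + x ^ 2))
          / (2 * x ^ 3 * q₀ ^ 3 * (1 / 4 + x ^ 2)))) x := by
    intro x hx
    refine (psiP_deriv t (betaP t) (by linarith : x ≠ 0)).congr_deriv ?_
    have hx0 : 0 < x := by linarith
    have hq00 : 0 < q₀ := by rw [e0]; positivity
    have eb : betaP t = q₀ / 2 - t / (4 * q₀ ^ 3) := by
      unfold betaP
      rw [show q₀ ^ 3 = q₀ ^ 2 * q₀ by ring, hq0, e0]
      field_simp
      linear_combination (-12 : ℝ) * s3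
    rw [eb]
    field_simp
    linear_combination (-32 * x ^ 4 * q₀ ^ 3) * hq0
  have hN : ∀ x : ℝ, 27 / 50 ≤ x → 2 * x ^ 3 * q₀ ^ 3 * (1 / 4 - x * q₀)
      + t * (x ^ 2 + x * q₀ + q₀ ^ 2) * (1 / 4 + x ^ 2) ≤ 0 := by
    intro x hx
    have hx0 : 0 < x := by linarith
    have hlo : 173 / 200 ≤ q₀ := by rw [e0]; linarith
    have hhi : q₀ ≤ 867 / 1000 := by rw [e0]; linarith
    have hx2 : 7 / 25 ≤ x ^ 2 := by nlinarith
    have a1 : 2 / 5 * (x * q₀) ≤ x * q₀ - 1 / 4 := by nlinarith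
    have a2 : 2 * x ^ 3 * q₀ ^ 3 * (1 / 4 - x * q₀) ≤ -(4 / 5 * x ^ 4 * q₀ ^ 4) := by
      nlinarith [mul_le_mul_of_nonneg_left a1 (by positivity : (0 : ℝ) ≤ 2 * x ^ 3 * q₀ ^ 3)]
    have a3 : x ^ 2 + x * q₀ + q₀ ^ 2 ≤ 6 * x ^ 2 := by nlinarith
    have a4 : 1 / 4 + x ^ 2 ≤ 2 * x ^ 2 := by nlinarith
    have a5 : (x ^ 2 + x * q₀ + q₀ ^ 2) * (1 / 4 + x ^ 2) ≤ 6 * x ^ 2 * (2 * x ^ 2) :=
      mul_le_mul a3 a4 (by positivity) (by positivity)
    have a6 : t * ((x ^ 2 + x * q₀ + q₀ ^ 2) * (1 / 4 + x ^ 2)) ≤ 1 / 240 * (6 * x ^ 2 * (2 * x ^ 2)) :=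
      mul_le_mul ht a5 (by positivity) (by norm_num)
    have a7 : q₀ ^ 4 = 9 / 16 := by rw [show q₀ ^ 4 = (q₀ ^ 2) ^ 2 by ring, hq0]; norm_num
    rw [a7] at a2
    nlinarith [pow_nonneg hx0.le 4]
  have hlo' : 27 / 50 ≤ q₀ := by rw [e0]; linarith
  rcases le_total q q₀ with hqq | hqq
  · refine monotoneOn_of_hasDerivWithinAt_nonneg (convex_Icc (27 / 50 : ℝ) q₀)
      (fun x hx => (hd x hx.1).continuousAt.continuousWithinAt)
      (fun x hx => (hd x (interior_subset hx).1).hasDerivWithinAt) (fun x hx => ?_)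
      ⟨hq, hqq⟩ ⟨hlo', le_rfl⟩ hqq
    have hx' := interior_subset hx
    have hx0 : 0 < x := by linarith [hx'.1]
    have hq00 : 0 < q₀ := by linarith
    exact mul_nonneg hx0.le (div_nonneg (mul_nonneg_of_nonpos_of_nonpos (by linarith [hx'.2])
      (hN x hx'.1)) (by positivity))
  · refine antitoneOn_of_hasDerivWithinAt_nonpos (convex_Icc q₀ q)
      (fun x hx => (hd x (hlo'.trans hx.1)).continuousAt.continuousWithinAt)
      (fun x hx => (hd x (hlo'.trans (interior_subset hx).1)).hasDerivWithinAt) (fun x hx => ?_)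
      ⟨le_rfl, hqq⟩ ⟨hqq, le_rfl⟩ hqq
    have hx' := interior_subset hx
    have hx0 : 0 < x := by linarith [hx'.1]
    have hq00 : 0 < q₀ := by linarith
    exact mul_nonpos_of_nonneg_of_nonpos hx0.le (div_nonpos_of_nonpos_of_nonneg
      (mul_nonpos_of_nonneg_of_nonpos (by linarith [hx'.1]) (hN x (by linarith [hx'.1])))
      (by positivity))

/-- one big cell near the propeller. -/
lemma prp_cell (hE : Psi2Le) {v t : ℝ} (hv : 11 / 20 ≤ v) (h0 : 0 ≤ t) (ht : t ≤ 1 / 240) :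
    bigTerm (Psi2 (1 / 2)) v t
      ≤ t2 * (psiP t (betaP t) q₀ + betaP t * (v - t - 1 / 4)) := by
  unfold bigTerm
  rw [min_eq_right (by linarith : t ≤ v)]
  set r := √(v - t) with hr
  have hr2 : r ^ 2 = v - t := sq_sqrt (by linarith)
  have hrc : 1 / 2 ≤ r := Real.le_sqrt_of_sq_le (by norm_num; linarith)
  refine le_trans (hE _ _ _ (by norm_num) hrc (sqrt_nonneg _)) ?_
  refine mul_le_mul_of_nonneg_left ?_ t2_nonneg
  set q := √(v - t - 1 / 4) with hq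
  have hq2 : q ^ 2 = v - t - 1 / 4 := sq_sqrt (by linarith)
  have hq5 : 27 / 50 ≤ q := Real.le_sqrt_of_sq_le (by norm_num; linarith)
  have hq0 : 0 < q := by linarith
  have hac : arccos (1 / 2 / r) = arctan (2 * q) := by
    rw [arccos_eq_arctan (by positivity)]
    congr 1
    have : (1 : ℝ) - (1 / 2 / r) ^ 2 = q ^ 2 / r ^ 2 := by
      rw [hq2]; field_simp; rw [hr2]; ring
    rw [this, Real.sqrt_div (sq_nonneg q), Real.sqrt_sq hq0.le,
      Real.sqrt_sq (by linarith : 0 ≤ r)]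
    field_simp
  rw [hac, sq_sqrt h0, hr2]
  have hs : √(v - t - (1 / 2) ^ 2 + t) ≤ q + t / (2 * q) := by
    rw [Real.sqrt_le_left (by positivity)]
    have : (q + t / (2 * q)) ^ 2 = q ^ 2 + t + (t / (2 * q)) ^ 2 := by field_simp; ring
    rw [this, hq2]; nlinarith [sq_nonneg (t / (2 * q))]
  have hp := psiP_le h0 ht hq5
  unfold psiP at hp ⊢
  rw [hq2] at hp
  linarith

lemma psiP_q₀ (t β : ℝ) : psiP t β q₀ = √3 / 2 + t / √3 - π / 6 - β * (3 / 4) := by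
  have s3 : √(3 : ℝ) * √3 = 3 := mul_self_sqrt (by norm_num)
  have e : 2 * (√3 / 2) = √(3 : ℝ) := by ring
  unfold psiP q₀
  rw [e, show arctan √3 = π / 3 by
    rw [← Real.tan_pi_div_three, arctan_tan (by linarith [pi_pos]) (by linarith [pi_pos])],
    show (√3 / 2 : ℝ) ^ 2 = 3 / 4 by rw [pow_two, div_mul_div_comm, s3]; norm_num]
  ring

lemma prp_sound (hE : Psi2Le) (hZ : Psi2Zero) (W : Witness2) (bx : Box)
    {z : Fin (k + 4) → EuclideanSpace ℝ (Fin n)} (H : InBox z bx)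
    (h : check .prp bx = true) : emax z ≤ Tgt := by
  have F := H.facts
  simp only [check, decide_eq_true_eq] at h
  obtain ⟨hb, hs1, hlo⟩ := h
  have hb' : sqn z c3 ≤ 1 / 160 := by
    have q : (bx.b : ℝ) ≤ ((1 / 160 : ℚ) : ℝ) := by exact_mod_cast hb
    push_cast at q; linarith [H.vb]
  have hS' : tailSq z 4 ≤ 1 / 32 := by
    have q : (bx.s1 : ℝ) ≤ ((1 / 32 : ℚ) : ℝ) := by exact_mod_cast hs1
    push_cast at q; linarith [H.sb]
  have hv2 : 11 / 20 ≤ sqn z c2 := by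
    have q : ((11 / 20 : ℚ) : ℝ) ≤ (bx.lo : ℝ) := by exact_mod_cast hlo
    push_cast at q; linarith [H.lo]
  set t : ℝ := tailSq z 3 / 9 with htdef
  have hT := tailSq_three z
  have t0 : 0 ≤ t := by rw [htdef, hT]; linarith [F.hS, F.h3]
  have t1 : t ≤ 1 / 240 := by rw [htdef, hT]; linarith
  have hw := witness2_split W H.adm (c := (1 / 2 : ℝ)) (by norm_num)
  rw [← htdef, m2_eq] at hw
  have q0 := prp_cell hE (v := sqn z c0) (by linarith [F.h10, F.h21]) t0 t1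
  have q1 := prp_cell hE (v := sqn z c1) (by linarith [F.h21]) t0 t1
  have q2 := prp_cell hE (v := sqn z c2) hv2 t0 t1
  have hv : (kap2 (1 / 2) (1 / 160)).2 = true := by decide +kernel
  have hk : (kap2 (1 / 2) (1 / 160)).1 ≤ 1 / 5 := by decide +kernel
  have qk : ∀ i, sqn z i ≤ sqn z c3 → Psi2 (1 / 2) 0 ‖z i‖ ≤ t2 * (1 / 5 * sqn z i) := fun i hi => by
    obtain ⟨-, hkap⟩ := kap2_sound (1 / 2) (1 / 160) hv
    rw [hZ _ _ (by norm_num) (norm_nonneg _)]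
    refine mul_le_mul_of_nonneg_left ?_ t2_nonneg
    have hσ : ‖z i‖ ^ 2 ≤ ((1 / 160 : ℚ) : ℝ) := by push_cast; exact hi.trans hb'
    have g := hkap _ (norm_nonneg _) hσ
    have hk' : ((kap2 (1 / 2) (1 / 160)).1 : ℝ) ≤ ((1 / 5 : ℚ) : ℝ) := by exact_mod_cast hk
    push_cast at g hk'
    exact g.trans (mul_le_mul_of_nonneg_right hk' (sq_nonneg _))
  have qt := tail_sum_le (z := z) (C := t2) (κ := (1 / 5 : ℝ))
    (P := fun j => Psi2 (1 / 2) 0 ‖z (tl j)‖) fun j => qk _ (F.htl j)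
  rw [Tgt_eq]
  refine le_trans hw (le_trans (add_le_add (add_le_add_right (add_le_add (add_le_add q0 q1) q2) _)
    (add_le_add (qk c3 le_rfl) qt)) ?_)
  rw [psiP_q₀]
  have h9 : sqn z c3 + tailSq z 4 = 9 * t := by rw [htdef, hT]; ring
  have h3 : (0 : ℝ) < √3 := by positivity
  have h3' : √(3 : ℝ) ≤ 1733 / 1000 := by
    rw [Real.sqrt_le_left (by norm_num)]; norm_num
  have s3 : √(3 : ℝ) * √3 = 3 := mul_self_sqrt (by norm_num)
  have hfac : (1 / 2 : ℝ) * π + (3 * (√3 / 2 + t / √3 - π / 6 - betaP t * (3 / 4))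
      + betaP t * (3 - 9 * t - 3 * t - 3 / 4)) + 1 / 5 * (9 * t) ≤ 3 * √3 / 2 := by
    have e1 : 3 * (t / √3) = √3 * t := by field_simp; linear_combination (-t) * s3
    have e2 : √3 * (12 * betaP t) = 9 - 8 * t := by unfold betaP; field_simp; ring
    have e3 : √3 + 9 / 5 ≤ 12 * betaP t := by
      have : √3 * (√3 + 9 / 5) ≤ √3 * (12 * betaP t) := by rw [e2]; nlinarith
      exact le_of_mul_le_mul_left this h3
    nlinarith [mul_le_mul_of_nonneg_left e3 t0]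
  refine le_trans (le_of_eq ?_) (mul_le_mul_of_nonneg_left hfac t2_nonneg)
  have hsum : sqn z c0 + sqn z c1 + sqn z c2 = 3 - 9 * t := by linarith [F.hsum]
  linear_combination (t2 * betaP t) * hsum + (t2 / 5) * h9

end Vale.Agent.P226.Chk
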