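import Vale.Agent.P226.CheckLeafM
import Vale.Agent.P226.CheckSpecial

/-! # P226: soundness of the checker -/

namespace Vale.Agent.P226.Chk

open Real

variable {k n : ℕ}

/-- the facts about the witnesses used by the certificate. -/
structure Mods : Prop where
  e3 : Psi3Eq
  z3 : Psi3Zero
  e2 : Psi2Le
  z2 : Psi2Zero
  j2 : Psi2Junction
  big : PsiMBig
  four : PsiMFour
  small : PsiMSmall
  w3 : Witness3
  w2 : Witness2
  wm : WitnessM

lemma InBox.clip {z : Fin (k + 4) → EuclideanSpace ℝ (Fin n)} {bx : Box} (H : InBox z bx) :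
    InBox z (Chk.clip bx) := by
  unfold Chk.clip
  split
  · refine ⟨H.adm, H.sum3, H.va, H.vb, H.sa, ?_, H.lo, H.hi⟩
    have F := H.facts
    push_cast
    refine le_trans ?_ (le_max_right _ _)
    linarith [H.va, F.hsum, F.h10, F.h21, F.h32]
  · exact H

lemma clip_a (bx : Box) : (Chk.clip bx).a = bx.a ∧ (Chk.clip bx).s0 = bx.s0 := by
  unfold Chk.clip; split <;> exact ⟨rfl, rfl⟩

theorem check_sound (M : Mods) : ∀ (T : Tree) (bx : Box),
    check T bx = true → ∀ {z : Fin (k + 4) → EuclideanSpace ℝ (Fin n)}, InBox z bx → emax z ≤ Tgt := by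
  intro T
  induction T with
  | emp =>
    intro bx h z H
    exfalso
    have F := H.facts
    simp only [check, decide_eq_true_eq] at h
    rcases h with h | h
    · have h' : (3 : ℝ) < 4 * bx.a + bx.s0 := by exact_mod_cast h
      linarith [H.va, H.sa, F.hsum, F.h10, F.h21, F.h32]
    · have h' : (3 : ℝ) < bx.a + bx.s0 + 3 * bx.lo := by exact_mod_cast h
      linarith [H.va, H.sa, H.lo, F.hsum, F.h10, F.h21]
  | d3 p =>
    intro bx h z H
    simp only [check, Bool.and_eq_true, decide_eq_true_eq] at h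
    obtain ⟨ea, es⟩ := clip_a bx
    exact leaf3_sound M.e3 M.z3 M.w3 p (Chk.clip bx) H.clip (ea ▸ h.1.1) (es ▸ h.1.2) h.2
  | d2 p =>
    intro bx h z H
    simp only [check, Bool.and_eq_true, decide_eq_true_eq] at h
    obtain ⟨ea, es⟩ := clip_a bx
    exact leaf2_sound M.e2 M.z2 M.j2 M.w2 p (Chk.clip bx) H.clip (ea ▸ h.1.1) (es ▸ h.1.2) h.2
  | jm p =>
    intro bx h z H
    simp only [check, Bool.and_eq_true, decide_eq_true_eq] at h
    obtain ⟨ea, es⟩ := clip_a bx
    exact leafM_sound M.big M.four M.small M.wm p (Chk.clip bx) H.clip (ea ▸ h.1.1) (es ▸ h.1.2) h.2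
  | tet => exact fun bx h z H => tet_sound M.e3 M.z3 M.w3 bx H h
  | prp => exact fun bx h z H => prp_sound M.e2 M.z2 M.w2 bx H h
  | splitA m l r ihl ihr =>
    intro bx h z H
    simp only [check, Bool.and_eq_true] at h
    rcases le_total (sqn z c3) (m : ℝ) with hm | hm
    · exact ihl _ h.1 ⟨H.adm, H.sum3, H.va, hm, H.sa, H.sb, H.lo, H.hi⟩
    · exact ihr _ h.2 ⟨H.adm, H.sum3, hm, H.vb, H.sa, H.sb, H.lo, H.hi⟩
  | splitS m l r ihl ihr =>
    intro bx h z H
    simp only [check, Bool.and_eq_true] at h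
    rcases le_total (tailSq z 4) (m : ℝ) with hm | hm
    · exact ihl _ h.1 ⟨H.adm, H.sum3, H.va, H.vb, H.sa, hm, H.lo, H.hi⟩
    · exact ihr _ h.2 ⟨H.adm, H.sum3, H.va, H.vb, hm, H.sb, H.lo, H.hi⟩
  | split3 m l r ihl ihr =>
    intro bx h z H
    simp only [check, Bool.and_eq_true] at h
    rcases le_total (sqn z c2) (m : ℝ) with hm | hm
    · exact ihl _ h.1 ⟨H.adm, H.sum3, H.va, H.vb, H.sa, H.sb, H.lo, hm⟩
    · exact ihr _ h.2 ⟨H.adm, H.sum3, H.va, H.vb, H.sa, H.sb, hm, H.hi⟩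

end Vale.Agent.P226.Chk
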