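import Vale.Agent.P226.Base
import Vale.Agent.P226.CheckNodes

/-! # P226: soundness of the supremum over radii -/

namespace Vale.Agent.P226.Chk

open Real MeasureTheory ProbabilityTheory

lemma segMax_sound (k l fl h fh : ℚ) (hlh : l < h) {r : ℝ} (h1 : (l : ℝ) ≤ r) (h2 : r ≤ (h : ℝ)) :
    (fl : ℝ) + ((fh : ℝ) - fl) / ((h : ℝ) - l) * (r - l) - (k : ℝ) * r ^ 2
      ≤ (segMax k l fl h fh : ℝ) := by
  have hlh' : (l : ℝ) < (h : ℝ) := by exact_mod_cast hlh
  set s : ℚ := (fh - fl) / (h - l) with hs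
  have hsR : ((fh : ℝ) - fl) / ((h : ℝ) - l) = (s : ℝ) := by rw [hs]; push_cast; rfl
  rw [hsR]
  set e : ℚ := max (fl - k * l * l) (fh - k * h * h) with he
  have hfh : (fh : ℝ) = fl + (s : ℝ) * ((h : ℝ) - l) := by
    rw [← hsR, div_mul_cancel₀ _ (by linarith)]; ring
  have he0 : (fl : ℝ) - k * l * l ≤ (e : ℝ) := by
    have : fl - k * l * l ≤ e := le_max_left _ _
    exact_mod_cast this
  have he1 : (fl : ℝ) + (s : ℝ) * ((h : ℝ) - l) - k * h * h ≤ (e : ℝ) := by
    rw [← hfh]
    have : fh - k * h * h ≤ e := le_max_right _ _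
    exact_mod_cast this
  have a0 : 0 ≤ r - (l : ℝ) := by linarith
  have a1 : 0 ≤ (h : ℝ) - r := by linarith
  unfold segMax
  simp only [← hs, ← he]
  split
  next hc =>
    rcases hc with hk | hk | hk
    · have hk' : (k : ℝ) ≤ 0 := by exact_mod_cast hk
      have c0 := mul_le_mul_of_nonneg_left he0 a1
      have c1 := mul_le_mul_of_nonneg_left he1 a0
      have c2 : 0 ≤ -(k : ℝ) * ((r - l) * ((h : ℝ) - r)) * ((h : ℝ) - l) :=
        mul_nonneg (mul_nonneg (by linarith) (mul_nonneg a0 a1)) (by linarith)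
      nlinarith
    · have hk' : (s : ℝ) ≤ 2 * k * l := by exact_mod_cast hk
      rcases le_or_gt (k : ℝ) 0 with hk0 | hk0
      · have c0 := mul_le_mul_of_nonneg_left he0 a1
        have c1 := mul_le_mul_of_nonneg_left he1 a0
        have c2 : 0 ≤ -(k : ℝ) * ((r - l) * ((h : ℝ) - r)) * ((h : ℝ) - l) :=
          mul_nonneg (mul_nonneg (by linarith) (mul_nonneg a0 a1)) (by linarith)
        nlinarith
      · nlinarith [mul_nonneg a0 (by linarith : (0 : ℝ) ≤ 2 * k * l - s),
          mul_nonneg hk0.le (mul_nonneg a0 a0)]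
    · have hk' : 2 * (k : ℝ) * h ≤ (s : ℝ) := by exact_mod_cast hk
      rcases le_or_gt (k : ℝ) 0 with hk0 | hk0
      · have c0 := mul_le_mul_of_nonneg_left he0 a1
        have c1 := mul_le_mul_of_nonneg_left he1 a0
        have c2 : 0 ≤ -(k : ℝ) * ((r - l) * ((h : ℝ) - r)) * ((h : ℝ) - l) :=
          mul_nonneg (mul_nonneg (by linarith) (mul_nonneg a0 a1)) (by linarith)
        nlinarith
      · nlinarith [mul_nonneg a1 (by linarith : (0 : ℝ) ≤ (s : ℝ) - 2 * k * h),
          mul_nonneg hk0.le (mul_nonneg a1 a1)]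
  next hc =>
    push Not at hc
    have hk : (0 : ℝ) < (k : ℝ) := by exact_mod_cast hc.1
    push_cast
    refine le_trans ?_ (le_max_right _ _)
    have : 0 ≤ (k : ℝ) * (r - (s : ℝ) / (2 * k)) ^ 2 := by positivity
    have e2 : (k : ℝ) * (r - (s : ℝ) / (2 * k)) ^ 2
        = k * r ^ 2 - s * r + s * s / (4 * k) := by field_simp; ring
    nlinarith

lemma getLast?_getD_cons (h l : ℚ) (rest : List ℚ) :
    (h :: rest).getLast?.getD l = rest.getLast?.getD h := by
  simp [List.getLast?_cons]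

/-- soundness of the running maximum. -/
lemma supGo_sound (f : ℚ → (ℚ × ℚ) × Bool) (k : ℚ) {G : ℝ → ℝ} (hG : ConvexOn ℝ Set.univ G)
    {C θ : ℝ} (hC : 0 ≤ C) (h0 : 0 ≤ θ) (h1 : θ ≤ 1)
    (hn : ∀ x : ℚ, (f x).2 = true → G (x : ℝ) ≤ C * lerp θ ((f x).1.1 : ℝ) ((f x).1.2 : ℝ)) :
    ∀ (rest : List ℚ) (l : ℚ) (fl : ℚ × ℚ), G (l : ℝ) ≤ C * lerp θ (fl.1 : ℝ) (fl.2 : ℝ) →
      (supGo f k l fl rest).2 = true →
      l ≤ rest.getLast?.getD l ∧ ∀ r : ℝ, (l : ℝ) ≤ r → r ≤ ((rest.getLast?.getD l : ℚ) : ℝ) →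
        G r ≤ C * (lerp θ ((supGo f k l fl rest).1.1 : ℝ) ((supGo f k l fl rest).1.2 : ℝ)
          + (k : ℝ) * r ^ 2) := by
  intro rest
  induction rest with
  | nil =>
    intro l fl hl _
    refine ⟨by simp, fun r r1 r2 => ?_⟩
    simp only [List.getLast?_nil, Option.getD_none] at r2
    obtain rfl : r = (l : ℝ) := le_antisymm r2 r1
    refine le_trans hl (mul_le_mul_of_nonneg_left (le_of_eq ?_) hC)
    simp only [supGo, lerp]
    push_cast
    ring
  | cons h rest ih =>
    intro l fl hl hv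
    simp only [supGo, Bool.and_eq_true, decide_eq_true_eq] at hv
    obtain ⟨⟨hlh, hfh⟩, ht⟩ := hv
    obtain ⟨hlast, ihr⟩ := ih h (f h).1 (hn h hfh) ht
    rw [getLast?_getD_cons]
    refine ⟨hlh.le.trans hlast, fun r r1 r2 => ?_⟩
    have hlh' : (l : ℝ) < (h : ℝ) := by exact_mod_cast hlh
    have hθ : 0 ≤ 1 - θ := by linarith
    rcases le_total r (h : ℝ) with hr | hr
    · have s0 := segMax_sound k l fl.1 h (f h).1.1 hlh r1 hr
      have s1 := segMax_sound k l fl.2 h (f h).1.2 hlh r1 hr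
      simp only [supGo]
      push_cast
      have hd : (0 : ℝ) < (h : ℝ) - l := by linarith
      set α : ℝ := (r - l) / ((h : ℝ) - l) with hα
      have hα0 : 0 ≤ α := div_nonneg (by linarith) hd.le
      have hα1 : α ≤ 1 := by rw [hα, div_le_one hd]; linarith
      have hr' : r = (1 - α) * (l : ℝ) + α * (h : ℝ) := by rw [hα]; field_simp; ring
      have hcv : G r ≤ (1 - α) * G (l : ℝ) + α * G (h : ℝ) := by
        have := hG.2 (Set.mem_univ (l : ℝ)) (Set.mem_univ (h : ℝ))
          (show (0 : ℝ) ≤ 1 - α by linarith) hα0 (show 1 - α + α = 1 by ring)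
        simp only [smul_eq_mul] at this
        rw [hr']; exact this
      refine le_trans (le_trans hcv (add_le_add
        (mul_le_mul_of_nonneg_left hl (by linarith))
        (mul_le_mul_of_nonneg_left (hn h hfh) hα0))) ?_
      rw [← mul_left_comm C, ← mul_left_comm C, ← mul_add]
      refine mul_le_mul_of_nonneg_left ?_ hC
      refine le_trans ?_ (add_le_add_left (lerp_mono h0 h1
        (le_trans s0 (le_max_left _ _)) (le_trans s1 (le_max_left _ _))) _)
      refine le_of_eq ?_
      rw [hα]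
      unfold lerp
      field_simp
      ring
    · refine le_trans (ihr r hr r2) (mul_le_mul_of_nonneg_left ?_ hC)
      simp only [supGo]
      push_cast
      exact add_le_add_left (lerp_mono h0 h1 (le_max_right _ _) (le_max_right _ _)) _

/-- one cell with `v ∈ [lo, hi]`, out of plane variance `t`. -/
lemma cell_sound (f : ℚ → (ℚ × ℚ) × Bool) (k lo hi t0 t1 : ℚ) (ns : List ℚ) {G : ℝ → ℝ}
    (hG : ConvexOn ℝ Set.univ G) {C θ v t : ℝ} (hC : 0 ≤ C) (h0 : 0 ≤ θ) (h1 : θ ≤ 1)
    (hn : ∀ x : ℚ, (f x).2 = true → G (x : ℝ) ≤ C * lerp θ ((f x).1.1 : ℝ) ((f x).1.2 : ℝ))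
    (hsup : (supOn f k ns).2 = true) (hcov : covers ns lo hi t0 t1 = true) (hk : 0 ≤ k)
    (ht : t = lerp θ (t0 : ℝ) (t1 : ℝ)) (ht01 : t0 ≤ t1)
    (hlo : (lo : ℝ) ≤ v) (hhi : v ≤ (hi : ℝ)) :
    G (√(v - min v t)) ≤ C * (lerp θ ((clamp k lo t0 t1 (supOn f k ns).1).1 : ℝ)
      ((clamp k lo t0 t1 (supOn f k ns).1).2 : ℝ) + (k : ℝ) * (v - t)) := by
  cases ns with
  | nil => simp [supOn] at hsup
  | cons l rest =>
    simp only [supOn, Bool.and_eq_true, decide_eq_true_eq] at hsup
    obtain ⟨⟨hl0, hfl⟩, hv⟩ := hsup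
    simp only [covers, decide_eq_true_eq] at hcov
    obtain ⟨hc1, hc2, hc3⟩ := hcov
    obtain ⟨-, hr⟩ := supGo_sound f k hG hC h0 h1 hn rest l (f l).1 (hn l hfl) hv
    have ht' : (t0 : ℝ) ≤ t ∧ t ≤ (t1 : ℝ) := by
      have q : (t0 : ℝ) ≤ (t1 : ℝ) := by exact_mod_cast ht01
      rw [ht]; unfold lerp; constructor <;> nlinarith
    have hc2' : (hi : ℝ) ≤ ((rest.getLast?.getD l : ℚ) : ℝ) * ((rest.getLast?.getD l : ℚ) : ℝ)
        + (t0 : ℝ) := by exact_mod_cast hc2
    have hc3' : (0 : ℝ) ≤ ((rest.getLast?.getD l : ℚ) : ℝ) := by exact_mod_cast hc3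
    have hge : (l : ℝ) ≤ √(v - min v t) := by
      rcases hc1 with hz | hz
      · rw [hz]; push_cast; exact sqrt_nonneg _
      · have hz' : (l : ℝ) * l + t1 ≤ (lo : ℝ) := by exact_mod_cast hz
        refine Real.le_sqrt_of_sq_le ?_
        linarith [min_le_right v t]
    have hle : √(v - min v t) ≤ ((rest.getLast?.getD l : ℚ) : ℝ) := by
      rw [Real.sqrt_le_left hc3']
      rcases le_total v t with h | h
      · rw [min_eq_left h, sub_self]; positivity
      · rw [min_eq_right h]; linarith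
    refine le_trans (hr _ hge hle) (mul_le_mul_of_nonneg_left ?_ hC)
    have hnn : 0 ≤ v - min v t := by linarith [min_le_left v t]
    rw [sq_sqrt hnn]
    have hk' : (0 : ℝ) ≤ (k : ℝ) := by exact_mod_cast hk
    have hm : (t : ℝ) - min v t ≤ lerp θ (max 0 ((t0 : ℝ) - lo)) (max 0 ((t1 : ℝ) - lo)) := by
      have n0 : 0 ≤ lerp θ (max 0 ((t0 : ℝ) - lo)) (max 0 ((t1 : ℝ) - lo)) :=
        lerp_nonneg h0 h1 (le_max_left _ _) (le_max_left _ _)
      rcases le_total v t with h | h
      · rw [min_eq_left h]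
        have := lerp_mono h0 h1 (le_max_right 0 ((t0 : ℝ) - lo)) (le_max_right 0 ((t1 : ℝ) - lo))
        have e : lerp θ ((t0 : ℝ) - lo) ((t1 : ℝ) - lo) = t - lo := by rw [ht]; unfold lerp; ring
        linarith
      · rw [min_eq_right h]; linarith
    have hm' := mul_le_mul_of_nonneg_left hm hk'
    simp only [supOn, clamp]
    push_cast
    unfold lerp at hm' ⊢
    nlinarith

/-! ## convexity and monotonicity of the per-cell functions -/

section
variable {n : ℕ}

lemma rad_le_sum (y : Fin n → ℝ) : rad y ≤ ∑ i, |y i| := by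
  unfold rad
  rw [Real.sqrt_le_left (Finset.sum_nonneg fun i _ => abs_nonneg _)]
  calc ∑ i, y i ^ 2 = ∑ i, |y i| ^ 2 := by simp [sq_abs]
    _ ≤ (∑ i, |y i|) ^ 2 := Finset.sum_sq_le_sq_sum_of_nonneg fun i _ => abs_nonneg _

lemma integrable_coord' (i : Fin n) : Integrable (fun y => y i) (gaussPi n) :=
  integrable_comp_eval (μ := fun _ : Fin n => gaussianReal 0 1) integrable_id_γ

lemma measurable_rad : Measurable (rad : (Fin n → ℝ) → ℝ) :=
  ((continuous_finsetSum _ fun i _ => (continuous_apply i).pow 2).sqrt).measurable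

lemma integrable_rad' : Integrable (fun y => rad y) (gaussPi n) := by
  refine Integrable.mono' (integrable_finsetSum Finset.univ fun i _ => (integrable_coord' i).abs)
    measurable_rad.aestronglyMeasurable (Filter.Eventually.of_forall fun y => ?_)
  rw [Real.norm_eq_abs, abs_of_nonneg (by unfold rad; positivity)]
  exact rad_le_sum y

lemma convexOn_integral_hh (w : ℝ) {A B : (Fin n → ℝ) → ℝ}
    (hA : Integrable A (gaussPi n)) (hB : Integrable B (gaussPi n)) :
    ConvexOn ℝ Set.univ fun r => ∫ y, hh w (r * A y + B y) ∂(gaussPi n) := by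
  refine ⟨convex_univ, fun s _ t _ a b ha hb hab => ?_⟩
  simp only [smul_eq_mul]
  have hi : ∀ r : ℝ, Integrable (fun y => hh w (r * A y + B y)) (gaussPi n) := fun r =>
    integrable_hh_comp w ((hA.const_mul r).add hB)
  rw [← integral_const_mul, ← integral_const_mul,
    ← integral_add ((hi s).const_mul a) ((hi t).const_mul b)]
  refine integral_mono (hi _) (((hi s).const_mul a).add ((hi t).const_mul b)) fun y => ?_
  have := (hh_convex w).2 (Set.mem_univ (s * A y + B y)) (Set.mem_univ (t * A y + B y)) ha hb hab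
  simp only [smul_eq_mul] at this
  refine le_trans (le_of_eq ?_) this
  congr 1
  linear_combination (-(B y)) * hab

lemma integral_hh_mono_w {v w : ℝ} (hv : 0 ≤ v) (hvw : v ≤ w) {A : (Fin n → ℝ) → ℝ}
    (hA : Integrable A (gaussPi n)) :
    ∫ y, hh v (A y) ∂(gaussPi n) ≤ ∫ y, hh w (A y) ∂(gaussPi n) :=
  integral_mono (integrable_hh_comp v hA) (integrable_hh_comp w hA) fun y => hh_mono_w hv hvw _

end

lemma Psi3_convex (c w : ℝ) : ConvexOn ℝ Set.univ fun r => Psi3 c r w := by
  have := convexOn_integral_hh w (integrable_coord' (0 : Fin 3))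
    ((integrable_rad' (n := 3)).const_mul c).neg
  simpa [Psi3, sub_eq_add_neg] using this

lemma Psi2_convex (c w : ℝ) : ConvexOn ℝ Set.univ fun r => Psi2 c r w := by
  have := convexOn_integral_hh w (integrable_coord' (0 : Fin 2))
    ((integrable_rad' (n := 2)).const_mul c).neg
  simpa [Psi2, sub_eq_add_neg] using this

lemma Psi3_mono (c r : ℝ) {v w : ℝ} (hv : 0 ≤ v) (hvw : v ≤ w) : Psi3 c r v ≤ Psi3 c r w :=
  integral_hh_mono_w hv hvw
    (((integrable_coord' (0 : Fin 3)).const_mul r).sub (integrable_rad'.const_mul c))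

lemma Psi2_mono (c r : ℝ) {v w : ℝ} (hv : 0 ≤ v) (hvw : v ≤ w) : Psi2 c r v ≤ Psi2 c r w :=
  integral_hh_mono_w hv hvw
    (((integrable_coord' (0 : Fin 2)).const_mul r).sub (integrable_rad'.const_mul c))

lemma integrable_WM' (c δ : ℝ) : Integrable (WM c δ) (gaussPi 3) := by
  have h2 : Integrable (fun y => y 2 ^ 2 / rad y) (gaussPi 3) := by
    refine Integrable.mono' integrable_rad' (((measurable_pi_apply 2).pow_const 2).div measurable_rad).aestronglyMeasurable
      (Filter.Eventually.of_forall fun y => ?_)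
    have hr : 0 ≤ rad y := by unfold rad; positivity
    rw [Real.norm_eq_abs, abs_of_nonneg (div_nonneg (sq_nonneg _) hr)]
    rcases eq_or_lt_of_le hr with h | h
    · simp [← h]
    · rw [div_le_iff₀ h]
      have : y 2 ^ 2 ≤ rad y * rad y := by
        unfold rad
        rw [mul_self_sqrt (by positivity)]
        exact Finset.single_le_sum (f := fun i => y i ^ 2) (fun i _ => sq_nonneg _)
          (Finset.mem_univ 2)
      linarith
  have := (integrable_rad' (n := 3)).const_mul c |>.sub (h2.const_mul δ)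
  unfold WM
  simp only [Pi.sub_def, mul_div_assoc] at this ⊢
  exact this

lemma PsiM_convex (c δ a w : ℝ) : ConvexOn ℝ Set.univ fun r => PsiM c δ r a w := by
  have := convexOn_integral_hh w (integrable_coord' (0 : Fin 3))
    (((integrable_coord' (2 : Fin 3)).const_mul a).sub (integrable_WM' c δ))
  simpa [PsiM, sub_eq_add_neg, add_assoc] using this

lemma PsiM_convex_a (c δ : ℝ) : ConvexOn ℝ Set.univ fun a => PsiM c δ 0 a 0 := by
  have := convexOn_integral_hh 0 (integrable_coord' (2 : Fin 3)) (integrable_WM' c δ).neg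
  simpa [PsiM, sub_eq_add_neg] using this

lemma PsiM_mono (c δ r a : ℝ) {v w : ℝ} (hv : 0 ≤ v) (hvw : v ≤ w) :
    PsiM c δ r a v ≤ PsiM c δ r a w :=
  integral_hh_mono_w hv hvw
    ((((integrable_coord' (0 : Fin 3)).const_mul r).add
      ((integrable_coord' (2 : Fin 3)).const_mul a)).sub (integrable_WM' c δ))

lemma PsiM_neg (c δ a : ℝ) : PsiM c δ 0 (-a) 0 = PsiM c δ 0 a 0 := by
  set e : Fin 3 → ℝ → ℝ := fun i => if i = 2 then fun x => -x else fun x => x with he
  have hm : (gaussPi 3).map (fun y i => e i (y i)) = gaussPi 3 := by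
    rw [Measure.pi_map_pi (fun i => by rw [he]; dsimp only; split <;> fun_prop)]
    congr 1
    funext i
    rw [he]; dsimp only
    split
    · simp [gaussianReal_map_neg]
    · simp
  unfold PsiM
  conv_lhs => rw [← hm]
  rw [integral_map]
  · congr 1
    funext y
    have h2 : e 2 (y 2) = -y 2 := by simp [he]
    have hs : rad (fun i => e i (y i)) = rad y := by
      unfold rad
      congr 1
      refine Finset.sum_congr rfl fun i _ => ?_
      rw [he]; dsimp only; split <;> simp
    simp only [WM, hs, h2, zero_mul, zero_add, neg_mul_neg, neg_sq]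
  · have hme : ∀ i, Measurable fun y : Fin 3 → ℝ => e i (y i) := fun i => by
      rw [he]; dsimp only; split
      · exact (measurable_pi_apply (X := fun _ : Fin 3 => ℝ) i).neg
      · exact measurable_pi_apply (X := fun _ : Fin 3 => ℝ) i
    exact (measurable_pi_lambda _ hme).aemeasurable
  · exact (integrable_hh_comp (μ := (gaussPi 3).map _) 0 (by
      rw [hm]
      exact (((integrable_coord' (0 : Fin 3)).const_mul 0).add
        ((integrable_coord' (2 : Fin 3)).const_mul (-a))).sub (integrable_WM' c δ))).1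

/-- monotonicity in `σ ≥ 0` of the fourth-cell term. -/
lemma PsiM_mono_a (c δ : ℝ) {x y : ℝ} (hx : 0 ≤ x) (hxy : x ≤ y) :
    PsiM c δ 0 x 0 ≤ PsiM c δ 0 y 0 := by
  rcases eq_or_lt_of_le (hx.trans hxy) with h | h
  · obtain rfl : x = y := by linarith
    exact le_rfl
  · have hw : x = ((1 - x / y) / 2) * (-y) + ((1 + x / y) / 2) * y := by field_simp; ring
    have hq : x / y ≤ 1 := by rw [div_le_one h]; exact hxy
    have hq0 : 0 ≤ x / y := div_nonneg hx h.le
    have := (PsiM_convex_a c δ).2 (Set.mem_univ (-y)) (Set.mem_univ y)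
      (show 0 ≤ (1 - x / y) / 2 by linarith) (show 0 ≤ (1 + x / y) / 2 by linarith)
      (show (1 - x / y) / 2 + (1 + x / y) / 2 = 1 by ring)
    simp only [smul_eq_mul, PsiM_neg] at this
    rw [← hw] at this
    linarith

end Vale.Agent.P226.Chk
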