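import Mathlib

/-! # P226: shared definitions for the Gaussian propeller proof -/

namespace Vale.Agent.P226

open MeasureTheory ProbabilityTheory Real

/-- `E (t + w U)^+` for a standard normal `U`. -/
noncomputable def hh (w t : ℝ) : ℝ := ∫ u, max (t + w * u) 0 ∂(gaussianReal 0 1)

/-- standard Gaussian measure on `Fin n → ℝ`. -/
noncomputable abbrev gaussPi (n : ℕ) : Measure (Fin n → ℝ) :=
  Measure.pi fun _ => gaussianReal 0 1

/-- Euclidean radius. -/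
noncomputable def rad {n : ℕ} (y : Fin n → ℝ) : ℝ := √(∑ i, y i ^ 2)

/-- `E (r Y₁ + w U - c |Y|)^+`, `Y` in dimension two. -/
noncomputable def Psi2 (c r w : ℝ) : ℝ :=
  ∫ y, hh w (r * y 0 - c * rad y) ∂(gaussPi 2)

/-- `E (r Y₁ + w U - c |Y|)^+`, `Y` in dimension three. -/
noncomputable def Psi3 (c r w : ℝ) : ℝ :=
  ∫ y, hh w (r * y 0 - c * rad y) ∂(gaussPi 3)

/-- the junction witness `W = c ρ - δ U² / ρ` on `(Y₁, Y₂, U)`. -/
noncomputable def WM (c δ : ℝ) (y : Fin 3 → ℝ) : ℝ := c * rad y - δ * y 2 ^ 2 / rad y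

/-- `E (r Y₁ + a U + w U' - W)^+` for the junction witness. -/
noncomputable def PsiM (c δ r a w : ℝ) : ℝ :=
  ∫ y, hh w (r * y 0 + a * y 2 - WM c δ y) ∂(gaussPi 3)

/-- `E |Y|` in dimension three. -/
noncomputable def m3 : ℝ := √(8 / π)

/-- `E |Y|` in dimension two. -/
noncomputable def m2 : ℝ := √(π / 2)

/-- `1 / √(2π)`. -/
noncomputable def t2 : ℝ := 1 / √(2 * π)

/-- `a √(a² + w²)`. -/
noncomputable def qq (w a : ℝ) : ℝ := a * √(a ^ 2 + w ^ 2)

/-- value of `Psi3 c 0 w` in units of `m3`. -/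
noncomputable def k0 (c w : ℝ) : ℝ := (√(c ^ 2 + w ^ 2) - c) ^ 2 / (4 * √(c ^ 2 + w ^ 2))

/-- antiderivative of the radial-slice kernel, in units of `m3`. -/
noncomputable def gK (w A : ℝ) : ℝ := (A ^ 2 + qq w A) / 4

/-- `(1/2) ∫_a^b K(r x - c) dx` in units of `m3`. -/
noncomputable def piece (w r c a b : ℝ) : ℝ :=
  (gK w (r * b - c) - gK w (r * a - c)) / (2 * r)

/-- one piece of a node: cut `[l, h]`, tangent point `x0`, node level `q`. -/
noncomputable def nodePiece (c δ p k2 w q l h x0 : ℝ) : ℝ :=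
  piece w (p - 2 * q * δ * x0 + δ * k2 * (l + h))
    (c - q * δ * (1 + x0 ^ 2) + δ * k2 * (l * h)) l h

/-- piecewise linear majorant of a node (fixed cuts -1, 3/10, 1/2, 7/10, 1). -/
noncomputable def nodeA (c δ p k2 w q : ℝ) : ℝ :=
  nodePiece c δ p k2 w q (-1) (3 / 10) (3 / 20)
    + nodePiece c δ p k2 w q (3 / 10) (1 / 2) (2 / 5)
    + nodePiece c δ p k2 w q (1 / 2) (7 / 10) (3 / 5)
    + nodePiece c δ p k2 w q (7 / 10) 1 (17 / 20)

/-- upper bound for `PsiM c δ r a w` with `a² = a2`, in units of `m3`. -/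
noncomputable def bigA (c δ r a2 w : ℝ) : ℝ :=
  (1 / π) * piece w (r + a2 / (2 * r)) (c - δ * (a2 / r ^ 2)) (-1) 1
    + (1 - 2 / π) * nodeA c δ (r + a2 / (2 * r)) (a2 / r ^ 2) w (1 / 2)
    + (1 / π) * nodeA c δ (r + a2 / (2 * r)) (a2 / r ^ 2) w 1
    + δ ^ 2 * (a2 / r ^ 2) / (4 * (r - 2 * δ))

end Vale.Agent.P226
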