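import Vale.Agent.P226.Defs

/-! # P226: interfaces between the modules (plain statements, proved in the modules) -/

namespace Vale.Agent.P226

open MeasureTheory ProbabilityTheory Real
open scoped RealInnerProductSpace

/-! ## Module B (Psi3) -/

def Psi3Eq : Prop := ∀ c r w : ℝ, 0 < c → 0 < r → 0 ≤ w →
  Psi3 c r w = m3 * (-c / 2 + (qq w (r - c) + qq w (r + c)) / (8 * r))

def Psi3Zero : Prop := ∀ c w : ℝ, 0 < c → 0 ≤ w → Psi3 c 0 w = m3 * k0 c w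

def Moments : Prop :=
  (∫ y, rad y ∂(gaussPi 3) = m3) ∧ (∫ y, rad y ∂(gaussPi 2) = m2) ∧
    (∫ y, y 2 ^ 2 / rad y ∂(gaussPi 3) = m3 / 3)

/-! ## Module C (Psi2) -/

def Psi2Le : Prop := ∀ c r w : ℝ, 0 < c → c ≤ r → 0 ≤ w →
  Psi2 c r w ≤ t2 * (√(r ^ 2 - c ^ 2 + w ^ 2) - c * arccos (c / r))

def Psi2Zero : Prop := ∀ c w : ℝ, 0 < c → 0 ≤ w →
  Psi2 c 0 w = t2 * (w - c * arctan (w / c))

def Psi2Junction : Prop := ∀ c w : ℝ, 0 < c → 0 ≤ w → w ≤ 2 * c →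
  Psi2 c c w ≤ t2 * (2 / 3 * w * √w / √(2 * c))

/-! ## Module D (PsiM) -/

def PsiMBig : Prop := ∀ c δ r a w : ℝ, 0 ≤ δ → 2 * δ ≤ c → 2 * δ < r → a ^ 2 ≤ r ^ 2 → 0 ≤ w →
  PsiM c δ r a w ≤ m3 * bigA c δ r (a ^ 2) w

def PsiMFour : Prop := ∀ c δ σ T : ℝ, 0 ≤ δ → 2 * δ ≤ c → 0 ≤ σ → 0 ≤ T → T ≤ 1 →
  0 ≤ σ * T - c + δ * T ^ 2 →
  PsiM c δ 0 σ 0 ≤ m3 * ((T * (σ * T - c + δ * T ^ 2)
    + ((σ / 2 - c + δ / 3) - (σ * T ^ 2 / 2 - c * T + δ * T ^ 3 / 3))) / 2)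

def PsiMSmall : Prop := ∀ c δ w : ℝ, 0 ≤ δ → 2 * δ ≤ c → 0 < c - δ → 0 ≤ w →
  PsiM c δ 0 0 w ≤ m3 * (√2 / 3 * k0 c w + (4 / 3 - 2 * √2 / 3) * k0 (c - δ / 2) w
    + (√2 / 3 - 1 / 3) * k0 (c - δ) w)

/-! ## Module A (Core) -/

/-- `E max_i ⟨z_i, X⟩`. -/
noncomputable def emax {k : ℕ} [NeZero k] {n : ℕ} (z : Fin k → EuclideanSpace ℝ (Fin n)) : ℝ :=
  ∫ x, (Finset.univ.sup' Finset.univ_nonempty fun i => ⟪z i, x⟫)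
    ∂(stdGaussian (EuclideanSpace ℝ (Fin n)))

/-- a configuration after merging, sorted by decreasing norm and padded. -/
structure Admissible {k n : ℕ} (z : Fin (k + 4) → EuclideanSpace ℝ (Fin n)) : Prop where
  dim : 5 ≤ n
  sum_zero : ∑ i, z i = 0
  obtuse : ∀ i j, i ≠ j → ⟪z i, z j⟫ ≤ 0
  sorted : ∀ i j, i ≤ j → ‖z j‖ ≤ ‖z i‖

/-- sum of squares of the cells with index `≥ m`. -/
noncomputable def tailSq {k n : ℕ} (z : Fin (k + 4) → EuclideanSpace ℝ (Fin n)) (m : ℕ) : ℝ :=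
  ∑ i : Fin (k + 4), if m ≤ (i : ℕ) then ‖z i‖ ^ 2 else 0

/-- per-cell term: the first `m` cells get the out-of-plane variance `T / m²`. -/
noncomputable def bigTerm (F : ℝ → ℝ → ℝ) (v τ : ℝ) : ℝ :=
  F (√(v - min v τ)) (√(min v τ))

def Witness3 : Prop := ∀ (k n : ℕ) (z : Fin (k + 4) → EuclideanSpace ℝ (Fin n)),
  Admissible z → ∀ c : ℝ, 0 < c →
    emax z ≤ c * m3 + ∑ i : Fin (k + 4), (if (i : ℕ) < 4 then bigTerm (Psi3 c) (‖z i‖ ^ 2) (tailSq z 4 / 16)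
      else Psi3 c 0 ‖z i‖)

def Witness2 : Prop := ∀ (k n : ℕ) (z : Fin (k + 4) → EuclideanSpace ℝ (Fin n)),
  Admissible z → ∀ c : ℝ, 0 < c →
    emax z ≤ c * m2 + ∑ i : Fin (k + 4), (if (i : ℕ) < 3 then bigTerm (Psi2 c) (‖z i‖ ^ 2) (tailSq z 3 / 9)
      else Psi2 c 0 ‖z i‖)

def WitnessM : Prop := ∀ (k n : ℕ) (z : Fin (k + 4) → EuclideanSpace ℝ (Fin n)),
  Admissible z → ∀ c δ : ℝ, 0 ≤ δ → 2 * δ ≤ c → 0 < c →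
    ∃ a : Fin (k + 4) → ℝ, (∀ i, a i ^ 2 ≤ min (‖z i‖ ^ 2) (tailSq z 3 / 9)) ∧
    emax z ≤ (c - δ / 3) * m3 + ∑ i : Fin (k + 4), (if (i : ℕ) < 3 then
        bigTerm (fun r w => PsiM c δ r (a i) (√(w ^ 2 - a i ^ 2))) (‖z i‖ ^ 2) (tailSq z 3 / 9)
      else if (i : ℕ) = 3 then PsiM c δ 0 ‖z i‖ 0 else PsiM c δ 0 0 ‖z i‖)

/-! ## Module E (Certificate) -/

/-- the normalised bound proved by the certificate. -/
def EmaxBound : Prop := ∀ (k n : ℕ) (z : Fin (k + 4) → EuclideanSpace ℝ (Fin n)),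
  Admissible z → ∑ i, ‖z i‖ ^ 2 = 3 → emax z ≤ 3 * √3 / (2 * √(2 * π))

end Vale.Agent.P226
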