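import Vale.Agent.P226.Slice
import Vale.Agent.P226.Interface

/-! # P226 module B: closed forms for `Psi3` and first moments -/

namespace Vale.Agent.P226

open MeasureTheory ProbabilityTheory Real Set Filter Topology
open scoped ENNReal

theorem hasDerivAt_qq (w A : ℝ) :
    HasDerivAt (qq w) ((2 * A ^ 2 + w ^ 2) / √(A ^ 2 + w ^ 2)) A := by
  by_cases h : A ^ 2 + w ^ 2 = 0
  · have hA : A = 0 := by nlinarith [sq_nonneg A, sq_nonneg w]
    have hw : w = 0 := by nlinarith [sq_nonneg A, sq_nonneg w]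
    subst hA hw
    rw [hasDerivAt_iff_tendsto_slope]
    have h0 : Tendsto (fun x : ℝ => √(x ^ 2 + 0 ^ 2)) (𝓝[≠] 0) (𝓝 0) :=
      ((by fun_prop : Continuous fun x : ℝ => √(x ^ 2 + 0 ^ 2)).tendsto' 0 0 (by simp)).mono_left
        nhdsWithin_le_nhds
    simp only [ne_eq, OfNat.ofNat_ne_zero, not_false_eq_true, zero_pow, mul_zero, add_zero,
      zero_div] at h0 ⊢
    refine h0.congr' ?_
    filter_upwards [self_mem_nhdsWithin] with x hx
    have hx0 : x ≠ 0 := hx
    simp [slope_def_field, qq]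
    field_simp
  · have hpos : 0 < A ^ 2 + w ^ 2 := lt_of_le_of_ne (by positivity) (Ne.symm h)
    have hs : √(A ^ 2 + w ^ 2) ^ 2 = A ^ 2 + w ^ 2 := Real.sq_sqrt hpos.le
    have hd := (hasDerivAt_id A).mul (((hasDerivAt_pow 2 A).add_const (w ^ 2)).sqrt h)
    refine hd.congr_deriv ?_
    have : 0 < √(A ^ 2 + w ^ 2) := Real.sqrt_pos.2 hpos
    simp only [id_eq, Nat.cast_ofNat, Nat.add_one_sub_one, pow_one]
    field_simp
    linear_combination hs

theorem hasDerivAt_gK (w A : ℝ) : HasDerivAt (gK w) (KK w A) A := by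
  have h := (((hasDerivAt_pow 2 A).add (hasDerivAt_qq w A)).div_const 4)
  refine h.congr_deriv ?_
  simp only [KK, Nat.cast_ofNat, Nat.add_one_sub_one, pow_one]
  ring

theorem integral_KK_affine {r : ℝ} (hr : r ≠ 0) (w c l h : ℝ) :
    ∫ x in l..h, KK w (r * x - c) = 2 * piece w r c l h := by
  have hd : ∀ x ∈ uIcc l h, HasDerivAt (fun x => gK w (r * x - c) / r) (KK w (r * x - c)) x := by
    intro x _
    have h1 := ((hasDerivAt_gK w (r * x - c)).comp x
      (((hasDerivAt_id x).const_mul r).sub_const c)).div_const r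
    refine h1.congr_deriv ?_
    field_simp
  rw [intervalIntegral.integral_eq_sub_of_hasDerivAt hd
    (((continuous_KK w).comp (by fun_prop)).intervalIntegrable _ _), piece]
  field_simp

theorem KK_neg_k0 {c w : ℝ} (hc : 0 < c) : KK w (-c) = k0 c w := by
  unfold KK k0
  have hs : √(c ^ 2 + w ^ 2) ^ 2 = c ^ 2 + w ^ 2 := Real.sq_sqrt (by positivity)
  have hp : 0 < √(c ^ 2 + w ^ 2) := Real.sqrt_pos.2 (by nlinarith [sq_nonneg w])
  rw [neg_sq]
  field_simp
  linear_combination (-2 : ℝ) * hs

theorem continuous_rad {n : ℕ} : Continuous (rad : (Fin n → ℝ) → ℝ) := by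
  unfold rad; fun_prop

theorem psi3_slice (c r : ℝ) {w : ℝ} (hw : 0 ≤ w) :
    Psi3 c r w = m3 / 2 * ∫ x in (-1:ℝ)..1, KK w (r * x - c) := by
  have hA : ∀ x θ : ℝ, sph x θ 0 = x := fun x θ => rfl
  rw [Psi3, slice_hh hw (A := fun y => r * y 0 - c * rad y)]
  · have : EqOn (fun x => ∫ θ in (-π)..π, KK w (r * sph x θ 0 - c * rad (sph x θ)))
        (fun x => 2 * π * KK w (r * x - c)) (uIcc (-1:ℝ) 1) := by
      intro x hx
      rw [uIcc_of_le (by norm_num)] at hx
      simp only [hA, rad_sph hx, mul_one, intervalIntegral.integral_const, smul_eq_mul]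
      ring
    rw [intervalIntegral.integral_congr this, intervalIntegral.integral_const_mul]
    field_simp
    ring
  · exact ((measurable_pi_apply (0 : Fin 3)).const_mul r).sub (continuous_rad.measurable.const_mul c)
  · intro ρ x θ hρ _
    simp only [Pi.smul_apply, smul_eq_mul, rad_smul hρ.le]
    ring
  · simp only [hA]
    exact (continuous_const.mul continuous_fst).sub
      (continuous_const.mul (continuous_rad.comp continuous_sph))

theorem psi3Eq : Psi3Eq := by
  intro c r w _ hr hw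
  rw [psi3_slice c r hw, integral_KK_affine hr.ne', piece, gK, gK, qq, qq, qq, qq,
    show r * (-1) - c = -(r + c) by ring, mul_one, neg_sq]
  field_simp
  ring

theorem psi3Zero : Psi3Zero := by
  intro c w hc hw
  rw [psi3_slice c 0 hw]
  simp only [zero_mul, zero_sub, KK_neg_k0 hc, intervalIntegral.integral_const, smul_eq_mul]
  ring

theorem rad_nonneg {n : ℕ} (y : Fin n → ℝ) : 0 ≤ rad y := Real.sqrt_nonneg _

theorem moment_three : ∫ y, rad y ∂(gaussPi 3) = m3 := by
  have e : ∀ y : Fin 3 → ℝ, rad y = hh 0 (rad y) := fun y => by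
    rw [hh_zero, max_eq_left (rad_nonneg y)]
  rw [integral_congr_ae (ae_of_all _ e), slice_hh le_rfl continuous_rad.measurable
    (fun ρ x θ hρ _ => rad_smul hρ.le _) (continuous_rad.comp continuous_sph)]
  have : EqOn (fun x => ∫ θ in (-π)..π, KK 0 (rad (sph x θ))) (fun _ => 2 * π)
      (uIcc (-1:ℝ) 1) := by
    intro x hx
    rw [uIcc_of_le (by norm_num)] at hx
    simp [KK_zero_w, rad_sph hx]
    ring
  rw [intervalIntegral.integral_congr this, intervalIntegral.integral_const, smul_eq_mul]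
  field_simp
  ring

theorem continuous_sq_div_rad_sph :
    Continuous fun p : ℝ × ℝ => sph p.1 p.2 2 ^ 2 / rad (sph p.1 p.2) :=
  (((continuous_apply 2).comp continuous_sph).pow 2).div (continuous_rad.comp continuous_sph)
    fun p => by linarith [one_le_rad_sph p.1 p.2]

theorem moment_sq : ∫ y, y 2 ^ 2 / rad y ∂(gaussPi 3) = m3 / 3 := by
  have hn : ∀ y : Fin 3 → ℝ, 0 ≤ y 2 ^ 2 / rad y := fun y => by
    have := rad_nonneg y; positivity
  have e : ∀ y : Fin 3 → ℝ, y 2 ^ 2 / rad y = hh 0 (y 2 ^ 2 / rad y) := fun y => by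
    rw [hh_zero, max_eq_left (hn y)]
  rw [integral_congr_ae (ae_of_all _ e), slice_hh le_rfl (A := fun y => y 2 ^ 2 / rad y)
    (((measurable_pi_apply (2 : Fin 3)).pow_const 2).div continuous_rad.measurable) ?_
    continuous_sq_div_rad_sph]
  · have : EqOn (fun x => ∫ θ in (-π)..π, KK 0 (sph x θ 2 ^ 2 / rad (sph x θ)))
        (fun x => π * (1 - x ^ 2)) (uIcc (-1:ℝ) 1) := by
      intro x hx
      rw [uIcc_of_le (by norm_num)] at hx
      have hx2 : 0 ≤ 1 - x ^ 2 := by nlinarith [hx.1, hx.2]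
      have e2 : ∀ θ, KK 0 (sph x θ 2 ^ 2 / rad (sph x θ)) = (1 - x ^ 2) * sin θ ^ 2 := fun θ => by
        rw [KK_zero_w, max_eq_left (hn _), rad_sph hx, div_one]
        simp [sph, mul_pow, Real.sq_sqrt hx2]
      simp only [e2, intervalIntegral.integral_const_mul, integral_sin_sq]
      simp
      ring
    rw [intervalIntegral.integral_congr this, intervalIntegral.integral_const_mul,
      intervalIntegral.integral_sub intervalIntegrable_const
        ((continuous_pow 2).intervalIntegrable _ _), integral_pow,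
      intervalIntegral.integral_const, smul_eq_mul]
    field_simp
    ring
  · intro ρ x θ hρ _
    simp only [Pi.smul_apply, smul_eq_mul, rad_smul hρ.le]
    field_simp

theorem moment_two : ∫ y, rad y ∂(gaussPi 2) = m2 := by
  have hv : Measurable fun p : ℝ × ℝ => (![p.1, p.2] : Fin 2 → ℝ) := by
    refine measurable_pi_lambda _ fun i => ?_
    fin_cases i <;> simp <;> fun_prop
  have hr : Measurable fun p : ℝ × ℝ => ENNReal.ofReal (rad ![p.1, p.2]) :=
    (continuous_rad.measurable.comp hv).ennreal_ofReal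
  rw [integral_eq_lintegral_of_nonneg_ae (ae_of_all _ rad_nonneg)
    continuous_rad.aestronglyMeasurable,
    lintegral_gaussPi_two continuous_rad.measurable.ennreal_ofReal, lintegral_γ_prod hr,
    polar_lintegral (f := fun p : ℝ × ℝ =>
      ENNReal.ofReal (phi p.1 * phi p.2) * ENNReal.ofReal (rad ![p.1, p.2]))
      ((Measurable.ennreal_ofReal (by fun_prop)).mul hr)]
  have h0 := radial (w := 1) zero_le_one 0
  have hK : KK 1 0 = 1 / 4 := by simp [KK]
  simp only [mul_zero, hh_at_zero zero_le_one, one_mul, hK] at h0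
  have ht2 : 0 < t2 := by unfold t2; positivity
  have hi : IntegrableOn (fun x : ℝ => x ^ 2 * exp (-x ^ 2 / 2)) (Ioi 0) := by
    have := h0.1.mul_const t2⁻¹
    refine IntegrableOn.congr_fun this (fun x _ => ?_) measurableSet_Ioi
    field_simp
  have hval : ∫ x in Ioi (0:ℝ), x ^ 2 * exp (-x ^ 2 / 2) = √(2 * π) / 2 := by
    have := h0.2
    rw [integral_mul_const] at this
    rw [t2] at this ht2
    field_simp at this ⊢
    linarith
  have inner : ∀ s ∈ Ioi (0:ℝ), ∫⁻ θ in Ioo (-π) π, ENNReal.ofReal s *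
      ((fun p : ℝ × ℝ => ENNReal.ofReal (phi p.1 * phi p.2) * ENNReal.ofReal (rad ![p.1, p.2]))
        (s * cos θ, s * sin θ))
      = ENNReal.ofReal (s ^ 2 * exp (-s ^ 2 / 2)) := by
    intro s hs
    have hs' : (0:ℝ) ≤ s := le_of_lt hs
    have e : ∀ θ : ℝ, ENNReal.ofReal s *
        (ENNReal.ofReal (phi (s * cos θ) * phi (s * sin θ)) *
          ENNReal.ofReal (rad ![s * cos θ, s * sin θ]))
        = ENNReal.ofReal ((2 * π)⁻¹ * (s ^ 2 * exp (-s ^ 2 / 2))) := by
      intro θ
      have hrad : rad ![s * cos θ, s * sin θ] = s := by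
        rw [rad, Fin.sum_univ_two]
        simp only [Matrix.cons_val_zero, Matrix.cons_val_one, mul_pow]
        rw [← mul_add, Real.cos_sq_add_sin_sq, mul_one, Real.sqrt_sq hs']
      rw [hrad, ← ENNReal.ofReal_mul (mul_nonneg (phi_nonneg _) (phi_nonneg _)),
        ← ENNReal.ofReal_mul hs']
      congr 1
      unfold phi
      have he : exp (-(s * cos θ) ^ 2 / 2) * exp (-(s * sin θ) ^ 2 / 2) = exp (-s ^ 2 / 2) := by
        rw [← Real.exp_add]
        congr 1
        linear_combination (-(s ^ 2 / 2)) * Real.sin_sq_add_cos_sq θ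
      have hsq : (√(2 * π))⁻¹ * (√(2 * π))⁻¹ = (2 * π)⁻¹ := by
        rw [← mul_inv, Real.mul_self_sqrt (by positivity)]
      linear_combination ((√(2 * π))⁻¹ * (√(2 * π))⁻¹ * s ^ 2) * he +
        (s ^ 2 * exp (-s ^ 2 / 2)) * hsq
    simp only [e, setLIntegral_const, Real.volume_Ioo]
    rw [← ENNReal.ofReal_mul (by positivity)]
    congr 1
    field_simp
    ring
  rw [setLIntegral_congr_fun measurableSet_Ioi inner, ← ofReal_integral_eq_lintegral_ofReal hi
    (ae_of_all _ fun x => by positivity), ENNReal.toReal_ofReal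
    (integral_nonneg fun x => by positivity), hval, m2,
    Real.sqrt_mul (by norm_num : (0:ℝ) ≤ 2), Real.sqrt_div' _ two_pos.le]
  have h2 : √2 * √2 = 2 := Real.mul_self_sqrt (by norm_num)
  field_simp
  linear_combination h2

theorem moments : Moments := ⟨moment_three, moment_two, moment_sq⟩

end Vale.Agent.P226
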