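import Vale.Agent.P226.Base

/-! # P226: spherical slicing of three dimensional Gaussian integrals -/

namespace Vale.Agent.P226

open MeasureTheory ProbabilityTheory Real Set Filter Topology
open scoped ENNReal


/-- `E (ρ A + w U)^+` in units of `E ρ`, `ρ` chi distributed with three degrees of freedom. -/
noncomputable def KK (w A : ℝ) : ℝ := A / 2 + (2 * A ^ 2 + w ^ 2) / (4 * √(A ^ 2 + w ^ 2))

theorem KK_zero_w (A : ℝ) : KK 0 A = max A 0 := by
  unfold KK
  simp only [ne_eq, OfNat.ofNat_ne_zero, not_false_eq_true, zero_pow, add_zero, Real.sqrt_sq_eq_abs]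
  rcases le_total 0 A with h | h
  · rw [abs_of_nonneg h, max_eq_left h]
    rcases h.eq_or_lt with h | h
    · simp [← h]
    · field_simp; ring
  · rw [abs_of_nonpos h, max_eq_right h]
    rcases h.eq_or_lt with h | h
    · simp [h]
    · field_simp; ring

theorem tendsto_sq_exp : Tendsto (fun x : ℝ => (x ^ 2 + 2) * exp (-x ^ 2 / 2)) atTop (𝓝 0) := by
  have hu : Tendsto (fun x : ℝ => x ^ 2 / 2) atTop atTop :=
    (tendsto_pow_atTop two_ne_zero).atTop_div_const two_pos
  have h0 : Tendsto (fun u : ℝ => 2 * (u ^ 1 * exp (-u)) + 2 * (u ^ 0 * exp (-u))) atTop (𝓝 0) := by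
    simpa using ((tendsto_pow_mul_exp_neg_atTop_nhds_zero 1).const_mul 2).add
      ((tendsto_pow_mul_exp_neg_atTop_nhds_zero 0).const_mul 2)
  refine (h0.comp hu).congr fun x => ?_
  simp only [Function.comp_apply, pow_one, pow_zero, one_mul, neg_div]
  ring

theorem tendsto_bdd_mul_sq_exp {f : ℝ → ℝ} (hf : ∀ x, |f x| ≤ 1) :
    Tendsto (fun x : ℝ => (x ^ 2 + 2) * exp (-x ^ 2 / 2) * f x) atTop (𝓝 0) := by
  refine squeeze_zero_norm (fun x => ?_) tendsto_sq_exp
  rw [norm_mul, Real.norm_eq_abs, Real.norm_eq_abs, abs_of_nonneg (by positivity)]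
  exact mul_le_of_le_one_right (by positivity) (hf x)

/-- the radial integral along a ray. -/
theorem radial {w : ℝ} (hw : 0 ≤ w) (A : ℝ) :
    IntegrableOn (fun x : ℝ => x ^ 2 * exp (-x ^ 2 / 2) * hh w (x * A)) (Ioi 0) ∧
      ∫ x in Ioi (0:ℝ), x ^ 2 * exp (-x ^ 2 / 2) * hh w (x * A) = 2 * KK w A := by
  have hpos : ∀ x ∈ Ioi (0:ℝ), 0 ≤ x ^ 2 * exp (-x ^ 2 / 2) * hh w (x * A) := fun x _ =>
    mul_nonneg (by positivity) (hh_nonneg _ _)
  rcases hw.eq_or_lt with rfl | hw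
  · -- degenerate slice
    set g : ℝ → ℝ := fun x => -(max A 0) * ((x ^ 2 + 2) * exp (-x ^ 2 / 2)) with hg
    have hd : ∀ x ∈ Ici (0:ℝ), HasDerivAt g (x ^ 2 * exp (-x ^ 2 / 2) * hh 0 (x * A)) x := by
      intro x hx
      have h := (((hasDerivAt_pow 2 x).add_const 2).mul
        ((hasDerivAt_pow 2 x).neg.div_const 2).exp).const_mul (-(max A 0))
      refine h.congr_deriv ?_
      have : max (x * A) 0 = x * max A 0 := by rw [mul_max_of_nonneg _ _ hx, mul_zero]
      simp only [hh_zero, this, Pi.neg_apply, Nat.cast_ofNat, Nat.add_one_sub_one, pow_one]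
      ring
    have hl : Tendsto g atTop (𝓝 0) := by simpa [hg] using tendsto_sq_exp.const_mul (-(max A 0))
    refine ⟨integrableOn_Ioi_deriv_of_nonneg' hd hpos hl, ?_⟩
    rw [integral_Ioi_of_hasDerivAt_of_nonneg' hd hpos hl, KK_zero_w]
    simp [hg]
    ring
  · set a := A / w with ha
    set b := √(1 + a ^ 2) with hb
    have hb0 : 0 < b := Real.sqrt_pos.2 (by positivity)
    have hb2 : b ^ 2 = 1 + a ^ 2 := Real.sq_sqrt (by positivity)
    set g : ℝ → ℝ := fun x => w * (-a * ((x ^ 2 + 2) * exp (-x ^ 2 / 2) * Phi (a * x))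
      - x * phi (b * x) + (1 + 2 * a ^ 2) / b * Phi (b * x)) with hg
    have hd : ∀ x ∈ Ici (0:ℝ), HasDerivAt g (x ^ 2 * exp (-x ^ 2 / 2) * hh w (x * A)) x := by
      intro x _
      have e1 := (((hasDerivAt_pow 2 x).add_const 2).mul
        ((hasDerivAt_pow 2 x).neg.div_const 2).exp).mul
        ((hasDerivAt_Phi (a * x)).comp x ((hasDerivAt_id x).const_mul a))
      have e2 := (hasDerivAt_id x).mul
        ((hasDerivAt_phi (b * x)).comp x ((hasDerivAt_id x).const_mul b))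
      have e3 := (hasDerivAt_Phi (b * x)).comp x ((hasDerivAt_id x).const_mul b)
      have h := (((e1.const_mul (-a)).sub e2).add (e3.const_mul ((1 + 2 * a ^ 2) / b))).const_mul w
      refine h.congr_deriv ?_
      have key : exp (-x ^ 2 / 2) * phi (a * x) = phi (b * x) := by
        unfold phi
        rw [mul_left_comm, ← Real.exp_add]
        congr 2
        linear_combination (x ^ 2 / 2) * hb2
      have hA : x * A / w = a * x := by rw [ha]; ring
      have hA2 : A = w * a := by rw [ha, mul_div_cancel₀ _ hw.ne']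
      simp only [hh_eq hw, hA, Function.comp_apply, id_eq, Pi.mul_apply, Pi.neg_apply, mul_one,
        Nat.cast_ofNat, Nat.add_one_sub_one, pow_one]
      rw [hA2]
      linear_combination (norm := (field_simp; ring))
        (-w * (a ^ 2 * (x ^ 2 + 2) + x ^ 2)) * key + (w * x ^ 2 * phi (b * x)) * hb2
    have hl : Tendsto g atTop (𝓝 (w * ((1 + 2 * a ^ 2) / b))) := by
      have t1 : Tendsto (fun x => (x ^ 2 + 2) * exp (-x ^ 2 / 2) * Phi (a * x)) atTop (𝓝 0) :=
        tendsto_bdd_mul_sq_exp (f := fun x => Phi (a * x)) fun x => by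
          rw [abs_of_nonneg (Phi_nonneg _)]; exact Phi_le_one _
      have t2' : Tendsto (fun x => x * phi (b * x)) atTop (𝓝 0) := by
        refine squeeze_zero_norm (fun x => ?_) tendsto_sq_exp
        rw [norm_mul, Real.norm_eq_abs, Real.norm_eq_abs, abs_of_nonneg (phi_nonneg _)]
        refine mul_le_mul (by nlinarith [abs_nonneg x, sq_abs x, sq_nonneg (|x| - 1)]) ?_
          (phi_nonneg _) (by positivity)
        unfold phi
        refine mul_le_of_le_one_of_le (inv_le_one_of_one_le₀ (Real.one_le_sqrt.2 ?_))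
          (Real.exp_le_exp.2 ?_) (exp_pos _).le
        · nlinarith [Real.two_le_pi]
        · rw [mul_pow, hb2]; nlinarith [sq_nonneg (a * x)]
      have t3 : Tendsto (fun x => Phi (b * x)) atTop (𝓝 1) :=
        tendsto_Phi_atTop.comp (tendsto_id.const_mul_atTop hb0)
      simpa [hg] using ((((t1.const_mul (-a)).sub t2').add
        (t3.const_mul ((1 + 2 * a ^ 2) / b))).const_mul w)
    refine ⟨integrableOn_Ioi_deriv_of_nonneg' hd hpos hl, ?_⟩
    rw [integral_Ioi_of_hasDerivAt_of_nonneg' hd hpos hl]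
    have hs : √(A ^ 2 + w ^ 2) = w * b := by
      rw [hb, ← Real.sqrt_sq hw.le, ← Real.sqrt_mul (sq_nonneg w), Real.sqrt_sq hw.le, ha]
      congr 1
      field_simp
      ring
    simp only [hg, KK, hs, mul_zero, Phi_zero, zero_mul, zero_pow two_ne_zero, neg_zero, zero_div,
      Real.exp_zero]
    rw [ha]
    field_simp
    ring
where
  mul_le_of_le_one_of_le {p q r : ℝ} (hp : p ≤ 1) (hq : q ≤ r) (hq0 : 0 ≤ q) : p * q ≤ r :=
    (mul_le_of_le_one_left hq0 hp).trans hq

theorem KK_nonneg {w : ℝ} (hw : 0 ≤ w) (A : ℝ) : 0 ≤ KK w A := by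
  have h := setIntegral_nonneg (μ := volume) measurableSet_Ioi
    (f := fun x : ℝ => x ^ 2 * exp (-x ^ 2 / 2) * hh w (x * A))
    (fun x (_ : x ∈ Ioi (0:ℝ)) => mul_nonneg (by positivity) (hh_nonneg _ _))
  rw [(radial hw A).2] at h
  linarith

theorem continuous_KK (w : ℝ) : Continuous (KK w) := by
  rcases eq_or_ne w 0 with rfl | hw
  · rw [funext KK_zero_w]; fun_prop
  · unfold KK
    refine (continuous_id.div_const 2).add (Continuous.div (by fun_prop) (by fun_prop) fun A => ?_)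
    have : 0 < A ^ 2 + w ^ 2 := by positivity
    positivity

/-- point of the unit sphere. -/
noncomputable def sph (x θ : ℝ) : Fin 3 → ℝ := ![x, √(1 - x ^ 2) * cos θ, √(1 - x ^ 2) * sin θ]

theorem continuous_sph : Continuous fun p : ℝ × ℝ => sph p.1 p.2 := by
  refine continuous_pi fun i => ?_
  fin_cases i <;> simp [sph] <;> fun_prop

theorem rad_sph {x : ℝ} (hx : x ∈ Icc (-1:ℝ) 1) (θ : ℝ) : rad (sph x θ) = 1 := by
  have h : 0 ≤ 1 - x ^ 2 := by nlinarith [hx.1, hx.2]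
  have : ∑ i, sph x θ i ^ 2 = 1 := by
    simp only [Fin.sum_univ_three, sph, Matrix.cons_val_zero, Matrix.cons_val_one,
      Matrix.cons_val, mul_pow, Real.sq_sqrt h]
    linear_combination (1 - x ^ 2) * Real.sin_sq_add_cos_sq θ
  rw [rad, this, Real.sqrt_one]

theorem one_le_rad_sph (x θ : ℝ) : 1 ≤ rad (sph x θ) := by
  by_cases hx : x ∈ Icc (-1:ℝ) 1
  · rw [rad_sph hx]
  · refine Real.one_le_sqrt.2 ?_
    have h0 : x ^ 2 ≤ ∑ i, sph x θ i ^ 2 :=
      Finset.single_le_sum (f := fun i => sph x θ i ^ 2) (fun i _ => sq_nonneg _)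
        (Finset.mem_univ 0)
    rw [mem_Icc, not_and_or, not_le, not_le] at hx
    rcases hx with hx | hx <;> nlinarith

theorem rad_smul {n : ℕ} {a : ℝ} (ha : 0 ≤ a) (y : Fin n → ℝ) : rad (a • y) = a * rad y := by
  simp only [rad, Pi.smul_apply, smul_eq_mul, mul_pow, ← Finset.mul_sum]
  rw [Real.sqrt_mul (sq_nonneg a), Real.sqrt_sq ha]

theorem lintegral_γ {f : ℝ → ℝ≥0∞} (hf : Measurable f) :
    ∫⁻ u, f u ∂(gaussianReal 0 1) = ∫⁻ u, ENNReal.ofReal (phi u) * f u := by
  rw [gaussianReal_of_var_ne_zero _ one_ne_zero,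
    lintegral_withDensity_eq_lintegral_mul _ (measurable_gaussianPDF _ _) hf, phi_eq_pdf]
  rfl

theorem lintegral_γ_prod {f : ℝ × ℝ → ℝ≥0∞} (hf : Measurable f) :
    ∫⁻ p, f p ∂(((gaussianReal 0 1)).prod (gaussianReal 0 1)) = ∫⁻ p : ℝ × ℝ, ENNReal.ofReal (phi p.1 * phi p.2) * f p := by
  rw [lintegral_prod _ hf.aemeasurable, lintegral_γ hf.lintegral_prod_right',
    Measure.volume_eq_prod, lintegral_prod _ (Measurable.aemeasurable (by fun_prop))]
  refine lintegral_congr fun a => ?_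
  rw [lintegral_γ (by fun_prop), ← lintegral_const_mul _ (by fun_prop)]
  refine lintegral_congr fun b => ?_
  rw [ENNReal.ofReal_mul (phi_nonneg a), mul_assoc]

theorem polar_lintegral {f : ℝ × ℝ → ℝ≥0∞} (hf : Measurable f) :
    ∫⁻ p, f p = ∫⁻ s in Ioi (0:ℝ), ∫⁻ θ in Ioo (-π) π,
      ENNReal.ofReal s * f (s * cos θ, s * sin θ) := by
  rw [← lintegral_comp_polarCoord_symm f, polarCoord_target, Measure.volume_eq_prod,
    ← Measure.prod_restrict,
    lintegral_prod _ (Measurable.aemeasurable (by simp only [polarCoord_symm_apply]; fun_prop))]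
  simp [polarCoord_symm_apply]

theorem lintegral_gaussPi_two {g : (Fin 2 → ℝ) → ℝ≥0∞} (hg : Measurable g) :
    ∫⁻ y, g y ∂(gaussPi 2) = ∫⁻ p, g ![p.1, p.2] ∂(((gaussianReal 0 1)).prod (gaussianReal 0 1)) := by
  have h := (measurePreserving_finTwoArrow (gaussianReal 0 1)).symm
  rw [← h.lintegral_comp hg]
  refine lintegral_congr fun p => ?_
  congr 1

theorem lintegral_gaussPi_three {g : (Fin 3 → ℝ) → ℝ≥0∞} (hg : Measurable g) :
    ∫⁻ y, g y ∂(gaussPi 3) = ∫⁻ q, g ![q.1, q.2.1, q.2.2] ∂(((gaussianReal 0 1)).prod (((gaussianReal 0 1)).prod (gaussianReal 0 1))) := by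
  have h1 : MeasurePreserving
      (Prod.map id MeasurableEquiv.finTwoArrow ∘ MeasurableEquiv.piFinSuccAbove (fun _ => ℝ) 0)
      (gaussPi 3) (((gaussianReal 0 1)).prod (((gaussianReal 0 1)).prod (gaussianReal 0 1))) :=
    ((MeasurePreserving.id (gaussianReal 0 1)).prod (measurePreserving_finTwoArrow (gaussianReal 0 1))).comp
      (measurePreserving_piFinSuccAbove (fun _ : Fin 3 => (gaussianReal 0 1)) 0)
  have hv : Measurable fun q : ℝ × ℝ × ℝ => (![q.1, q.2.1, q.2.2] : Fin 3 → ℝ) := by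
    refine measurable_pi_lambda _ fun i => ?_
    fin_cases i <;> simp <;> fun_prop
  rw [← h1.lintegral_comp (f := fun q => g ![q.1, q.2.1, q.2.2]) (hg.comp hv)]
  refine lintegral_congr fun y => ?_
  congr 1
  funext i
  fin_cases i <;> simp [MeasurableEquiv.piFinSuccAbove, MeasurableEquiv.finTwoArrow,
    MeasurableEquiv.piFinTwo, Fin.insertNthEquiv, Fin.tail]

theorem cos_pos_iff_mem {α : ℝ} (hα : α ∈ Ioo (-π) π) :
    0 < cos α ↔ α ∈ Ioo (-(π / 2)) (π / 2) := by
  refine ⟨fun h => ?_, Real.cos_pos_of_mem_Ioo⟩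
  by_contra hn
  rw [mem_Ioo, not_and_or, not_lt, not_lt] at hn
  have := Real.pi_pos
  rcases hn with hn | hn
  · rw [← Real.cos_neg] at h
    exact absurd h (not_lt.2 (Real.cos_nonpos_of_pi_div_two_le_of_le (by linarith)
      (by linarith [hα.1])))
  · exact absurd h (not_lt.2 (Real.cos_nonpos_of_pi_div_two_le_of_le hn (by linarith [hα.2])))

theorem setLIntegral_Ioi_cos {f : ℝ → ℝ → ℝ≥0∞} (ρ : ℝ) (hρ : 0 < ρ) :
    ∫⁻ α in Ioo (-π) π, (Ioi (0:ℝ)).indicator (fun s => f s α) (ρ * cos α) =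
      ∫⁻ α in Ioo (-(π / 2)) (π / 2), f (ρ * cos α) α := by
  have hsub : Ioo (-(π / 2)) (π / 2) ⊆ Ioo (-π) π :=
    Ioo_subset_Ioo (by linarith [Real.pi_pos]) (by linarith [Real.pi_pos])
  rw [← lintegral_indicator measurableSet_Ioo, ← lintegral_indicator measurableSet_Ioo]
  refine lintegral_congr fun α => ?_
  by_cases hα : α ∈ Ioo (-π) π
  · rw [indicator_of_mem hα]
    by_cases hc : α ∈ Ioo (-(π / 2)) (π / 2)
    · rw [indicator_of_mem hc, indicator_of_mem]
      exact mul_pos hρ ((cos_pos_iff_mem hα).2 hc)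
    · rw [indicator_of_notMem hc, indicator_of_notMem]
      intro h
      exact hc ((cos_pos_iff_mem hα).1 (pos_of_mul_pos_right h hρ.le))
  · rw [indicator_of_notMem hα, indicator_of_notMem fun h => hα (hsub h)]

/-- spherical coordinates for the standard Gaussian measure on three coordinates. -/
theorem lintegral_sphere {g : (Fin 3 → ℝ) → ℝ≥0∞} (hg : Measurable g) :
    ∫⁻ y, g y ∂(gaussPi 3) = ∫⁻ θ in Ioo (-π) π, ∫⁻ α in Ioo (-(π / 2)) (π / 2),
      ∫⁻ ρ in Ioi (0:ℝ),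
        ENNReal.ofReal ((√(2 * π))⁻¹ ^ 3 * cos α * (ρ ^ 2 * exp (-ρ ^ 2 / 2))) *
          g (ρ • sph (sin α) θ) := by
  set G : ℝ → ℝ × ℝ → ℝ≥0∞ := fun a p =>
    ENNReal.ofReal (phi a) * (ENNReal.ofReal (phi p.1 * phi p.2) * g ![a, p.1, p.2]) with hG
  have hv : Measurable fun q : ℝ × ℝ × ℝ => (![q.1, q.2.1, q.2.2] : Fin 3 → ℝ) := by
    refine measurable_pi_lambda _ fun i => ?_
    fin_cases i <;> simp <;> fun_prop
  have hgv : Measurable fun q : ℝ × ℝ × ℝ => g ![q.1, q.2.1, q.2.2] := hg.comp hv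
  have hGm : Measurable fun q : ℝ × ℝ × ℝ => G q.1 q.2 := by
    simp only [hG]
    exact (Measurable.ennreal_ofReal (by fun_prop)).mul
      ((Measurable.ennreal_ofReal (by fun_prop)).mul hgv)
  have step1 : ∫⁻ y, g y ∂(gaussPi 3) = ∫⁻ a, ∫⁻ p, G a p := by
    rw [lintegral_gaussPi_three hg, lintegral_prod _ hgv.aemeasurable,
      lintegral_γ hgv.lintegral_prod_right']
    refine lintegral_congr fun a => ?_
    have hga : Measurable fun p : ℝ × ℝ => g ![a, p.1, p.2] :=
      hgv.comp (f := fun p : ℝ × ℝ => (a, p)) (by fun_prop)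
    rw [lintegral_γ_prod hga, ← lintegral_const_mul _ (by fun_prop)]
  set F : ℝ → ℝ → ℝ → ℝ≥0∞ := fun θ a s => ENNReal.ofReal s * G a (s * cos θ, s * sin θ) with hF
  have hFm : Measurable fun q : ℝ × ℝ × ℝ => F q.1 q.2.1 q.2.2 := by
    simp only [hF]
    exact (Measurable.ennreal_ofReal (by fun_prop)).mul
      (hGm.comp (f := fun q : ℝ × ℝ × ℝ => (q.2.1, q.2.2 * cos q.1, q.2.2 * sin q.1))
        (by fun_prop))
  have step2 : ∫⁻ y, g y ∂(gaussPi 3)
      = ∫⁻ θ in Ioo (-π) π, ∫⁻ a, ∫⁻ s in Ioi (0:ℝ), F θ a s := by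
    rw [step1]
    have : ∀ a, ∫⁻ p, G a p = ∫⁻ θ in Ioo (-π) π, ∫⁻ s in Ioi (0:ℝ), F θ a s := fun a => by
      have hGa : Measurable fun p : ℝ × ℝ => G a p :=
        hGm.comp (f := fun p : ℝ × ℝ => (a, p)) (by fun_prop)
      rw [polar_lintegral hGa]
      rw [lintegral_lintegral_swap]
      exact (hFm.comp (f := fun q : ℝ × ℝ => (q.2, a, q.1)) (by fun_prop)).aemeasurable
    simp only [this]
    rw [lintegral_lintegral_swap]
    exact ((hFm.comp (f := fun r : (ℝ × ℝ) × ℝ => (r.1.2, r.1.1, r.2))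
      (by fun_prop)).lintegral_prod_right').aemeasurable
  rw [step2]
  refine lintegral_congr fun θ => ?_
  set H : ℝ × ℝ → ℝ≥0∞ := fun q => (Ioi (0:ℝ)).indicator (fun s => F θ q.2 s) q.1 with hH
  have hHm : Measurable H := by
    have : H = {q : ℝ × ℝ | 0 < q.1}.indicator fun q => F θ q.2 q.1 := by
      funext q
      by_cases h : 0 < q.1 <;> simp [hH, h]
    rw [this]
    exact (hFm.comp (f := fun q : ℝ × ℝ => (θ, q.2, q.1)) (by fun_prop)).indicator
      (measurableSet_lt measurable_const measurable_fst)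
  have step3 : ∫⁻ a, ∫⁻ s in Ioi (0:ℝ), F θ a s = ∫⁻ q, H q := by
    rw [Measure.volume_eq_prod, lintegral_prod_symm _ hHm.aemeasurable]
    refine lintegral_congr fun a => ?_
    rw [← lintegral_indicator measurableSet_Ioi]
  rw [step3, polar_lintegral hHm]
  have step4 : ∫⁻ ρ in Ioi (0:ℝ), ∫⁻ α in Ioo (-π) π,
        ENNReal.ofReal ρ * H (ρ * cos α, ρ * sin α)
      = ∫⁻ ρ in Ioi (0:ℝ), ∫⁻ α in Ioo (-(π / 2)) (π / 2),
        ENNReal.ofReal ρ * F θ (ρ * sin α) (ρ * cos α) := by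
    refine setLIntegral_congr_fun measurableSet_Ioi fun ρ hρ => ?_
    rw [lintegral_const_mul' _ _ ENNReal.ofReal_ne_top,
      lintegral_const_mul' _ _ ENNReal.ofReal_ne_top]
    congr 1
    exact setLIntegral_Ioi_cos (f := fun s α => F θ (ρ * sin α) s) ρ hρ
  rw [step4, lintegral_lintegral_swap]
  swap
  · exact ((Measurable.ennreal_ofReal (by fun_prop)).mul (hFm.comp
      (f := fun q : ℝ × ℝ => (θ, q.1 * sin q.2, q.1 * cos q.2)) (by fun_prop))).aemeasurable
  refine setLIntegral_congr_fun measurableSet_Ioo fun α hα => ?_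
  refine setLIntegral_congr_fun measurableSet_Ioi fun ρ hρ => ?_
  have hc : 0 < cos α := Real.cos_pos_of_mem_Ioo hα
  have hρ' : (0:ℝ) < ρ := hρ
  have hvec : (![ρ * sin α, ρ * cos α * cos θ, ρ * cos α * sin θ] : Fin 3 → ℝ)
      = ρ • sph (sin α) θ := by
    have : √(1 - sin α ^ 2) = cos α := by
      rw [← Real.cos_sq', Real.sqrt_sq hc.le]
    funext i
    fin_cases i <;> simp [sph, this] <;> ring
  simp only [hF, hG, hvec]
  rw [← mul_assoc, ← mul_assoc, ← mul_assoc, ← ENNReal.ofReal_mul hρ'.le,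
    ← ENNReal.ofReal_mul (by positivity), ← ENNReal.ofReal_mul
      (mul_nonneg (by positivity) (phi_nonneg _))]
  congr 2
  have hexp : exp (-(ρ * sin α) ^ 2 / 2) * exp (-(ρ * cos α * cos θ) ^ 2 / 2)
      * exp (-(ρ * cos α * sin θ) ^ 2 / 2) = exp (-ρ ^ 2 / 2) := by
    rw [← Real.exp_add, ← Real.exp_add]
    congr 1
    linear_combination (-(ρ ^ 2 * cos α ^ 2 / 2)) * Real.sin_sq_add_cos_sq θ
      - (ρ ^ 2 / 2) * Real.sin_sq_add_cos_sq α
  simp only [phi]
  linear_combination ((√(2 * π))⁻¹ ^ 3 * cos α * ρ ^ 2) * hexp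

/-- the slicing formula for homogeneous functions of degree one. -/
theorem slice_hh {w : ℝ} (hw : 0 ≤ w) {A : (Fin 3 → ℝ) → ℝ} (hm : Measurable A)
    (hhom : ∀ ρ x θ : ℝ, 0 < ρ → x ∈ Icc (-1:ℝ) 1 → A (ρ • sph x θ) = ρ * A (sph x θ))
    (hc : Continuous fun p : ℝ × ℝ => A (sph p.1 p.2)) :
    ∫ y, hh w (A y) ∂(gaussPi 3) =
      m3 / (4 * π) * ∫ x in (-1:ℝ)..1, ∫ θ in (-π)..π, KK w (A (sph x θ)) := by
  have hgm : Measurable fun y => hh w (A y) := measurable_hh_comp measurable_const hm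
  rw [integral_eq_lintegral_of_nonneg_ae (ae_of_all _ fun y => hh_nonneg _ _)
    hgm.aestronglyMeasurable, lintegral_sphere hgm.ennreal_ofReal]
  set C : ℝ := (√(2 * π))⁻¹ ^ 3 * 2 with hC
  set k : ℝ → ℝ → ℝ := fun x θ => KK w (A (sph x θ)) with hk
  have hkc : Continuous fun p : ℝ × ℝ => k p.1 p.2 := (continuous_KK w).comp hc
  have inner : ∀ θ : ℝ, ∀ α ∈ Ioo (-(π / 2)) (π / 2),
      ∫⁻ ρ in Ioi (0:ℝ), ENNReal.ofReal ((√(2 * π))⁻¹ ^ 3 * cos α * (ρ ^ 2 * exp (-ρ ^ 2 / 2))) *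
          ENNReal.ofReal (hh w (A (ρ • sph (sin α) θ)))
        = ENNReal.ofReal (C * cos α * k (sin α) θ) := by
    intro θ α hα
    have hcos : 0 < cos α := Real.cos_pos_of_mem_Ioo hα
    have hP : 0 ≤ (√(2 * π))⁻¹ ^ 3 * cos α := mul_nonneg (by positivity) hcos.le
    have e : C * cos α * k (sin α) θ = ((√(2 * π))⁻¹ ^ 3 * cos α) *
        ∫ ρ in Ioi (0:ℝ), ρ ^ 2 * exp (-ρ ^ 2 / 2) * hh w (ρ * A (sph (sin α) θ)) := by
      rw [(radial hw _).2, hC]; ring
    rw [e, ← integral_const_mul, ofReal_integral_eq_lintegral_ofReal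
      ((radial hw _).1.const_mul _) (ae_of_all _ fun ρ => by
        exact mul_nonneg hP (mul_nonneg (by positivity) (hh_nonneg _ _)))]
    refine setLIntegral_congr_fun measurableSet_Ioi fun ρ hρ => ?_
    rw [hhom ρ _ θ hρ (Real.sin_mem_Icc α), ← ENNReal.ofReal_mul (mul_nonneg hP (by positivity))]
    congr 1
    ring
  have hnn : ∀ θ α : ℝ, α ∈ Ioo (-(π / 2)) (π / 2) → 0 ≤ C * cos α * k (sin α) θ := fun θ α hα =>
    mul_nonneg (mul_nonneg (by positivity) (Real.cos_pos_of_mem_Ioo hα).le) (KK_nonneg hw _)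
  have mid : ∀ θ : ℝ, ∫⁻ α in Ioo (-(π / 2)) (π / 2), ∫⁻ ρ in Ioi (0:ℝ),
        ENNReal.ofReal ((√(2 * π))⁻¹ ^ 3 * cos α * (ρ ^ 2 * exp (-ρ ^ 2 / 2))) *
          ENNReal.ofReal (hh w (A (ρ • sph (sin α) θ)))
      = ENNReal.ofReal (C * ∫ x in (-1:ℝ)..1, k x θ) := by
    intro θ
    rw [setLIntegral_congr_fun measurableSet_Ioo (inner θ)]
    have hcα : Continuous fun α => C * cos α * k (sin α) θ :=
      (by fun_prop : Continuous fun α => C * cos α).mul
        (hkc.comp (by fun_prop : Continuous fun α => (sin α, θ)))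
    rw [← ofReal_integral_eq_lintegral_ofReal
      ((hcα.integrableOn_Icc).mono_set Ioo_subset_Icc_self)
      ((ae_restrict_iff' measurableSet_Ioo).2 (ae_of_all _ (hnn θ)))]
    congr 1
    rw [← integral_Ioc_eq_integral_Ioo,
      ← intervalIntegral.integral_of_le (by linarith [Real.pi_pos])]
    have hsub := intervalIntegral.integral_comp_mul_deriv (a := -(π / 2)) (b := π / 2)
      (f := sin) (f' := cos) (g := fun x => k x θ) (fun x _ => Real.hasDerivAt_sin x)
      Real.continuous_cos.continuousOn (hkc.comp (continuous_id.prodMk continuous_const))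
    rw [Real.sin_neg, Real.sin_pi_div_two] at hsub
    rw [← hsub, ← intervalIntegral.integral_const_mul]
    congr 1
    funext α
    simp only [Function.comp_apply]
    ring
  simp only [mid]
  have hcθ : Continuous fun θ => C * ∫ x in (-1:ℝ)..1, k x θ :=
    continuous_const.mul (intervalIntegral.continuous_parametric_intervalIntegral_of_continuous'
      (f := fun θ x => k x θ) (hkc.comp continuous_swap) (-1) 1)
  have hθnn : ∀ θ, 0 ≤ C * ∫ x in (-1:ℝ)..1, k x θ := fun θ =>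
    mul_nonneg (by positivity) (intervalIntegral.integral_nonneg (by norm_num)
      fun x _ => KK_nonneg hw _)
  rw [← ofReal_integral_eq_lintegral_ofReal
    ((hcθ.integrableOn_Icc).mono_set Ioo_subset_Icc_self) (ae_of_all _ hθnn),
    ENNReal.toReal_ofReal (setIntegral_nonneg measurableSet_Ioo fun θ _ => hθnn θ),
    ← integral_Ioc_eq_integral_Ioo, ← intervalIntegral.integral_of_le (by linarith [Real.pi_pos]),
    intervalIntegral.integral_const_mul, intervalIntegral_intervalIntegral_swap]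
  swap
  · exact ((hkc.comp continuous_swap).continuousOn.integrableOn_compact
      (isCompact_uIcc.prod isCompact_uIcc)).mono_set (prod_mono uIoc_subset_uIcc uIoc_subset_uIcc)
  congr 1
  rw [hC, m3]
  have h2 : √(2 * π) = √2 * √π := Real.sqrt_mul (by norm_num) _
  have h8 : √(8 / π) = 2 * √2 / √π := by
    rw [Real.sqrt_div' _ Real.pi_pos.le]
    congr 1
    rw [show (8:ℝ) = 2 ^ 2 * 2 by norm_num, Real.sqrt_mul (by norm_num), Real.sqrt_sq two_pos.le]
  rw [h2, h8]
  have p2 : √2 ^ 2 = 2 := Real.sq_sqrt (by norm_num)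
  have pp : √π ^ 2 = π := Real.sq_sqrt Real.pi_pos.le
  have : 0 < π := Real.pi_pos
  field_simp
  rw [show (√2:ℝ) ^ 4 = (√2 ^ 2) ^ 2 by ring, p2, pp]
  ring

end Vale.Agent.P226
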